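import Vale.Agent.H96.RealSpin

open Matrix

namespace Vale.Agent.H96

set_option linter.unusedSectionVars false

/-- The weight `sqrt (binomial d k)`. -/
noncomputable def bw (d k : ℕ) : ℝ := Real.sqrt (d.choose k)

theorem bw_nonneg (d k : ℕ) : 0 ≤ bw d k := Real.sqrt_nonneg _

theorem bw_pos {d k : ℕ} (hk : k ≤ d) : 0 < bw d k := by
  unfold bw
  exact Real.sqrt_pos.mpr (by exact_mod_cast Nat.choose_pos hk)

theorem bw_succ {d k : ℕ} (hk : k + 1 ≤ d) :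
    Real.sqrt (((k + 1 : ℕ) : ℝ) * ((d : ℝ) + 1 - ((k + 1 : ℕ) : ℝ))) * bw d (k + 1) =
      ((d : ℝ) - k) * bw d k := by
  unfold bw
  have h1 : (d.choose (k + 1) : ℝ) * ((k : ℝ) + 1) = (d.choose k : ℝ) * ((d : ℝ) - k) := by
    have := Nat.choose_succ_right_eq d k
    have h2 : ((d.choose (k + 1) * (k + 1) : ℕ) : ℝ) = ((d.choose k * (d - k) : ℕ) : ℝ) := by
      rw [this]
    rw [Nat.cast_mul, Nat.cast_mul, Nat.cast_sub (by omega)] at h2
    push_cast at h2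
    exact h2
  have hdk : (0 : ℝ) ≤ (d : ℝ) - k := by
    have : (k : ℝ) + 1 ≤ d := by exact_mod_cast hk
    linarith
  have h0 : (0 : ℝ) ≤ ((k + 1 : ℕ) : ℝ) * ((d : ℝ) + 1 - ((k + 1 : ℕ) : ℝ)) := by
    push_cast
    have : (0 : ℝ) ≤ (k : ℝ) + 1 := by positivity
    nlinarith
  rw [← Real.sqrt_mul h0]
  have h3 : ((k + 1 : ℕ) : ℝ) * ((d : ℝ) + 1 - ((k + 1 : ℕ) : ℝ)) * (d.choose (k + 1) : ℝ) =
      (((d : ℝ) - k) * ((d : ℝ) - k)) * (d.choose k : ℝ) := by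
    push_cast
    linear_combination ((d : ℝ) - k) * h1
  rw [h3, Real.sqrt_mul (mul_self_nonneg _), Real.sqrt_mul_self hdk]

theorem bw_pred {d k : ℕ} (hk : k + 1 ≤ d) :
    Real.sqrt (((k + 1 : ℕ) : ℝ) * ((d : ℝ) + 1 - ((k + 1 : ℕ) : ℝ))) * bw d k =
      ((k : ℝ) + 1) * bw d (k + 1) := by
  unfold bw
  have h1 : (d.choose (k + 1) : ℝ) * ((k : ℝ) + 1) = (d.choose k : ℝ) * ((d : ℝ) - k) := by
    have := Nat.choose_succ_right_eq d k
    have h2 : ((d.choose (k + 1) * (k + 1) : ℕ) : ℝ) = ((d.choose k * (d - k) : ℕ) : ℝ) := by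
      rw [this]
    rw [Nat.cast_mul, Nat.cast_mul, Nat.cast_sub (by omega)] at h2
    push_cast at h2
    exact h2
  have hk0 : (0 : ℝ) ≤ (k : ℝ) + 1 := by positivity
  have h0 : (0 : ℝ) ≤ ((k + 1 : ℕ) : ℝ) * ((d : ℝ) + 1 - ((k + 1 : ℕ) : ℝ)) := by
    push_cast
    have : (k : ℝ) + 1 ≤ d := by exact_mod_cast hk
    nlinarith
  rw [← Real.sqrt_mul h0]
  have h3 : ((k + 1 : ℕ) : ℝ) * ((d : ℝ) + 1 - ((k + 1 : ℕ) : ℝ)) * (d.choose k : ℝ) =
      (((k : ℝ) + 1) * ((k : ℝ) + 1)) * (d.choose (k + 1) : ℝ) := by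
    push_cast
    linear_combination (-((k : ℝ) + 1)) * h1
  rw [h3, Real.sqrt_mul (mul_self_nonneg _), Real.sqrt_mul_self hk0]

/-- The (unnormalized) spin coherent vector `∑_k sqrt (binomial d k) φ^k |k⟩`. -/
noncomputable def coh (d : ℕ) (φ : ℝ) : Fin (d + 1) → ℝ := fun k => bw d k * φ ^ (k : ℕ)

theorem spinZr_mulVec (d : ℕ) (g : Fin (d + 1) → ℝ) (k : Fin (d + 1)) :
    (spinZr d *ᵥ g) k = ((d : ℝ) / 2 - ((k : ℕ) : ℝ)) * g k := by
  unfold spinZr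
  rw [Matrix.mulVec_diagonal]

theorem spinPr_mulVec_coh (d : ℕ) (φ : ℝ) (k : Fin (d + 1)) :
    (spinPr d *ᵥ coh d φ) k = ((d : ℝ) - ((k : ℕ) : ℝ)) * bw d k * φ ^ ((k : ℕ) + 1) := by
  unfold Matrix.mulVec dotProduct spinPr coh
  simp only [Matrix.of_apply, ite_mul, zero_mul]
  rw [Fin.sum_univ_eq_sum_range (fun m => if m = (k : ℕ) + 1 then
    Real.sqrt ((m : ℝ) * ((d : ℝ) + 1 - (m : ℝ))) * (bw d m * φ ^ m) else 0) (d + 1),
    Finset.sum_ite_eq']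
  by_cases hk : (k : ℕ) + 1 ≤ d
  · rw [if_pos (Finset.mem_range.mpr (by omega)), ← mul_assoc, bw_succ hk]
  · have hkd : (k : ℕ) = d := by have := k.2; omega
    rw [if_neg (by rw [Finset.mem_range]; omega), hkd]
    ring

theorem spinMr_mulVec_coh (d : ℕ) (φ : ℝ) (k : Fin (d + 1)) :
    (spinMr d *ᵥ coh d φ) k = ((k : ℕ) : ℝ) * bw d k * φ ^ ((k : ℕ) - 1) := by
  unfold Matrix.mulVec dotProduct spinMr spinPr coh
  simp only [Matrix.transpose_apply, Matrix.of_apply, ite_mul, zero_mul]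
  rw [Fin.sum_univ_eq_sum_range (fun m => if (k : ℕ) = m + 1 then
    Real.sqrt (((k : ℕ) : ℝ) * ((d : ℝ) + 1 - ((k : ℕ) : ℝ))) * (bw d m * φ ^ m) else 0) (d + 1)]
  rcases Nat.eq_zero_or_pos (k : ℕ) with hk | hk
  · rw [hk]
    simp
  · obtain ⟨j, hj⟩ : ∃ j, (k : ℕ) = j + 1 := ⟨(k : ℕ) - 1, by omega⟩
    rw [Finset.sum_eq_single j]
    · rw [if_pos hj, hj, ← mul_assoc, bw_pred (by have := k.2; omega)]
      simp
    · intro m _ hm
      rw [if_neg (by omega)]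
    · intro hm
      exfalso; apply hm; rw [Finset.mem_range]; have := k.2; omega

end Vale.Agent.H96

namespace Vale.Agent.H96

set_option linter.unusedSectionVars false

variable {V : Type*} [Fintype V] [DecidableEq V] {α : Type*} [Fintype α] [DecidableEq α]

/-- Product vectors on configurations. -/
def prodVec (g : V → α → ℝ) : (V → α) → ℝ := fun σ => ∏ x, g x (σ x)

theorem prodVec_eval1 (g : V → α → ℝ) (σ : V → α) (x : V) :
    prodVec g σ = g x (σ x) * ∏ w ∈ Finset.univ.erase x, g w (σ w) := by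
  unfold prodVec
  rw [Finset.mul_prod_erase Finset.univ (fun w => g w (σ w)) (Finset.mem_univ x)]

theorem prod_erase_eval (g : V → α → ℝ) (σ : V → α) {x y : V} (hxy : x ≠ y) :
    ∏ w ∈ Finset.univ.erase x, g w (σ w) =
      g y (σ y) * ∏ w ∈ (Finset.univ.erase x).erase y, g w (σ w) := by
  rw [Finset.mul_prod_erase (Finset.univ.erase x) (fun w => g w (σ w))
    (Finset.mem_erase.mpr ⟨hxy.symm, Finset.mem_univ y⟩)]

theorem prodVec_eval2 (g : V → α → ℝ) (σ : V → α) {x y : V} (hxy : x ≠ y) :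
    prodVec g σ = g x (σ x) * g y (σ y) * ∏ w ∈ (Finset.univ.erase x).erase y, g w (σ w) := by
  rw [prodVec_eval1 g σ x, prod_erase_eval g σ hxy, mul_assoc]

theorem siteOpR_mulVec_prodVec (x : V) (A : Matrix α α ℝ) (g : V → α → ℝ) :
    siteOpR x A *ᵥ prodVec g = prodVec (Function.update g x (A *ᵥ g x)) := by
  funext σ
  rw [siteOpR_mulVec, prodVec_eval1 _ σ x, Function.update_self]
  have h1 : ∀ k, prodVec g (Function.update σ x k) =
      g x k * ∏ y ∈ Finset.univ.erase x, g y (σ y) := by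
    intro k
    rw [prodVec_eval1 g _ x, Function.update_self]
    congr 1
    refine Finset.prod_congr rfl fun y hy => ?_
    rw [Function.update_of_ne (Finset.ne_of_mem_erase hy)]
  have h2 : ∏ w ∈ Finset.univ.erase x, Function.update g x (A *ᵥ g x) w (σ w) =
      ∏ y ∈ Finset.univ.erase x, g y (σ y) := by
    refine Finset.prod_congr rfl fun y hy => ?_
    rw [Function.update_of_ne (Finset.ne_of_mem_erase hy)]
  simp only [h1]
  rw [h2, Matrix.mulVec, dotProduct, Finset.sum_mul]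
  refine Finset.sum_congr rfl fun k _ => ?_
  ring

theorem pair_mulVec_prodVec {x y : V} (hxy : x ≠ y) (A B : Matrix α α ℝ) (g : V → α → ℝ)
    (σ : V → α) :
    ((siteOpR x A * siteOpR y B) *ᵥ prodVec g) σ =
      (A *ᵥ g x) (σ x) * (B *ᵥ g y) (σ y) *
        ∏ w ∈ (Finset.univ.erase x).erase y, g w (σ w) := by
  rw [← Matrix.mulVec_mulVec, siteOpR_mulVec_prodVec y, siteOpR_mulVec_prodVec x,
    prodVec_eval2 _ σ hxy, Function.update_self, Function.update_of_ne hxy.symm,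
    Function.update_self, Function.update_of_ne hxy]
  congr 1
  refine Finset.prod_congr rfl fun w hw => ?_
  have hwy : w ≠ y := Finset.ne_of_mem_erase hw
  have hwx : w ≠ x := Finset.ne_of_mem_erase (Finset.mem_of_mem_erase hw)
  rw [Function.update_of_ne hwx, Function.update_of_ne hwy]

variable (d : ℕ)

/-- The product of spin coherent vectors with site-dependent parameter `φ`. -/
noncomputable def cohVec (φ : V → ℝ) : (V → Fin (d + 1)) → ℝ :=
  prodVec fun w => coh d (φ w)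

theorem cohVec_nonneg {φ : V → ℝ} (hφ : ∀ x, 0 ≤ φ x) (σ : V → Fin (d + 1)) :
    0 ≤ cohVec d φ σ := by
  unfold cohVec prodVec coh
  exact Finset.prod_nonneg fun x _ => mul_nonneg (bw_nonneg _ _) (pow_nonneg (hφ x) _)

theorem dotR_mulVec_cohVec {x y : V} (hxy : x ≠ y) (φ : V → ℝ) (σ : V → Fin (d + 1)) :
    (dotR d x y *ᵥ cohVec d φ) σ =
      ((((d : ℝ) / 2 - ((σ x : ℕ) : ℝ)) * (bw d (σ x) * φ x ^ (σ x : ℕ))) *
          (((d : ℝ) / 2 - ((σ y : ℕ) : ℝ)) * (bw d (σ y) * φ y ^ (σ y : ℕ))) +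
        (1 / 2 : ℝ) *
          ((((d : ℝ) - ((σ x : ℕ) : ℝ)) * bw d (σ x) * φ x ^ ((σ x : ℕ) + 1)) *
              (((σ y : ℕ) : ℝ) * bw d (σ y) * φ y ^ ((σ y : ℕ) - 1)) +
            (((σ x : ℕ) : ℝ) * bw d (σ x) * φ x ^ ((σ x : ℕ) - 1)) *
              (((d : ℝ) - ((σ y : ℕ) : ℝ)) * bw d (σ y) * φ y ^ ((σ y : ℕ) + 1)))) *
        ∏ w ∈ (Finset.univ.erase x).erase y, coh d (φ w) (σ w) := by
  unfold dotR cohVec
  rw [Matrix.add_mulVec, Matrix.smul_mulVec, Matrix.add_mulVec]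
  simp only [Pi.add_apply, Pi.smul_apply, smul_eq_mul]
  rw [pair_mulVec_prodVec hxy, pair_mulVec_prodVec hxy, pair_mulVec_prodVec hxy]
  simp only [spinZr_mulVec, spinPr_mulVec_coh, spinMr_mulVec_coh]
  unfold coh
  ring

end Vale.Agent.H96

namespace Vale.Agent.H96

set_option linter.unusedSectionVars false

/-- The edge defect polynomial of the coherent supersolution. -/
noncomputable def tau (d m n : ℕ) (X Y : ℝ) : ℝ :=
  (d : ℝ) / 2 * m * X ^ (m - 1) * (Y - X) * Y ^ n -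
    (1 / 2 : ℝ) * ((((d : ℝ) / 2 - m) * ((d : ℝ) / 2 - n) - (d : ℝ) ^ 2 / 4) * X ^ m * Y ^ n +
      (1 / 2 : ℝ) * (((d : ℝ) - m) * X ^ (m + 1) * (n * Y ^ (n - 1)) +
        m * X ^ (m - 1) * (((d : ℝ) - n) * Y ^ (n + 1))))

theorem tau_symm (d m n : ℕ) (X Y : ℝ) :
    tau d m n X Y + tau d n m Y X =
      (1 / 2 : ℝ) * m * n * X ^ (m - 1) * Y ^ (n - 1) * (X - Y) ^ 2 := by
  rcases m with _ | m <;> rcases n with _ | n <;>
    simp only [tau, Nat.cast_zero, Nat.cast_succ, Nat.add_sub_cancel, Nat.zero_sub, pow_zero,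
      pow_succ] <;> ring

variable {V : Type*} [Fintype V] [DecidableEq V] (d : ℕ)

theorem edge_term {x y : V} (hxy : x ≠ y) (φ : V → ℝ) (σ : V → Fin (d + 1)) :
    (d : ℝ) / 2 * ((∏ w ∈ Finset.univ.erase x, coh d (φ w) (σ w)) *
        (bw d (σ x) * (((σ x : ℕ) : ℝ) * φ x ^ ((σ x : ℕ) - 1) * (φ y - φ x)))) -
      (1 / 2 : ℝ) * ((dotR d x y *ᵥ cohVec d φ) σ - (d : ℝ) ^ 2 / 4 * cohVec d φ σ) =
      (∏ w ∈ (Finset.univ.erase x).erase y, coh d (φ w) (σ w)) *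
        (bw d (σ x) * bw d (σ y)) * tau d (σ x) (σ y) (φ x) (φ y) := by
  rw [dotR_mulVec_cohVec d hxy, prod_erase_eval _ σ hxy]
  have hW : cohVec d φ σ = coh d (φ x) (σ x) * coh d (φ y) (σ y) *
      ∏ w ∈ (Finset.univ.erase x).erase y, coh d (φ w) (σ w) := prodVec_eval2 _ σ hxy
  rw [hW]
  unfold tau coh
  ring

theorem sum_edge_nonneg {E : Finset (V × V)} (hEs : ∀ e ∈ E, (e.2, e.1) ∈ E)
    {φ : V → ℝ} (hφ : ∀ x, 0 ≤ φ x) (σ : V → Fin (d + 1)) :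
    0 ≤ ∑ e ∈ E, (∏ w ∈ (Finset.univ.erase e.1).erase e.2, coh d (φ w) (σ w)) *
        (bw d (σ e.1) * bw d (σ e.2)) * tau d (σ e.1) (σ e.2) (φ e.1) (φ e.2) := by
  set f : V × V → ℝ := fun e => (∏ w ∈ (Finset.univ.erase e.1).erase e.2, coh d (φ w) (σ w)) *
        (bw d (σ e.1) * bw d (σ e.2)) * tau d (σ e.1) (σ e.2) (φ e.1) (φ e.2) with hf
  have hswap : ∑ e ∈ E, f e = ∑ e ∈ E, f (e.2, e.1) := by
    refine Finset.sum_nbij' (fun e => (e.2, e.1)) (fun e => (e.2, e.1)) ?_ ?_ ?_ ?_ ?_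
    · intro e he; exact hEs e he
    · intro e he; exact hEs e he
    · intro e _; rfl
    · intro e _; rfl
    · intro e _; rfl
  have hpos : ∀ e ∈ E, 0 ≤ f e + f (e.2, e.1) := by
    intro e _
    have hrest : 0 ≤ ∏ w ∈ (Finset.univ.erase e.1).erase e.2, coh d (φ w) (σ w) :=
      Finset.prod_nonneg fun w _ => mul_nonneg (bw_nonneg _ _) (pow_nonneg (hφ w) _)
    have e1 : f e + f (e.2, e.1) =
        (∏ w ∈ (Finset.univ.erase e.1).erase e.2, coh d (φ w) (σ w)) *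
          (bw d (σ e.1) * bw d (σ e.2)) *
          (tau d (σ e.1) (σ e.2) (φ e.1) (φ e.2) + tau d (σ e.2) (σ e.1) (φ e.2) (φ e.1)) := by
      simp only [hf]
      rw [Finset.erase_right_comm (a := e.2) (b := e.1)]
      ring
    rw [e1, tau_symm]
    refine mul_nonneg (mul_nonneg hrest (mul_nonneg (bw_nonneg _ _) (bw_nonneg _ _))) ?_
    have h1 := hφ e.1
    have h2 := hφ e.2
    positivity
  have h2 : 0 ≤ ∑ e ∈ E, (f e + f (e.2, e.1)) := Finset.sum_nonneg hpos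
  rw [Finset.sum_add_distrib, ← hswap] at h2
  linarith

end Vale.Agent.H96

namespace Vale.Agent.H96

set_option linter.unusedSectionVars false

variable {V : Type*} [Fintype V] [DecidableEq V] (d : ℕ)

/-- The coherent product vector is a supersolution for the Heisenberg generator: the action of
the generator is bounded by the derivative along the lattice heat flow with killing rate `h`. -/
theorem genR_cohVec_le {E : Finset (V × V)} (hEs : ∀ e ∈ E, (e.2, e.1) ∈ E)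
    (hEi : ∀ e ∈ E, e.1 ≠ e.2) (h : ℝ) {φ : V → ℝ} (hφ : ∀ x, 0 ≤ φ x)
    (σ : V → Fin (d + 1)) :
    (genR d E h *ᵥ cohVec d φ) σ ≤
      ∑ x, (∏ w ∈ Finset.univ.erase x, coh d (φ w) (σ w)) *
        (bw d (σ x) * (((σ x : ℕ) : ℝ) * φ x ^ ((σ x : ℕ) - 1) *
          (-(h * φ x) + (d : ℝ) / 2 * (lapM E *ᵥ φ) x))) := by
  have hL : (genR d E h *ᵥ cohVec d φ) σ =
      (1 / 2 : ℝ) * ∑ e ∈ E, ((dotR d e.1 e.2 *ᵥ cohVec d φ) σ -
          (d : ℝ) ^ 2 / 4 * cohVec d φ σ) -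
        h * ((∑ x, ((σ x : ℕ) : ℝ)) * cohVec d φ σ) := by
    unfold genR numR
    simp only [Pi.sub_apply, Pi.smul_apply, smul_eq_mul, Finset.sum_apply, Matrix.sub_mulVec,
      Matrix.smul_mulVec, Matrix.one_mulVec, Matrix.sum_mulVec, Matrix.mulVec_diagonal]
  have hpow : ∀ (m : ℕ) (X : ℝ), (m : ℝ) * X ^ (m - 1) * X = m * X ^ m := by
    intro m X
    rcases m with _ | m
    · simp
    · rw [Nat.add_sub_cancel, pow_succ]; ring
  have hR1 : ∀ x, (∏ w ∈ Finset.univ.erase x, coh d (φ w) (σ w)) *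
        (bw d (σ x) * (((σ x : ℕ) : ℝ) * φ x ^ ((σ x : ℕ) - 1) *
          (-(h * φ x) + (d : ℝ) / 2 * (lapM E *ᵥ φ) x))) =
      -(h * (((σ x : ℕ) : ℝ) * cohVec d φ σ)) +
        (d : ℝ) / 2 * ∑ e ∈ E, if e.1 = x then
          (∏ w ∈ Finset.univ.erase x, coh d (φ w) (σ w)) *
            (bw d (σ x) * (((σ x : ℕ) : ℝ) * φ x ^ ((σ x : ℕ) - 1) * (φ e.2 - φ e.1))) else 0 := by
    intro x
    have hW : cohVec d φ σ =
        coh d (φ x) (σ x) * ∏ w ∈ Finset.univ.erase x, coh d (φ w) (σ w) := prodVec_eval1 _ σ x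
    have hs : (∑ e ∈ E, if e.1 = x then
          (∏ w ∈ Finset.univ.erase x, coh d (φ w) (σ w)) *
            (bw d (σ x) * (((σ x : ℕ) : ℝ) * φ x ^ ((σ x : ℕ) - 1) * (φ e.2 - φ e.1))) else 0) =
        (∏ w ∈ Finset.univ.erase x, coh d (φ w) (σ w)) *
            (bw d (σ x) * (((σ x : ℕ) : ℝ) * φ x ^ ((σ x : ℕ) - 1) *
              ∑ e ∈ E, if e.1 = x then φ e.2 - φ e.1 else 0)) := by
      simp only [Finset.mul_sum, mul_ite, mul_zero]
    have hc : coh d (φ x) (σ x) = bw d (σ x) * φ x ^ (σ x : ℕ) := rfl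
    rw [hs, hW, lapM_mulVec, hc]
    have := hpow (σ x : ℕ) (φ x)
    linear_combination (-h * (∏ w ∈ Finset.univ.erase x, coh d (φ w) (σ w)) * bw d (σ x)) * this
  have hR : ∑ x, (∏ w ∈ Finset.univ.erase x, coh d (φ w) (σ w)) *
        (bw d (σ x) * (((σ x : ℕ) : ℝ) * φ x ^ ((σ x : ℕ) - 1) *
          (-(h * φ x) + (d : ℝ) / 2 * (lapM E *ᵥ φ) x))) =
      -(h * ((∑ x, ((σ x : ℕ) : ℝ)) * cohVec d φ σ)) +
        (d : ℝ) / 2 * ∑ e ∈ E, (∏ w ∈ Finset.univ.erase e.1, coh d (φ w) (σ w)) *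
            (bw d (σ e.1) * (((σ e.1 : ℕ) : ℝ) * φ e.1 ^ ((σ e.1 : ℕ) - 1) *
              (φ e.2 - φ e.1))) := by
    simp only [hR1]
    rw [Finset.sum_add_distrib, ← Finset.mul_sum, Finset.sum_comm]
    congr 1
    · rw [Finset.sum_mul, Finset.mul_sum, Finset.sum_neg_distrib]
    · congr 1
      refine Finset.sum_congr rfl fun e _ => ?_
      rw [Finset.sum_ite_eq]
      simp
  rw [hL, hR]
  have hkey := sum_edge_nonneg d hEs hφ σ
  have hsum : ∑ e ∈ E, (∏ w ∈ (Finset.univ.erase e.1).erase e.2, coh d (φ w) (σ w)) *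
        (bw d (σ e.1) * bw d (σ e.2)) * tau d (σ e.1) (σ e.2) (φ e.1) (φ e.2) =
      (d : ℝ) / 2 * ∑ e ∈ E, (∏ w ∈ Finset.univ.erase e.1, coh d (φ w) (σ w)) *
            (bw d (σ e.1) * (((σ e.1 : ℕ) : ℝ) * φ e.1 ^ ((σ e.1 : ℕ) - 1) *
              (φ e.2 - φ e.1))) -
        (1 / 2 : ℝ) * ∑ e ∈ E, ((dotR d e.1 e.2 *ᵥ cohVec d φ) σ -
          (d : ℝ) ^ 2 / 4 * cohVec d φ σ) := by
    rw [Finset.mul_sum, Finset.mul_sum, ← Finset.sum_sub_distrib]
    refine Finset.sum_congr rfl fun e he => ?_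
    rw [← edge_term d (hEi e he)]
  linarith

end Vale.Agent.H96
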