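import Vale.Agent.H96.PathEig
import Vale.Agent.H96.Coherent

open Matrix

namespace Vale.Agent.H96

set_option linter.unusedSectionVars false

theorem ind_sum3 (a : Fin 3 → ℕ) :
    (∑ j : Fin 3, if (a j = 1 ∧ ∀ i, i ≠ j → a i = 0) then (1 : ℝ) else 0) =
      if ∑ j, a j = 1 then 1 else 0 := by
  have h0 : (∀ i : Fin 3, i ≠ 0 → a i = 0) ↔ (a 1 = 0 ∧ a 2 = 0) := by
    constructor
    · intro h; exact ⟨h 1 (by decide), h 2 (by decide)⟩
    · rintro ⟨h1, h2⟩ i hi
      fin_cases i
      · exact absurd rfl hi
      · exact h1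
      · exact h2
  have h1 : (∀ i : Fin 3, i ≠ 1 → a i = 0) ↔ (a 0 = 0 ∧ a 2 = 0) := by
    constructor
    · intro h; exact ⟨h 0 (by decide), h 2 (by decide)⟩
    · rintro ⟨h1, h2⟩ i hi
      fin_cases i
      · exact h1
      · exact absurd rfl hi
      · exact h2
  have h2 : (∀ i : Fin 3, i ≠ 2 → a i = 0) ↔ (a 0 = 0 ∧ a 1 = 0) := by
    constructor
    · intro h; exact ⟨h 0 (by decide), h 1 (by decide)⟩
    · rintro ⟨h1, h2⟩ i hi
      fin_cases i
      · exact h1
      · exact h2
      · exact absurd rfl hi
  rw [Fin.sum_univ_three, Fin.sum_univ_three]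
  simp only [h0, h1, h2]
  split_ifs <;> first | (exfalso; omega) | norm_num

/-- Decomposition of the sum over nearest neighbours of a site of the box into coordinates. -/
theorem nn_sum_decomp {N : ℕ} (x : Site N) (G : Site N → ℝ) :
    ∑ y : Site N, (if l1dist x y = 1 then G y else 0) =
      ∑ j : Fin 3, ∑ c : Fin (2 * N + 1),
        (if Nat.dist (c : ℕ) (x j : ℕ) = 1 then G (Function.update x j c) else 0) := by
  have hind : ∀ y : Site N, (∑ j : Fin 3, ∑ c : Fin (2 * N + 1),
      (if Nat.dist (c : ℕ) (x j : ℕ) = 1 then (if Function.update x j c = y then (1 : ℝ) else 0)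
        else 0)) = if l1dist x y = 1 then 1 else 0 := by
    intro y
    have hj : ∀ j : Fin 3, (∑ c : Fin (2 * N + 1),
        (if Nat.dist (c : ℕ) (x j : ℕ) = 1 then
          (if Function.update x j c = y then (1 : ℝ) else 0) else 0)) =
        if (Nat.dist (x j : ℕ) (y j : ℕ) = 1 ∧
          ∀ i, i ≠ j → Nat.dist (x i : ℕ) (y i : ℕ) = 0) then 1 else 0 := by
      intro j
      rw [Finset.sum_eq_single (y j)]
      · have hupd : Function.update x j (y j) = y ↔
            ∀ i, i ≠ j → Nat.dist (x i : ℕ) (y i : ℕ) = 0 := by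
          constructor
          · intro h i hi
            have := congrFun h i
            rw [Function.update_of_ne hi] at this
            rw [this, Nat.dist_self]
          · intro h2
            funext i
            by_cases hi : i = j
            · subst hi; simp
            · rw [Function.update_of_ne hi]
              exact Fin.ext (Nat.eq_of_dist_eq_zero (h2 i hi))
        rw [Nat.dist_comm (y j : ℕ) (x j : ℕ)]
        by_cases h1 : Nat.dist (x j : ℕ) (y j : ℕ) = 1
        · by_cases h2 : ∀ i, i ≠ j → Nat.dist (x i : ℕ) (y i : ℕ) = 0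
          · rw [if_pos h1, if_pos (hupd.mpr h2), if_pos ⟨h1, h2⟩]
          · rw [if_pos h1, if_neg (fun h => h2 (hupd.mp h)), if_neg (fun h => h2 h.2)]
        · rw [if_neg h1, if_neg (fun h => h1 h.1)]
      · intro c _ hc
        have : Function.update x j c ≠ y := by
          intro h
          apply hc
          have := congrFun h j
          rw [Function.update_self] at this
          exact this
        rw [if_neg this]
        simp
      · intro h; exact absurd (Finset.mem_univ _) h
    simp only [hj]
    exact ind_sum3 (fun j => Nat.dist (x j : ℕ) (y j : ℕ))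
  have h1 : ∀ (j : Fin 3) (c : Fin (2 * N + 1)),
      (if Nat.dist (c : ℕ) (x j : ℕ) = 1 then G (Function.update x j c) else 0) =
      ∑ y : Site N, G y * (if Nat.dist (c : ℕ) (x j : ℕ) = 1 then
        (if Function.update x j c = y then (1 : ℝ) else 0) else 0) := by
    intro j c
    split_ifs with h
    · simp
    · simp
  simp only [h1]
  have h2 : ∑ j : Fin 3, ∑ c : Fin (2 * N + 1), ∑ y : Site N, G y *
      (if Nat.dist (c : ℕ) (x j : ℕ) = 1 then
        (if Function.update x j c = y then (1 : ℝ) else 0) else 0) =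
      ∑ y : Site N, G y * ∑ j : Fin 3, ∑ c : Fin (2 * N + 1),
        (if Nat.dist (c : ℕ) (x j : ℕ) = 1 then
          (if Function.update x j c = y then (1 : ℝ) else 0) else 0) := by
    simp only [Finset.mul_sum]
    calc _ = ∑ j : Fin 3, ∑ y : Site N, ∑ c : Fin (2 * N + 1), G y *
          (if Nat.dist (c : ℕ) (x j : ℕ) = 1 then
            (if Function.update x j c = y then (1 : ℝ) else 0) else 0) :=
          Finset.sum_congr rfl fun j _ => Finset.sum_comm
      _ = _ := Finset.sum_comm
  rw [h2]
  refine Finset.sum_congr rfl fun y _ => ?_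
  rw [hind y]
  split_ifs <;> simp

end Vale.Agent.H96

namespace Vale.Agent.H96

set_option linter.unusedSectionVars false

theorem lapM_box_mulVec (N : ℕ) (F : Site N → ℝ) (x : Site N) :
    (lapM (nnPairs N) *ᵥ F) x = ∑ y : Site N, (if l1dist x y = 1 then F y - F x else 0) := by
  rw [lapM_mulVec]
  unfold nnPairs
  rw [Finset.sum_filter, Fintype.sum_prod_type]
  simp only
  rw [Finset.sum_eq_single x]
  · refine Finset.sum_congr rfl fun y _ => ?_
    simp
  · intro x' _ hx'
    apply Finset.sum_eq_zero
    intro y _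
    rw [if_neg hx']
    simp
  · intro h; exact absurd (Finset.mem_univ _) h

theorem prodVec_update {V : Type*} [Fintype V] [DecidableEq V] {α : Type*}
    (g : V → α → ℝ) (σ : V → α) (x : V) (k : α) :
    prodVec g (Function.update σ x k) = g x k * ∏ y ∈ Finset.univ.erase x, g y (σ y) := by
  unfold prodVec
  rw [← Finset.mul_prod_erase Finset.univ _ (Finset.mem_univ x), Function.update_self]
  congr 1
  refine Finset.prod_congr rfl fun y hy => ?_
  rw [Function.update_of_ne (Finset.ne_of_mem_erase hy)]

/-- The product cosine eigenvectors of the Laplacian of the box. -/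
noncomputable def boxVec (N : ℕ) (k : Site N) : Site N → ℝ :=
  prodVec (α := Fin (2 * N + 1)) fun j c => vcos (2 * N + 1) (k j) c

/-- The eigenvalues of the Laplacian of the box (with the sign convention `Δ W = -Λ W`). -/
noncomputable def boxLam (N : ℕ) (k : Site N) : ℝ := ∑ j : Fin 3, lam (2 * N + 1) (k j)

theorem box_eig (N : ℕ) (k x : Site N) :
    (lapM (nnPairs N) *ᵥ boxVec N k) x = -(boxLam N k) * boxVec N k x := by
  rw [lapM_box_mulVec, nn_sum_decomp x (fun y => boxVec N k y - boxVec N k x)]
  unfold boxLam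
  rw [neg_mul, Finset.sum_mul, ← Finset.sum_neg_distrib]
  refine Finset.sum_congr rfl fun j _ => ?_
  have h1 : ∀ c : Fin (2 * N + 1),
      (if Nat.dist (c : ℕ) (x j : ℕ) = 1 then
        boxVec N k (Function.update x j c) - boxVec N k x else 0) =
      (if Nat.dist (c : ℕ) (x j : ℕ) = 1 then
        vcos (2 * N + 1) (k j) c - vcos (2 * N + 1) (k j) (x j) else 0) *
        ∏ i ∈ Finset.univ.erase j, vcos (2 * N + 1) (k i) (x i) := by
    intro c
    split_ifs with h
    · unfold boxVec
      rw [prodVec_update, prodVec_eval1 _ x j]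
      ring
    · rw [zero_mul]
  simp only [h1]
  rw [← Finset.sum_mul, path_eig (by omega)]
  unfold boxVec
  rw [prodVec_eval1 _ x j]
  ring

theorem box_orth (N : ℕ) (k l : Site N) :
    ∑ x : Site N, boxVec N k x * boxVec N l x =
      if k = l then ∏ j : Fin 3, ∑ c : Fin (2 * N + 1),
        vcos (2 * N + 1) (k j) c * vcos (2 * N + 1) (k j) c else 0 := by
  have h1 : ∑ x : Site N, boxVec N k x * boxVec N l x =
      ∏ j : Fin 3, ∑ c : Fin (2 * N + 1),
        vcos (2 * N + 1) (k j) c * vcos (2 * N + 1) (l j) c := by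
    rw [Finset.prod_univ_sum]
    simp only [Fintype.piFinset_univ]
    refine Finset.sum_congr rfl fun x _ => ?_
    unfold boxVec prodVec
    rw [Finset.prod_mul_distrib]
  rw [h1]
  split_ifs with h
  · subst h; rfl
  · have : ∃ j, k j ≠ l j := by
      by_contra hne
      simp only [not_exists, not_not] at hne
      exact h (funext hne)
    obtain ⟨j, hj⟩ := this
    apply Finset.prod_eq_zero (Finset.mem_univ j)
    exact path_orth (k j).2 (l j).2 (fun hv => hj (Fin.ext hv))

end Vale.Agent.H96

namespace Vale.Agent.H96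

set_option linter.unusedSectionVars false

/-- The matrix whose columns are the product cosine eigenvectors. -/
noncomputable def boxW (N : ℕ) : Matrix (Site N) (Site N) ℝ := Matrix.of fun x k => boxVec N k x

theorem boxW_gram (N : ℕ) : (boxW N)ᵀ * boxW N = Matrix.diagonal (fun k : Site N =>
    ∏ j : Fin 3, ∑ c : Fin (2 * N + 1),
      vcos (2 * N + 1) (k j) c * vcos (2 * N + 1) (k j) c) := by
  ext k l
  rw [Matrix.mul_apply, Matrix.diagonal_apply]
  simp only [Matrix.transpose_apply, boxW, Matrix.of_apply]
  rw [box_orth]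

theorem boxW_isUnit (N : ℕ) : IsUnit (boxW N).det := by
  have h := congrArg Matrix.det (boxW_gram N)
  rw [Matrix.det_mul, Matrix.det_transpose, Matrix.det_diagonal] at h
  have hpos : 0 < ∏ k : Site N, ∏ j : Fin 3, ∑ c : Fin (2 * N + 1),
      vcos (2 * N + 1) (k j) c * vcos (2 * N + 1) (k j) c :=
    Finset.prod_pos fun k _ => Finset.prod_pos fun j _ => vcos_norm_pos (k j).2
  rw [isUnit_iff_ne_zero]
  intro h0
  rw [h0, zero_mul] at h
  linarith

theorem box_diag (N : ℕ) : lapM (nnPairs N) * boxW N =
    boxW N * Matrix.diagonal (fun k : Site N => -(boxLam N k)) := by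
  ext x k
  rw [Matrix.mul_diagonal, Matrix.mul_apply]
  have h := box_eig N k x
  simp only [Matrix.mulVec, dotProduct] at h
  simp only [boxW, Matrix.of_apply]
  rw [h]
  ring

/-- The trace of the heat kernel of the box is the cube of a one-dimensional spectral sum. -/
theorem box_trace (N : ℕ) (s : ℝ) : Matrix.trace (hker (nnPairs N) s) =
    (∑ κ : Fin (2 * N + 1), Real.exp (-(s * lam (2 * N + 1) κ))) ^ 3 := by
  have hU := boxW_isUnit N
  have hUm : IsUnit (boxW N) := (Matrix.isUnit_iff_isUnit_det _).mpr hU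
  have hdiag : s • lapM (nnPairs N) =
      boxW N * Matrix.diagonal (fun k : Site N => -(s * boxLam N k)) * (boxW N)⁻¹ := by
    have h1 : lapM (nnPairs N) =
        boxW N * Matrix.diagonal (fun k : Site N => -(boxLam N k)) * (boxW N)⁻¹ := by
      rw [← box_diag, Matrix.mul_assoc, Matrix.mul_nonsing_inv _ hU, Matrix.mul_one]
    have h2 : Matrix.diagonal (fun k : Site N => -(s * boxLam N k)) =
        s • Matrix.diagonal (fun k : Site N => -(boxLam N k)) := by
      ext k l
      simp only [Matrix.diagonal_apply, Matrix.smul_apply, smul_eq_mul]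
      split_ifs <;> ring
    rw [h2, Matrix.mul_smul, Matrix.smul_mul, ← h1]
  unfold hker
  rw [hdiag, Matrix.exp_conj _ _ hUm, Matrix.trace_mul_cycle, Matrix.nonsing_inv_mul _ hU,
    Matrix.one_mul, Matrix.exp_diagonal, Matrix.trace_diagonal]
  simp only [Pi.exp_def, ← Real.exp_eq_exp_ℝ]
  have h3 : ∀ k : Site N, Real.exp (-(s * boxLam N k)) =
      ∏ j : Fin 3, Real.exp (-(s * lam (2 * N + 1) (k j))) := by
    intro k
    rw [← Real.exp_sum]
    congr 1
    unfold boxLam
    rw [Finset.mul_sum, Finset.sum_neg_distrib]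
  simp only [h3]
  have h4 := Finset.prod_univ_sum (fun _ : Fin 3 => (Finset.univ : Finset (Fin (2 * N + 1))))
    (fun (_ : Fin 3) (κ : Fin (2 * N + 1)) => Real.exp (-(s * lam (2 * N + 1) κ)))
  rw [Fintype.piFinset_univ] at h4
  rw [← h4, Finset.prod_const, Finset.card_univ, Fintype.card_fin]

theorem box_trace_le (N : ℕ) {s : ℝ} (hs : 0 < s) : Matrix.trace (hker (nnPairs N) s) ≤
    (2 + ((2 * N + 1 : ℕ) : ℝ) / Real.sqrt s) ^ 3 := by
  rw [box_trace]
  refine pow_le_pow_left₀ (Finset.sum_nonneg fun κ _ => (Real.exp_pos _).le) ?_ 3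
  exact sum_exp_lam_le (by omega) hs

end Vale.Agent.H96
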