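import Vale.Agent.H96.Coherent

open Matrix

namespace Vale.Agent.H96

set_option linter.unusedSectionVars false

variable {V : Type*} [Fintype V] [DecidableEq V]

/-- The lattice heat flow with killing started from the indicator of `A`:
`φ_s(x) = exp (-h s) (exp (κ s Δ) 1_A)(x)`. -/
noncomputable def fld (E : Finset (V × V)) (κ h : ℝ) (A : Finset V) (s : ℝ) : V → ℝ :=
  fun x => Real.exp (-(h * s)) * (hker E (κ * s) *ᵥ (fun y => if y ∈ A then (1 : ℝ) else 0)) x

theorem fld_eq (E : Finset (V × V)) (κ h : ℝ) (A : Finset V) (s : ℝ) (x : V) :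
    fld E κ h A s x = Real.exp (-(h * s)) * ∑ y ∈ A, hker E (κ * s) x y := by
  unfold fld
  congr 1
  simp only [Matrix.mulVec, dotProduct, mul_ite, mul_one, mul_zero]
  rw [Finset.sum_ite_mem, Finset.univ_inter]

theorem fld_zero (E : Finset (V × V)) (κ h : ℝ) (A : Finset V) (x : V) :
    fld E κ h A 0 x = if x ∈ A then 1 else 0 := by
  unfold fld hker
  simp

theorem fld_nonneg (E : Finset (V × V)) {κ : ℝ} (hκ : 0 ≤ κ) (h : ℝ) (A : Finset V) {s : ℝ}
    (hs : 0 ≤ s) (x : V) : 0 ≤ fld E κ h A s x := by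
  rw [fld_eq]
  exact mul_nonneg (Real.exp_pos _).le
    (Finset.sum_nonneg fun y _ => hker_nonneg E (mul_nonneg hκ hs) x y)

theorem fld_hasDerivAt (E : Finset (V × V)) (κ h : ℝ) (A : Finset V) (s : ℝ) (x : V) :
    HasDerivAt (fun u => fld E κ h A u x)
      (-(h * fld E κ h A s x) + κ * (lapM E *ᵥ fld E κ h A s) x) s := by
  set v : V → ℝ := fun y => if y ∈ A then (1 : ℝ) else 0 with hv
  have h1 : HasDerivAt (fun u : ℝ => (hker E (κ * u) *ᵥ v) x)
      ((lapM E *ᵥ (hker E (κ * s) *ᵥ v)) x * κ) s := by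
    have h0 := hasDerivAt_exp_mulVec (lapM E) v x (κ * s)
    have hk : HasDerivAt (fun u : ℝ => κ * u) κ s := by
      simpa using (hasDerivAt_id s).const_mul κ
    exact h0.comp s hk
  have h2 : HasDerivAt (fun u : ℝ => Real.exp (-(h * u))) (Real.exp (-(h * s)) * (-h)) s := by
    have hk : HasDerivAt (fun u : ℝ => -(h * u)) (-h) s := by
      have h0 : HasDerivAt (fun u : ℝ => (-h) * u) (-h) s := by
        simpa using (hasDerivAt_id s).const_mul (-h)
      simpa [neg_mul] using h0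
    exact hk.exp
  have h3 := h2.mul h1
  have e : fld E κ h A s = Real.exp (-(h * s)) • (hker E (κ * s) *ᵥ v) := by
    funext y; rfl
  have e2 : (lapM E *ᵥ fld E κ h A s) x =
      Real.exp (-(h * s)) * (lapM E *ᵥ (hker E (κ * s) *ᵥ v)) x := by
    rw [e, Matrix.mulVec_smul]; rfl
  rw [e2]
  have e3 : fld E κ h A s x = Real.exp (-(h * s)) * (hker E (κ * s) *ᵥ v) x := rfl
  rw [e3]
  refine HasDerivAt.congr_deriv h3 ?_
  ring

end Vale.Agent.H96

namespace Vale.Agent.H96

set_option linter.unusedSectionVars false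

variable {V : Type*} [Fintype V] [DecidableEq V] (d : ℕ)

theorem spinPr_nonneg (i j : Fin (d + 1)) : 0 ≤ spinPr d i j := by
  unfold spinPr
  rw [Matrix.of_apply]
  split_ifs
  · exact Real.sqrt_nonneg _
  · exact le_refl _

theorem spinMr_nonneg (i j : Fin (d + 1)) : 0 ≤ spinMr d i j := by
  unfold spinMr
  rw [Matrix.transpose_apply]
  exact spinPr_nonneg d j i

theorem dotR_offdiag (x y : V) {σ τ : V → Fin (d + 1)} (hστ : σ ≠ τ) : 0 ≤ dotR d x y σ τ := by
  unfold dotR
  rw [Matrix.add_apply, Matrix.smul_apply, Matrix.add_apply, smul_eq_mul]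
  have hz : (siteOpR x (spinZr d) * siteOpR y (spinZr d)) σ τ = 0 := by
    unfold spinZr
    rw [siteOpR_diagonal, siteOpR_diagonal, Matrix.diagonal_mul_diagonal,
      Matrix.diagonal_apply_ne _ hστ]
  rw [hz, zero_add]
  have h1 : 0 ≤ (siteOpR x (spinPr d) * siteOpR y (spinMr d)) σ τ := by
    rw [Matrix.mul_apply]
    exact Finset.sum_nonneg fun ρ _ => mul_nonneg (siteOpR_nonneg x (spinPr_nonneg d) _ _)
      (siteOpR_nonneg y (spinMr_nonneg d) _ _)
  have h2 : 0 ≤ (siteOpR x (spinMr d) * siteOpR y (spinPr d)) σ τ := by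
    rw [Matrix.mul_apply]
    exact Finset.sum_nonneg fun ρ _ => mul_nonneg (siteOpR_nonneg x (spinMr_nonneg d) _ _)
      (siteOpR_nonneg y (spinPr_nonneg d) _ _)
  linarith

theorem genR_offdiag (E : Finset (V × V)) (h : ℝ) {σ τ : V → Fin (d + 1)} (hστ : σ ≠ τ) :
    0 ≤ genR d E h σ τ := by
  unfold genR numR
  rw [Matrix.sub_apply, Matrix.smul_apply, Matrix.smul_apply, Matrix.sum_apply,
    Matrix.diagonal_apply_ne _ hστ, smul_zero, sub_zero, smul_eq_mul]
  refine mul_nonneg (by norm_num) (Finset.sum_nonneg fun e _ => ?_)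
  rw [Matrix.sub_apply, Matrix.smul_apply, Matrix.one_apply_ne hστ, smul_zero, sub_zero]
  exact dotR_offdiag d e.1 e.2 hστ

/-- The set of sites carrying at least one spin deviation. -/
def supp (σ : V → Fin (d + 1)) : Finset V := Finset.univ.filter fun x => (σ x : ℕ) ≠ 0

/-- Liggett-type inequality for the Heisenberg semigroup: the diagonal matrix element at the
configuration `σ` is bounded by the product, over the spin deviations of `σ`, of the
probabilities that independent random walkers (with killing) started from the occupied sites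
are found there. -/
theorem exp_genR_diag_le {E : Finset (V × V)} (hEs : ∀ e ∈ E, (e.2, e.1) ∈ E)
    (hEi : ∀ e ∈ E, e.1 ≠ e.2) (h : ℝ) {t : ℝ} (ht : 0 ≤ t) (σ : V → Fin (d + 1)) :
    NormedSpace.exp (t • genR d E h) σ σ ≤
      ∏ x, fld E ((d : ℝ) / 2) h (supp d σ) t x ^ (σ x : ℕ) := by
  set A := supp d σ with hA
  have hκ : (0 : ℝ) ≤ (d : ℝ) / 2 := by positivity
  set W : ℝ → (V → Fin (d + 1)) → ℝ := fun s => cohVec d (fld E ((d : ℝ) / 2) h A s) with hWdef
  set W' : ℝ → (V → Fin (d + 1)) → ℝ := fun s τ =>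
    ∑ x, (∏ w ∈ Finset.univ.erase x, coh d (fld E ((d : ℝ) / 2) h A s w) (τ w)) *
      (bw d (τ x) * (((τ x : ℕ) : ℝ) * fld E ((d : ℝ) / 2) h A s x ^ ((τ x : ℕ) - 1) *
        (-(h * fld E ((d : ℝ) / 2) h A s x) +
          (d : ℝ) / 2 * (lapM E *ᵥ fld E ((d : ℝ) / 2) h A s) x))) with hW'def
  have hW : ∀ s τ, HasDerivAt (fun u => W u τ) (W' s τ) s := by
    intro s τ
    have hprod := HasDerivAt.fun_finsetProd (u := Finset.univ)
      (f := fun x u => coh d (fld E ((d : ℝ) / 2) h A u x) (τ x))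
      (f' := fun x => bw d (τ x) * (((τ x : ℕ) : ℝ) *
        fld E ((d : ℝ) / 2) h A s x ^ ((τ x : ℕ) - 1) *
        (-(h * fld E ((d : ℝ) / 2) h A s x) +
          (d : ℝ) / 2 * (lapM E *ᵥ fld E ((d : ℝ) / 2) h A s) x))) (x := s)
      (fun x _ => ((fld_hasDerivAt E ((d : ℝ) / 2) h A s x).pow (τ x : ℕ)).const_mul (bw d (τ x)))
    simp only [smul_eq_mul] at hprod
    exact hprod
  have hsup : ∀ s, 0 ≤ s → s ≤ t → ∀ τ, (genR d E h *ᵥ W s) τ ≤ W' s τ := by
    intro s hs _ τ
    exact genR_cohVec_le d hEs hEi h (fun x => fld_nonneg E hκ h A hs x) τ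
  have key := exp_compare (A := genR d E h) (fun σ τ hστ => genR_offdiag d E h hστ) ht W W' hW
    hsup σ
  have hW0 : ∀ τ, 0 ≤ W 0 τ := fun τ =>
    cohVec_nonneg d (fun x => fld_nonneg E hκ h A (le_refl 0) x) τ
  have hlow : NormedSpace.exp (t • genR d E h) σ σ * W 0 σ ≤
      (NormedSpace.exp (t • genR d E h) *ᵥ W 0) σ := by
    simp only [Matrix.mulVec, dotProduct]
    exact Finset.single_le_sum (f := fun τ => NormedSpace.exp (t • genR d E h) σ τ * W 0 τ)
      (fun τ _ => mul_nonneg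
        (exp_metzler_nonneg (fun σ τ hστ => genR_offdiag d E h hστ) ht σ τ) (hW0 τ))
      (Finset.mem_univ σ)
  have hb : W 0 σ = ∏ x, bw d (σ x) := by
    simp only [hWdef, cohVec, prodVec, coh]
    refine Finset.prod_congr rfl fun x _ => ?_
    rw [fld_zero]
    by_cases hx : x ∈ A
    · rw [if_pos hx, one_pow, mul_one]
    · have : (σ x : ℕ) = 0 := by
        by_contra hne
        exact hx (by rw [hA, supp, Finset.mem_filter]; exact ⟨Finset.mem_univ _, hne⟩)
      rw [if_neg hx, this, pow_zero, mul_one]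
  have hbt : W t σ = (∏ x, bw d (σ x)) *
      ∏ x, fld E ((d : ℝ) / 2) h A t x ^ (σ x : ℕ) := by
    simp only [hWdef, cohVec, prodVec, coh]
    rw [Finset.prod_mul_distrib]
  have hbpos : 0 < ∏ x, bw d (σ x) :=
    Finset.prod_pos fun x _ => bw_pos (by have := (σ x).2; omega)
  have h3 : NormedSpace.exp (t • genR d E h) σ σ * (∏ x, bw d (σ x)) ≤
      (∏ x, fld E ((d : ℝ) / 2) h A t x ^ (σ x : ℕ)) * ∏ x, bw d (σ x) := by
    rw [← hb]
    calc NormedSpace.exp (t • genR d E h) σ σ * W 0 σ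
        ≤ (NormedSpace.exp (t • genR d E h) *ᵥ W 0) σ := hlow
      _ ≤ W t σ := key
      _ = _ := by rw [hbt, hb]; ring
  exact le_of_mul_le_mul_right h3 hbpos

end Vale.Agent.H96
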