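import Vale.Agent.H96.Lower

open Matrix

namespace Vale.Agent.H96

set_option linter.unusedSectionVars false

theorem nn_structure {N : ℕ} {x y : Site N} (h : l1dist x y = 1) :
    ∃ j : Fin 3, (∀ k, k ≠ j → x k = y k) ∧
      (((y j : ℕ) = (x j : ℕ) + 1) ∨ ((x j : ℕ) = (y j : ℕ) + 1)) := by
  unfold l1dist at h
  rw [Fin.sum_univ_three] at h
  have h0 : ∀ k : Fin 3, Nat.dist (x k : ℕ) (y k : ℕ) = 0 → x k = y k :=
    fun k hk => Fin.ext (Nat.eq_of_dist_eq_zero hk)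
  have h1 : ∀ k : Fin 3, Nat.dist (x k : ℕ) (y k : ℕ) = 1 →
      (((y k : ℕ) = (x k : ℕ) + 1) ∨ ((x k : ℕ) = (y k : ℕ) + 1)) := by
    intro k hk
    unfold Nat.dist at hk
    omega
  have hcases : (Nat.dist (x 0 : ℕ) (y 0 : ℕ) = 1 ∧ Nat.dist (x 1 : ℕ) (y 1 : ℕ) = 0 ∧
      Nat.dist (x 2 : ℕ) (y 2 : ℕ) = 0) ∨
      (Nat.dist (x 0 : ℕ) (y 0 : ℕ) = 0 ∧ Nat.dist (x 1 : ℕ) (y 1 : ℕ) = 1 ∧
      Nat.dist (x 2 : ℕ) (y 2 : ℕ) = 0) ∨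
      (Nat.dist (x 0 : ℕ) (y 0 : ℕ) = 0 ∧ Nat.dist (x 1 : ℕ) (y 1 : ℕ) = 0 ∧
      Nat.dist (x 2 : ℕ) (y 2 : ℕ) = 1) := by omega
  rcases hcases with ⟨a, b, c⟩ | ⟨a, b, c⟩ | ⟨a, b, c⟩
  · refine ⟨0, ?_, h1 0 a⟩
    intro k hk
    fin_cases k
    · exact absurd rfl hk
    · exact h0 1 b
    · exact h0 2 c
  · refine ⟨1, ?_, h1 1 b⟩
    intro k hk
    fin_cases k
    · exact h0 0 a
    · exact absurd rfl hk
    · exact h0 2 c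
  · refine ⟨2, ?_, h1 2 c⟩
    intro k hk
    fin_cases k
    · exact h0 0 a
    · exact h0 1 b
    · exact absurd rfl hk

theorem nnPairs_ne {N : ℕ} : ∀ e ∈ nnPairs N, e.1 ≠ e.2 := by
  intro e he h
  unfold nnPairs at he
  rw [Finset.mem_filter] at he
  have := he.2
  rw [h] at this
  unfold l1dist at this
  simp [Nat.dist_self] at this

/-- One-dimensional tent profile within blocks of side `ℓ`. -/
def tent1 (ℓ a : ℕ) : ℕ := min (a % ℓ) (ℓ - 1 - a % ℓ)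

/-- Three-dimensional tent profile: distance (in sup norm) to the complement of the block,
minus one. -/
def tent {N : ℕ} (ℓ : ℕ) (x : Site N) : ℕ :=
  min (tent1 ℓ (x 0)) (min (tent1 ℓ (x 1)) (tent1 ℓ (x 2)))

/-- The block (of side `ℓ`) containing a site. -/
def blkIdx {N : ℕ} (ℓ : ℕ) (x : Site N) : Fin 3 → ℕ := fun j => (x j : ℕ) / ℓ

theorem tent1_lip {ℓ a : ℕ} (h : a / ℓ = (a + 1) / ℓ) :
    tent1 ℓ (a + 1) ≤ tent1 ℓ a + 1 ∧ tent1 ℓ a ≤ tent1 ℓ (a + 1) + 1 := by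
  unfold tent1
  have h1 := Nat.div_add_mod a ℓ
  have h2 := Nat.div_add_mod (a + 1) ℓ
  rw [← h] at h2
  have : (a + 1) % ℓ = a % ℓ + 1 := by omega
  omega

theorem tent1_boundary {ℓ a : ℕ} (hℓ : 0 < ℓ) (h : a / ℓ ≠ (a + 1) / ℓ) :
    tent1 ℓ a = 0 ∧ tent1 ℓ (a + 1) = 0 := by
  unfold tent1
  have h1 := Nat.div_add_mod a ℓ
  have h2 := Nat.div_add_mod (a + 1) ℓ
  have h3 := Nat.mod_lt a hℓ
  have h4 := Nat.mod_lt (a + 1) hℓ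
  have h5 : a / ℓ ≤ (a + 1) / ℓ := Nat.div_le_div_right (Nat.le_succ a)
  have h6 : a / ℓ + 1 ≤ (a + 1) / ℓ := by omega
  have h7 : ℓ * (a / ℓ + 1) ≤ ℓ * ((a + 1) / ℓ) := Nat.mul_le_mul_left ℓ h6
  rw [Nat.mul_add, Nat.mul_one] at h7
  have h8 : (a + 1) % ℓ = 0 := by omega
  have h9 : a % ℓ = ℓ - 1 := by omega
  omega

end Vale.Agent.H96
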