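import Vale.Agent.H96.Cube

open Matrix

namespace Vale.Agent.H96

set_option linter.unusedSectionVars false

theorem blkIdx_eq_iff {N : ℕ} {ℓ : ℕ} {x y : Site N} {j : Fin 3}
    (hk : ∀ k, k ≠ j → x k = y k) :
    blkIdx ℓ x = blkIdx ℓ y ↔ (x j : ℕ) / ℓ = (y j : ℕ) / ℓ := by
  constructor
  · intro h
    exact congrFun h j
  · intro h
    funext k
    by_cases hkj : k = j
    · subst hkj; exact h
    · unfold blkIdx; rw [hk k hkj]

theorem tent_step {N : ℕ} {ℓ : ℕ} (hℓ : 0 < ℓ) {x y : Site N} {j : Fin 3}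
    (hk : ∀ k, k ≠ j → x k = y k) (hj : (y j : ℕ) = (x j : ℕ) + 1) :
    (blkIdx ℓ x = blkIdx ℓ y → tent ℓ y ≤ tent ℓ x + 1 ∧ tent ℓ x ≤ tent ℓ y + 1) ∧
    (¬ blkIdx ℓ x = blkIdx ℓ y → tent ℓ x = 0 ∧ tent ℓ y = 0) := by
  rw [blkIdx_eq_iff hk, hj]
  have hl := @tent1_lip ℓ (x j : ℕ)
  have hb := @tent1_boundary ℓ (x j : ℕ) hℓ
  rw [← hj] at hl hb
  unfold tent
  fin_cases j
  · have e1 : x 1 = y 1 := hk 1 (by decide)
    have e2 : x 2 = y 2 := hk 2 (by decide)
    rw [e1, e2]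
    simp only [Fin.zero_eta] at hl hb hj ⊢
    constructor
    · intro h; have := hl (by rw [hj]; exact h); omega
    · intro h; have := hb (by rw [hj]; exact h); omega
  · have e1 : x 0 = y 0 := hk 0 (by decide)
    have e2 : x 2 = y 2 := hk 2 (by decide)
    rw [e1, e2]
    simp only [Fin.mk_one] at hl hb hj ⊢
    constructor
    · intro h; have := hl (by rw [hj]; exact h); omega
    · intro h; have := hb (by rw [hj]; exact h); omega
  · have e1 : x 0 = y 0 := hk 0 (by decide)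
    have e2 : x 1 = y 1 := hk 1 (by decide)
    rw [e1, e2]
    simp only [Fin.reduceFinMk] at hl hb hj ⊢
    constructor
    · intro h; have := hl (by rw [hj]; exact h); omega
    · intro h; have := hb (by rw [hj]; exact h); omega

theorem tent_nn {N : ℕ} {ℓ : ℕ} (hℓ : 0 < ℓ) {x y : Site N} (h : l1dist x y = 1) :
    (blkIdx ℓ x = blkIdx ℓ y → tent ℓ y ≤ tent ℓ x + 1 ∧ tent ℓ x ≤ tent ℓ y + 1) ∧
    (¬ blkIdx ℓ x = blkIdx ℓ y → tent ℓ x = 0 ∧ tent ℓ y = 0) := by
  obtain ⟨j, hk, hj | hj⟩ := nn_structure h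
  · exact tent_step hℓ hk hj
  · have := tent_step (x := y) (y := x) hℓ (fun k hkj => (hk k hkj).symm) hj
    constructor
    · intro hb
      have := this.1 hb.symm
      omega
    · intro hb
      have := this.2 (fun h' => hb h'.symm)
      omega

end Vale.Agent.H96
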