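import Vale.Agent.H96.Cube2

open Matrix

namespace Vale.Agent.H96

set_option linter.unusedSectionVars false

/-- The sites of block `i`. -/
def blockSites (N ℓ : ℕ) (i : Fin 3 → ℕ) : Finset (Site N) :=
  Finset.univ.filter fun x => blkIdx ℓ x = i

theorem card_blockSites_le (N : ℕ) {ℓ : ℕ} (hpos : 0 < ℓ) (i : Fin 3 → ℕ) :
    (blockSites N ℓ i).card ≤ ℓ ^ 3 := by
  have hcard : (Fintype.piFinset (fun _ : Fin 3 => Finset.range ℓ)).card = ℓ ^ 3 := by
    rw [Fintype.card_piFinset]
    simp
  rw [← hcard]
  apply Finset.card_le_card_of_injOn (fun x : Site N => fun j => (x j : ℕ) % ℓ)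
  · intro x _
    rw [Finset.mem_coe, Fintype.mem_piFinset]
    intro j
    rw [Finset.mem_range]
    exact Nat.mod_lt _ hpos
  · intro x hx y hy hxy
    rw [Finset.mem_coe] at hx hy
    unfold blockSites at hx hy
    rw [Finset.mem_filter] at hx hy
    funext j
    apply Fin.ext
    have h1 := congrFun hxy j
    have h2 : (x j : ℕ) / ℓ = (y j : ℕ) / ℓ := by
      have a := congrFun hx.2 j
      have b := congrFun hy.2 j
      unfold blkIdx at a b
      rw [a, b]
    have h3 := Nat.div_add_mod (x j : ℕ) ℓ
    have h4 := Nat.div_add_mod (y j : ℕ) ℓ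
    simp only at h1
    rw [← h3, ← h4, h1, h2]

/-- The six unit vectors of `ℤ^3`. -/
def unitVecs : Finset (Fin 3 → ℤ) :=
  (Finset.univ : Finset (Fin 3 × Bool)).image
    fun p => Function.update (0 : Fin 3 → ℤ) p.1 (if p.2 then 1 else -1)

theorem card_unitVecs_le : unitVecs.card ≤ 6 := by
  unfold unitVecs
  refine le_trans Finset.card_image_le ?_
  simp

theorem card_nbrs_le {N : ℕ} (x : Site N) :
    (Finset.univ.filter fun y : Site N => l1dist x y = 1).card ≤ 6 := by
  refine le_trans ?_ card_unitVecs_le
  apply Finset.card_le_card_of_injOn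
    (fun y : Site N => fun k => (((y k : ℕ) : ℤ)) - (((x k : ℕ) : ℤ)))
  · intro y hy
    rw [Finset.mem_coe, Finset.mem_filter] at hy
    obtain ⟨j, hk, hj⟩ := nn_structure hy.2
    rw [Finset.mem_coe]
    unfold unitVecs
    rw [Finset.mem_image]
    rcases hj with hj | hj
    · refine ⟨(j, true), Finset.mem_univ _, ?_⟩
      funext k
      by_cases hkj : k = j
      · subst hkj
        simp only [Function.update_self, if_true]
        omega
      · rw [Function.update_of_ne hkj]
        have := hk k hkj
        simp only [Pi.zero_apply, this, sub_self]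
    · refine ⟨(j, false), Finset.mem_univ _, ?_⟩
      funext k
      by_cases hkj : k = j
      · subst hkj
        simp only [Function.update_self]
        simp
        omega
      · rw [Function.update_of_ne hkj]
        have := hk k hkj
        simp only [Pi.zero_apply, this, sub_self]
  · intro y _ y' _ hyy
    funext k
    apply Fin.ext
    have := congrFun hyy k
    simp only at this
    omega

theorem card_blockEdges_le (N : ℕ) {ℓ : ℕ} (hpos : 0 < ℓ) (i : Fin 3 → ℕ) :
    ((nnPairs N).filter fun e => blkIdx ℓ e.1 = i ∧ blkIdx ℓ e.2 = i).card ≤ 6 * ℓ ^ 3 := by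
  set s := (nnPairs N).filter fun e => blkIdx ℓ e.1 = i ∧ blkIdx ℓ e.2 = i with hs
  have h1 := Finset.card_le_mul_card_image (f := Prod.fst) s 6 (by
    intro a _
    refine le_trans ?_ (card_nbrs_le a)
    apply Finset.card_le_card_of_injOn Prod.snd
    · intro e he
      rw [Finset.mem_coe, Finset.mem_filter] at he
      rw [Finset.mem_coe, Finset.mem_filter]
      refine ⟨Finset.mem_univ _, ?_⟩
      have h2 := he.1
      rw [hs, Finset.mem_filter] at h2
      have h3 := h2.1
      unfold nnPairs at h3
      rw [Finset.mem_filter] at h3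
      rw [← he.2]
      exact h3.2
    · intro e he e' he' hee
      rw [Finset.mem_coe, Finset.mem_filter] at he he'
      exact Prod.ext (he.2.trans he'.2.symm) hee)
  have h2 : (s.image Prod.fst).card ≤ ℓ ^ 3 := by
    refine le_trans (Finset.card_le_card ?_) (card_blockSites_le N hpos i)
    intro a ha
    rw [Finset.mem_image] at ha
    obtain ⟨e, he, rfl⟩ := ha
    rw [hs, Finset.mem_filter] at he
    unfold blockSites
    rw [Finset.mem_filter]
    exact ⟨Finset.mem_univ _, he.2.1⟩
  calc s.card ≤ 6 * (s.image Prod.fst).card := h1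
    _ ≤ 6 * ℓ ^ 3 := Nat.mul_le_mul_left 6 h2

end Vale.Agent.H96
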