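import Vale.Agent.H96.Cube3

open Matrix

namespace Vale.Agent.H96

set_option linter.unusedSectionVars false

theorem div_block {i ℓ b : ℕ} (hb : b < ℓ) : (i * ℓ + b) / ℓ = i := by
  rw [Nat.add_comm, Nat.add_mul_div_right _ _ (by omega), Nat.div_eq_of_lt hb, zero_add]

theorem mod_block {i ℓ b : ℕ} (hb : b < ℓ) : (i * ℓ + b) % ℓ = b := by
  rw [Nat.add_comm, Nat.add_mul_mod_self_right, Nat.mod_eq_of_lt hb]

/-- The mass `∑ t(x)^2` of the tent profile on block `i`. -/
noncomputable def blockMass (N ℓ : ℕ) (i : Fin 3 → ℕ) : ℝ :=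
  ∑ x ∈ blockSites N ℓ i, ((tent ℓ x : ℕ) : ℝ) ^ 2

theorem blockMass_ge {N r : ℕ} (i : Fin 3 → ℕ)
    (hact : ∀ j, (i j + 1) * (4 * r) ≤ 2 * N + 1) :
    8 * (r : ℝ) ^ 5 ≤ blockMass N (4 * r) i := by
  have hbound : ∀ (u : Fin 3 → Fin (2 * r)) (j : Fin 3),
      i j * (4 * r) + (r + (u j : ℕ)) < 2 * N + 1 := by
    intro u j
    have h1 := hact j
    rw [Nat.succ_mul] at h1
    have h2 := (u j).2
    omega
  let inner : (Fin 3 → Fin (2 * r)) → Site N :=
    fun u j => ⟨i j * (4 * r) + (r + (u j : ℕ)), hbound u j⟩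
  have hinj : Function.Injective inner := by
    intro u u' h
    funext j
    apply Fin.ext
    have := congrArg (fun x : Site N => (x j : ℕ)) h
    simp only [inner] at this
    omega
  have hlt : ∀ (u : Fin 3 → Fin (2 * r)) (j : Fin 3), r + (u j : ℕ) < 4 * r := by
    intro u j
    have h2 := (u j).2
    omega
  have hblk : ∀ u, blkIdx (4 * r) (inner u) = i := by
    intro u
    funext j
    show (i j * (4 * r) + (r + (u j : ℕ))) / (4 * r) = i j
    exact div_block (hlt u j)
  have ht1 : ∀ u j, r ≤ tent1 (4 * r) ((inner u j : ℕ)) := by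
    intro u j
    show r ≤ tent1 (4 * r) (i j * (4 * r) + (r + (u j : ℕ)))
    unfold tent1
    rw [mod_block (hlt u j)]
    have h2 := (u j).2
    omega
  have htent : ∀ u, r ≤ tent (4 * r) (inner u) := by
    intro u
    unfold tent
    have h0 := ht1 u 0
    have h1 := ht1 u 1
    have h2 := ht1 u 2
    omega
  have hsub : Finset.univ.image inner ⊆ blockSites N (4 * r) i := by
    intro x hx
    rw [Finset.mem_image] at hx
    obtain ⟨u, _, rfl⟩ := hx
    unfold blockSites
    rw [Finset.mem_filter]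
    exact ⟨Finset.mem_univ _, hblk u⟩
  unfold blockMass
  calc 8 * (r : ℝ) ^ 5 = ∑ _x ∈ Finset.univ.image inner, (r : ℝ) ^ 2 := by
        rw [Finset.sum_const, Finset.card_image_of_injective _ hinj, Finset.card_univ]
        simp only [Fintype.card_pi, Fintype.card_fin, Finset.prod_const, Finset.card_univ,
          nsmul_eq_mul]
        push_cast
        ring
    _ ≤ ∑ x ∈ Finset.univ.image inner, ((tent (4 * r) x : ℕ) : ℝ) ^ 2 := by
        apply Finset.sum_le_sum
        intro x hx
        rw [Finset.mem_image] at hx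
        obtain ⟨u, _, rfl⟩ := hx
        have : (r : ℝ) ≤ ((tent (4 * r) (inner u) : ℕ) : ℝ) := by exact_mod_cast htent u
        exact pow_le_pow_left₀ (Nat.cast_nonneg _) this 2
    _ ≤ ∑ x ∈ blockSites N (4 * r) i, ((tent (4 * r) x : ℕ) : ℝ) ^ 2 :=
        Finset.sum_le_sum_of_subset_of_nonneg hsub (fun _ _ _ => sq_nonneg _)

end Vale.Agent.H96
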