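import Vale.Agent.H96.Cube4

open Matrix

namespace Vale.Agent.H96

set_option linter.unusedSectionVars false

/-- The normalized one-magnon amplitude: tent profile divided by `sqrt (d * mass of its block)`. -/
noncomputable def cubeAmp (d N ℓ : ℕ) (x : Site N) : ℝ :=
  ((tent ℓ x : ℕ) : ℝ) / Real.sqrt ((d : ℝ) * blockMass N ℓ (blkIdx ℓ x))

theorem blockMass_nonneg (N ℓ : ℕ) (i : Fin 3 → ℕ) : 0 ≤ blockMass N ℓ i :=
  Finset.sum_nonneg fun _ _ => sq_nonneg _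

theorem cubeAmp_norm {d N ℓ : ℕ} (hd : 1 ≤ d) (i : Fin 3 → ℕ) (hM : 0 < blockMass N ℓ i) :
    (d : ℝ) * ∑ z, amp (blkIdx ℓ) (cubeAmp d N ℓ) i z ^ 2 = 1 := by
  have hd' : (0 : ℝ) < d := by exact_mod_cast hd
  have h1 : ∀ z : Site N, amp (blkIdx ℓ) (cubeAmp d N ℓ) i z ^ 2 =
      if blkIdx ℓ z = i then ((tent ℓ z : ℕ) : ℝ) ^ 2 / ((d : ℝ) * blockMass N ℓ i) else 0 := by
    intro z
    unfold amp
    by_cases hz : blkIdx ℓ z = i
    · rw [if_pos hz, if_pos hz]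
      unfold cubeAmp
      rw [hz, div_pow, Real.sq_sqrt (mul_nonneg hd'.le hM.le)]
    · rw [if_neg hz, if_neg hz]; simp
  simp only [h1]
  rw [← Finset.sum_filter, ← Finset.sum_div]
  have : ∑ z ∈ Finset.univ.filter (fun z : Site N => blkIdx ℓ z = i),
      ((tent ℓ z : ℕ) : ℝ) ^ 2 = blockMass N ℓ i := rfl
  rw [this]
  field_simp

theorem cubeAmp_buf {d N ℓ : ℕ} (hℓ : 0 < ℓ) :
    ∀ e ∈ nnPairs N, blkIdx ℓ e.1 = blkIdx ℓ e.2 ∨
      (cubeAmp d N ℓ e.1 = 0 ∧ cubeAmp d N ℓ e.2 = 0) := by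
  intro e he
  unfold nnPairs at he
  rw [Finset.mem_filter] at he
  by_cases hb : blkIdx ℓ e.1 = blkIdx ℓ e.2
  · exact Or.inl hb
  · right
    have := (tent_nn hℓ he.2).2 hb
    unfold cubeAmp
    rw [this.1, this.2]
    simp

theorem blockEnergy_cube_le {d N r : ℕ} (hd : 1 ≤ d) (hr : 1 ≤ r) (i : Fin 3 → ℕ)
    (hact : ∀ j, (i j + 1) * (4 * r) ≤ 2 * N + 1) :
    blockEnergy d (blkIdx (4 * r)) (cubeAmp d N (4 * r)) (nnPairs N) i ≤
      24 * (d : ℝ) / (r : ℝ) ^ 2 := by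
  have hd' : (0 : ℝ) < d := by exact_mod_cast hd
  have hr' : (0 : ℝ) < r := by exact_mod_cast hr
  have hℓ : 0 < 4 * r := by omega
  have hM := blockMass_ge i hact
  set M := blockMass N (4 * r) i with hMdef
  have hMpos : 0 < M := lt_of_lt_of_le (by positivity) hM
  unfold blockEnergy
  have hterm : ∀ e ∈ (nnPairs N).filter (fun e => blkIdx (4 * r) e.1 = i ∧ blkIdx (4 * r) e.2 = i),
      (cubeAmp d N (4 * r) e.1 - cubeAmp d N (4 * r) e.2) ^ 2 ≤ 1 / ((d : ℝ) * M) := by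
    intro e he
    rw [Finset.mem_filter] at he
    obtain ⟨he1, hb1, hb2⟩ := he
    unfold nnPairs at he1
    rw [Finset.mem_filter] at he1
    have hlip := (tent_nn hℓ he1.2).1 (hb1.trans hb2.symm)
    unfold cubeAmp
    rw [hb1, hb2, ← hMdef, ← sub_div, div_pow, Real.sq_sqrt (mul_nonneg hd'.le hMpos.le)]
    apply div_le_div_of_nonneg_right _ (mul_pos hd' hMpos).le
    have a1 : ((tent (4 * r) e.2 : ℕ) : ℝ) ≤ ((tent (4 * r) e.1 : ℕ) : ℝ) + 1 := by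
      exact_mod_cast hlip.1
    have a2 : ((tent (4 * r) e.1 : ℕ) : ℝ) ≤ ((tent (4 * r) e.2 : ℕ) : ℝ) + 1 := by
      exact_mod_cast hlip.2
    nlinarith
  have hsum := Finset.sum_le_sum hterm
  rw [Finset.sum_const, nsmul_eq_mul] at hsum
  have hcard : (((nnPairs N).filter
      (fun e => blkIdx (4 * r) e.1 = i ∧ blkIdx (4 * r) e.2 = i)).card : ℝ) ≤
      6 * ((4 * r : ℕ) : ℝ) ^ 3 := by
    exact_mod_cast card_blockEdges_le N hℓ i
  have h2 : (0 : ℝ) ≤ 1 / ((d : ℝ) * M) := by positivity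
  calc (d : ℝ) ^ 2 / 2 * ∑ e ∈ (nnPairs N).filter
        (fun e => blkIdx (4 * r) e.1 = i ∧ blkIdx (4 * r) e.2 = i),
        (cubeAmp d N (4 * r) e.1 - cubeAmp d N (4 * r) e.2) ^ 2
      ≤ (d : ℝ) ^ 2 / 2 * ((6 * ((4 * r : ℕ) : ℝ) ^ 3) * (1 / ((d : ℝ) * M))) := by
        apply mul_le_mul_of_nonneg_left _ (by positivity)
        exact le_trans hsum (mul_le_mul_of_nonneg_right hcard h2)
    _ = 192 * (d : ℝ) * (r : ℝ) ^ 3 / M := by
        push_cast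
        field_simp
        ring
    _ ≤ 192 * (d : ℝ) * (r : ℝ) ^ 3 / (8 * (r : ℝ) ^ 5) := by
        apply div_le_div_of_nonneg_left (by positivity) (by positivity) hM
    _ = 24 * (d : ℝ) / (r : ℝ) ^ 2 := by
        field_simp
        ring

end Vale.Agent.H96
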