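import Mathlib

open Matrix

namespace Vale.Agent.H96

/-- `S^3` of the spin-`d/2` representation in the basis `|k⟩`, `k = 0..d` (magnetic number `d/2 - k`). -/
noncomputable def spinZ (d : ℕ) : Matrix (Fin (d + 1)) (Fin (d + 1)) ℂ :=
  Matrix.diagonal fun k => (d : ℂ) / 2 - ((k : ℕ) : ℂ)

/-- The raising operator `S^+`: entry `(k, k+1)` equals `sqrt ((k+1) (d-k))`. -/
noncomputable def spinPlus (d : ℕ) : Matrix (Fin (d + 1)) (Fin (d + 1)) ℂ :=
  Matrix.of fun i j => if (j : ℕ) = (i : ℕ) + 1 then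
    ((Real.sqrt (((j : ℕ) : ℝ) * ((d : ℝ) + 1 - ((j : ℕ) : ℝ))) : ℝ) : ℂ) else 0

/-- The lowering operator `S^- = (S^+)ᴴ`. -/
noncomputable def spinMinus (d : ℕ) : Matrix (Fin (d + 1)) (Fin (d + 1)) ℂ := (spinPlus d)ᴴ

/-- `S^1 = (S^+ + S^-)/2`. -/
noncomputable def spinX (d : ℕ) : Matrix (Fin (d + 1)) (Fin (d + 1)) ℂ :=
  (1 / 2 : ℂ) • (spinPlus d + spinMinus d)

/-- `S^2 = (S^+ - S^-)/(2i)`. -/
noncomputable def spinY (d : ℕ) : Matrix (Fin (d + 1)) (Fin (d + 1)) ℂ :=
  (-Complex.I / 2 : ℂ) • (spinPlus d - spinMinus d)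

section

variable {V : Type*} [Fintype V] [DecidableEq V] {α : Type*} [Fintype α] [DecidableEq α]

/-- The operator acting as the matrix `A` on the tensor factor of site `x` and as the identity
on every other site, as a matrix indexed by configurations `V → α`. -/
def siteOp (x : V) (A : Matrix α α ℂ) : Matrix (V → α) (V → α) ℂ :=
  Matrix.of fun σ τ => if ∀ y, y ≠ x → σ y = τ y then A (σ x) (τ x) else 0

end

section

variable {V : Type*} [Fintype V] [DecidableEq V] (d : ℕ)

/-- The Heisenberg interaction `S_x · S_y = ∑_a S^a_x S^a_y` on configurations `V → Fin (d+1)`. -/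
noncomputable def spinDot (x y : V) : Matrix (V → Fin (d + 1)) (V → Fin (d + 1)) ℂ :=
  siteOp x (spinX d) * siteOp y (spinX d) + siteOp x (spinY d) * siteOp y (spinY d) +
    siteOp x (spinZ d) * siteOp y (spinZ d)

/-- The total magnetization `∑_x S^3_x`. -/
noncomputable def magZ : Matrix (V → Fin (d + 1)) (V → Fin (d + 1)) ℂ :=
  ∑ x : V, siteOp x (spinZ d)

end

/-- Sites of the cubic box `{-N,…,N}^3`, with coordinates shifted by `N` to `{0,…,2N}`. -/
abbrev Site (N : ℕ) : Type := Fin 3 → Fin (2 * N + 1)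

/-- The `ℓ¹` distance between two sites. -/
def l1dist {N : ℕ} (x y : Site N) : ℕ := ∑ j : Fin 3, Nat.dist (x j : ℕ) (y j : ℕ)

/-- The ordered pairs of nearest neighbours (each unordered edge appears twice). -/
def nnPairs (N : ℕ) : Finset (Site N × Site N) :=
  Finset.univ.filter fun e => l1dist e.1 e.2 = 1

/-- The Heisenberg ferromagnet on the box: `H_N = -∑ S_x · S_y` over nearest-neighbour edges,
each edge counted once (half the sum over ordered nearest-neighbour pairs). -/
noncomputable def hamBox (d N : ℕ) : Matrix (Site N → Fin (d + 1)) (Site N → Fin (d + 1)) ℂ :=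
  -((1 / 2 : ℂ) • ∑ e ∈ nnPairs N, spinDot d e.1 e.2)

/-- The finite-volume partition function `Tr exp (-β (H_N - h M_N))`. -/
noncomputable def partitionFn (d N : ℕ) (β h : ℝ) : ℝ :=
  (Matrix.trace (NormedSpace.exp
    (-(β : ℂ) • (hamBox d N - (h : ℂ) • magZ (V := Site N) d)))).re

/-- The finite-volume pressure `log Z / (β |Λ_N|)`. -/
noncomputable def pressure (d N : ℕ) (β h : ℝ) : ℝ :=
  Real.log (partitionFn d N β h) / (β * (Fintype.card (Site N) : ℝ))

end Vale.Agent.H96
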