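import Vale.Agent.H96.Trial2

open Matrix

namespace Vale.Agent.H96

set_option linter.unusedSectionVars false

variable {V : Type*} [Fintype V] [DecidableEq V] (d : ℕ)

theorem spinDot_vac {x y : V} (hxy : x ≠ y) {ψ : (V → Fin (d + 1)) → ℂ}
    (hx : IsVac d x ψ) (hy : IsVac d y ψ) :
    spinDot d x y *ᵥ ψ = (((d : ℂ) / 2) ^ 2) • ψ := by
  rw [spinDot_eq, Matrix.add_mulVec, Matrix.smul_mulVec, Matrix.add_mulVec,
    siteOp_comm hxy (spinPlus d) (spinMinus d),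
    ← Matrix.mulVec_mulVec, ← Matrix.mulVec_mulVec, ← Matrix.mulVec_mulVec,
    hy.2, hy.1, hx.1, Matrix.mulVec_smul, hx.2]
  simp only [Matrix.mulVec_zero, add_zero, smul_zero, smul_smul]
  congr 1
  ring

theorem spinDot_crea {x y : V} (hxy : x ≠ y) {ψ : (V → Fin (d + 1)) → ℂ}
    (hx : IsVac d x ψ) (hy : IsVac d y ψ) (g : V → ℝ) :
    spinDot d x y *ᵥ (crea d g *ᵥ ψ) = (((d : ℂ) / 2) ^ 2) • (crea d g *ᵥ ψ) -
      ((((d : ℝ) / 2 * (g x - g y) : ℝ)) : ℂ) •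
        (siteOp x (spinMinus d) *ᵥ ψ - siteOp y (spinMinus d) *ᵥ ψ) := by
  have ha : siteOp y (spinZ d) *ᵥ (crea d g *ᵥ ψ) =
      ((d : ℂ) / 2) • (crea d g *ᵥ ψ) - ((g y : ℝ) : ℂ) • (siteOp y (spinMinus d) *ᵥ ψ) := by
    rw [Matrix.mulVec_mulVec, z_crea, Matrix.sub_mulVec, ← Matrix.mulVec_mulVec, hy.2,
      Matrix.mulVec_smul, Matrix.smul_mulVec]
  have hb : siteOp x (spinZ d) *ᵥ (crea d g *ᵥ ψ) =
      ((d : ℂ) / 2) • (crea d g *ᵥ ψ) - ((g x : ℝ) : ℂ) • (siteOp x (spinMinus d) *ᵥ ψ) := by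
    rw [Matrix.mulVec_mulVec, z_crea, Matrix.sub_mulVec, ← Matrix.mulVec_mulVec, hx.2,
      Matrix.mulVec_smul, Matrix.smul_mulVec]
  have hc : siteOp x (spinZ d) *ᵥ (siteOp y (spinMinus d) *ᵥ ψ) =
      ((d : ℂ) / 2) • (siteOp y (spinMinus d) *ᵥ ψ) := by
    rw [Matrix.mulVec_mulVec, siteOp_comm hxy, ← Matrix.mulVec_mulVec, hx.2, Matrix.mulVec_smul]
  have hd : siteOp x (spinPlus d) *ᵥ (crea d g *ᵥ ψ) = (((d : ℝ) * g x : ℝ) : ℂ) • ψ := by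
    rw [Matrix.mulVec_mulVec, plus_crea, Matrix.add_mulVec, ← Matrix.mulVec_mulVec, hx.1,
      Matrix.mulVec_zero, zero_add, Matrix.smul_mulVec, hx.2, smul_smul]
    congr 1
    push_cast; ring
  have he : siteOp y (spinPlus d) *ᵥ (crea d g *ᵥ ψ) = (((d : ℝ) * g y : ℝ) : ℂ) • ψ := by
    rw [Matrix.mulVec_mulVec, plus_crea, Matrix.add_mulVec, ← Matrix.mulVec_mulVec, hy.1,
      Matrix.mulVec_zero, zero_add, Matrix.smul_mulVec, hy.2, smul_smul]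
    congr 1
    push_cast; ring
  rw [spinDot_eq, Matrix.add_mulVec, Matrix.smul_mulVec, Matrix.add_mulVec,
    siteOp_comm hxy (spinPlus d) (spinMinus d),
    ← Matrix.mulVec_mulVec, ← Matrix.mulVec_mulVec, ← Matrix.mulVec_mulVec,
    ha, hd, he, Matrix.mulVec_sub, Matrix.mulVec_smul, Matrix.mulVec_smul, hb, hc,
    Matrix.mulVec_smul, Matrix.mulVec_smul]
  push_cast
  module

theorem qform_spinDot_crea {x y : V} (hxy : x ≠ y) {ψ : (V → Fin (d + 1)) → ℂ}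
    (hx : IsVac d x ψ) (hy : IsVac d y ψ) (g : V → ℝ) (hann : anni d g *ᵥ ψ = 0)
    (hψ : star ψ ⬝ᵥ ψ = 1)
    (hΦ : star (crea d g *ᵥ ψ) ⬝ᵥ (crea d g *ᵥ ψ) = 1) :
    qform (spinDot d x y) (crea d g *ᵥ ψ) =
      ((d : ℝ) / 2) ^ 2 - (d : ℝ) ^ 2 / 2 * (g x - g y) ^ 2 := by
  have hf : ∀ z : V, IsVac d z ψ → star (crea d g *ᵥ ψ) ⬝ᵥ (siteOp z (spinMinus d) *ᵥ ψ) =
      (((d : ℝ) * g z : ℝ) : ℂ) := by
    intro z hz
    rw [adjoint_dot, crea_conjTranspose, Matrix.mulVec_mulVec, anni_minus, Matrix.add_mulVec,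
      ← Matrix.mulVec_mulVec, hann, Matrix.mulVec_zero, zero_add, Matrix.smul_mulVec, hz.2,
      smul_smul, dotProduct_smul, hψ]
    simp
    ring
  unfold qform
  rw [spinDot_crea d hxy hx hy, dotProduct_sub, dotProduct_smul, dotProduct_smul, dotProduct_sub,
    hΦ, hf x hx, hf y hy]
  simp only [smul_eq_mul, mul_one]
  rw [show (((d : ℂ) / 2) ^ 2 - (((d : ℝ) / 2 * (g x - g y) : ℝ) : ℂ) *
      ((((d : ℝ) * g x : ℝ) : ℂ) - (((d : ℝ) * g y : ℝ) : ℂ))) =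
      ((((d : ℝ) / 2) ^ 2 - (d : ℝ) ^ 2 / 2 * (g x - g y) ^ 2 : ℝ) : ℂ) by push_cast; ring]
  exact Complex.ofReal_re _

end Vale.Agent.H96
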