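import Vale.Agent.H96.Energy

open Matrix

namespace Vale.Agent.H96

set_option linter.unusedSectionVars false

variable {V : Type*} [Fintype V] [DecidableEq V] (d : ℕ)
variable {ι : Type*} [DecidableEq ι] (blk : V → ι) (f : V → ℝ)

theorem norm_trial (l : List ι) (hl : l.Nodup)
    (hnorm : ∀ j ∈ l, (d : ℝ) * ∑ z, amp blk f j z ^ 2 = 1) :
    star (trial d blk f l) ⬝ᵥ trial d blk f l = 1 := by
  rw [inner_trial d blk f l l hl hl hnorm, if_pos rfl]

theorem qform_spinDot_trial {x y : V}
    (hxy : x ≠ y) (hbuf : blk x = blk y ∨ (f x = 0 ∧ f y = 0)) (l : List ι) (hl : l.Nodup)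
    (hnorm : ∀ j ∈ l, (d : ℝ) * ∑ z, amp blk f j z ^ 2 = 1) :
    qform (spinDot d x y) (trial d blk f l) = ((d : ℝ) / 2) ^ 2 -
      (if blk x = blk y ∧ blk x ∈ l then (d : ℝ) ^ 2 / 2 * (f x - f y) ^ 2 else 0) := by
  by_cases h : blk x = blk y ∧ blk x ∈ l
  · rw [if_pos h]
    obtain ⟨hxy', hmem⟩ := h
    have hne : ∀ k ∈ l.erase (blk x), k ≠ blk x := fun k hk => (hl.mem_erase_iff.mp hk).1
    have hx : IsVac d x (trial d blk f (l.erase (blk x))) := by
      apply isVac_trial
      intro k hk
      unfold amp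
      rw [if_neg (fun h => hne k hk h.symm)]
    have hy : IsVac d y (trial d blk f (l.erase (blk x))) := by
      apply isVac_trial
      intro k hk
      unfold amp
      rw [if_neg (fun h => hne k hk (by rw [hxy']; exact h.symm))]
    have hann : anni d (amp blk f (blk x)) *ᵥ trial d blk f (l.erase (blk x)) = 0 := by
      rw [anni_trial d blk f _ _ (hl.erase _)
        (fun k hk => hnorm k (List.mem_of_mem_erase hk)), if_neg]
      intro hk
      exact hne _ hk rfl
    have hψ := norm_trial d blk f (l.erase (blk x)) (hl.erase _)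
      (fun k hk => hnorm k (List.mem_of_mem_erase hk))
    have hΦ := norm_trial d blk f l hl hnorm
    rw [trial_erase d blk f (blk x) l hmem] at hΦ ⊢
    rw [qform_spinDot_crea d hxy hx hy _ hann hψ hΦ]
    have e1 : amp blk f (blk x) x = f x := by unfold amp; rw [if_pos rfl]
    have e2 : amp blk f (blk x) y = f y := by unfold amp; rw [if_pos hxy'.symm]
    rw [e1, e2]
  · rw [if_neg h, sub_zero]
    have hx : IsVac d x (trial d blk f l) := by
      apply isVac_trial
      intro k hk
      unfold amp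
      rcases hbuf with hb | hb
      · rw [if_neg]
        rintro rfl
        exact h ⟨hb, hk⟩
      · rw [hb.1]; simp
    have hy : IsVac d y (trial d blk f l) := by
      apply isVac_trial
      intro k hk
      unfold amp
      rcases hbuf with hb | hb
      · rw [if_neg]
        rintro rfl
        exact h ⟨hb, by rw [hb]; exact hk⟩
      · rw [hb.2]; simp
    unfold qform
    rw [spinDot_vac d hxy hx hy, dotProduct_smul, norm_trial d blk f l hl hnorm]
    rw [show (((d : ℂ) / 2) ^ 2 • (1 : ℂ)) = ((((d : ℝ) / 2) ^ 2 : ℝ) : ℂ) by push_cast; simp]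
    exact Complex.ofReal_re _

/-- The excitation energy of one magnon with amplitude `f` placed in block `i`. -/
noncomputable def blockEnergy (E : Finset (V × V)) (i : ι) : ℝ :=
  (d : ℝ) ^ 2 / 2 * ∑ e ∈ E.filter (fun e => blk e.1 = i ∧ blk e.2 = i), (f e.1 - f e.2) ^ 2

theorem qform_heis_trial
    (E : Finset (V × V)) (hE : ∀ e ∈ E, e.1 ≠ e.2)
    (hbuf : ∀ e ∈ E, blk e.1 = blk e.2 ∨ (f e.1 = 0 ∧ f e.2 = 0)) (l : List ι) (hl : l.Nodup)
    (hnorm : ∀ j ∈ l, (d : ℝ) * ∑ z, amp blk f j z ^ 2 = 1) :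
    qform (heis d E) (trial d blk f l) =
      -(((d : ℝ) / 2) ^ 2 * E.card) + ∑ i ∈ l.toFinset, blockEnergy d blk f E i := by
  unfold heis
  rw [qform_neg, qform_sum]
  rw [Finset.sum_congr rfl fun e he =>
    qform_spinDot_trial d blk f (hE e he) (hbuf e he) l hl hnorm]
  rw [Finset.sum_sub_distrib, Finset.sum_const, nsmul_eq_mul]
  have key : ∑ e ∈ E, (if blk e.1 = blk e.2 ∧ blk e.1 ∈ l then
      (d : ℝ) ^ 2 / 2 * (f e.1 - f e.2) ^ 2 else 0) =
      ∑ i ∈ l.toFinset, blockEnergy d blk f E i := by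
    unfold blockEnergy
    simp only [Finset.sum_filter, Finset.mul_sum, mul_ite, mul_zero]
    rw [Finset.sum_comm]
    refine Finset.sum_congr rfl fun e _ => ?_
    by_cases h12 : blk e.1 = blk e.2
    · simp only [h12, and_self, true_and]
      rw [Finset.sum_ite_eq]
      simp only [List.mem_toFinset]
    · rw [if_neg (fun h => h12 h.1)]
      symm
      apply Finset.sum_eq_zero
      intro i _
      rw [if_neg]
      rintro ⟨h1, h2⟩
      exact h12 (h1.trans h2.symm)
  rw [key]
  ring

end Vale.Agent.H96
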