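import Vale.Agent.H96.MatExp

open Matrix

namespace Vale.Agent.H96

set_option linter.unusedSectionVars false

variable {V : Type*} [Fintype V] [DecidableEq V]

/-- The weight of an occupied set `A`: every `x ∈ A` chooses a parent, either the external
field `g` or a point of `A`. -/
def wgt (q : Matrix V V ℝ) (z : ℝ) (g : V → ℝ) (A : Finset V) : ℝ :=
  ∏ x ∈ A, z * (g x + ∑ y ∈ A, q y x)

/-- The generating function of occupied subsets of `U`. -/
def Psi (q : Matrix V V ℝ) (z : ℝ) (g : V → ℝ) (U : Finset V) : ℝ :=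
  ∑ A ∈ U.powerset, wgt q z g A

/-- The generating function of occupied subsets of `U` containing the marked point `y`. -/
def Mk (q : Matrix V V ℝ) (z : ℝ) (g : V → ℝ) (U : Finset V) (y : V) : ℝ :=
  ∑ A ∈ U.powerset.filter (fun A => y ∈ A), wgt q z g A

variable (q : Matrix V V ℝ) (z : ℝ)

theorem Psi_split (g : V → ℝ) (U : Finset V) (x₀ : V) :
    Psi q z g U = Psi q z g (U.erase x₀) + Mk q z g U x₀ := by
  unfold Psi Mk
  rw [← Finset.sum_filter_add_sum_filter_not U.powerset (fun A => x₀ ∈ A), add_comm]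
  congr 1
  apply Finset.sum_congr _ (fun _ _ => rfl)
  ext A
  rw [Finset.mem_filter, Finset.mem_powerset, Finset.mem_powerset, Finset.subset_erase]

theorem wgt_insert (g : V → ℝ) {A : Finset V} {x₀ : V} (hx : x₀ ∉ A) :
    wgt q z g (insert x₀ A) =
      z * (g x₀ + q x₀ x₀ + ∑ y ∈ A, q y x₀) * wgt q z (fun x => g x + q x₀ x) A := by
  unfold wgt
  rw [Finset.prod_insert hx, Finset.sum_insert hx]
  congr 1
  · ring
  · refine Finset.prod_congr rfl fun x _ => ?_
    rw [Finset.sum_insert hx]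
    ring

theorem Mk_rec (g : V → ℝ) {U : Finset V} {x₀ : V} (hx : x₀ ∈ U) :
    Mk q z g U x₀ =
      z * (g x₀ + q x₀ x₀) * Psi q z (fun x => g x + q x₀ x) (U.erase x₀) +
        z * ∑ y ∈ U.erase x₀, q y x₀ * Mk q z (fun x => g x + q x₀ x) (U.erase x₀) y := by
  have h1 : Mk q z g U x₀ = ∑ A ∈ (U.erase x₀).powerset, wgt q z g (insert x₀ A) := by
    unfold Mk
    refine Finset.sum_nbij' (fun A => A.erase x₀) (fun A => insert x₀ A) ?_ ?_ ?_ ?_ ?_
    · intro A hA
      rw [Finset.mem_filter, Finset.mem_powerset] at hA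
      rw [Finset.mem_powerset]
      exact Finset.erase_subset_erase x₀ hA.1
    · intro A hA
      rw [Finset.mem_powerset] at hA
      rw [Finset.mem_filter, Finset.mem_powerset]
      refine ⟨?_, Finset.mem_insert_self x₀ A⟩
      intro w hw
      rw [Finset.mem_insert] at hw
      rcases hw with rfl | hw
      · exact hx
      · exact Finset.mem_of_mem_erase (hA hw)
    · intro A hA
      rw [Finset.mem_filter] at hA
      exact Finset.insert_erase hA.2
    · intro A hA
      rw [Finset.mem_powerset] at hA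
      exact Finset.erase_insert (fun h => Finset.notMem_erase x₀ U (hA h))
    · intro A hA
      rw [Finset.mem_filter] at hA
      rw [Finset.insert_erase hA.2]
  have h2 : ∀ A ∈ (U.erase x₀).powerset, wgt q z g (insert x₀ A) =
      z * (g x₀ + q x₀ x₀) * wgt q z (fun x => g x + q x₀ x) A +
        z * ∑ y ∈ A, q y x₀ * wgt q z (fun x => g x + q x₀ x) A := by
    intro A hA
    rw [Finset.mem_powerset] at hA
    rw [wgt_insert q z g (fun h => Finset.notMem_erase x₀ U (hA h)), ← Finset.sum_mul]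
    ring
  rw [h1, Finset.sum_congr rfl h2, Finset.sum_add_distrib, ← Finset.mul_sum, ← Finset.mul_sum]
  congr 2
  unfold Mk
  rw [Finset.sum_comm' (s' := fun y => (U.erase x₀).powerset.filter (fun A => y ∈ A))
    (t' := U.erase x₀)]
  · refine Finset.sum_congr rfl fun y _ => ?_
    rw [Finset.mul_sum]
  · intro A y
    simp only [Finset.mem_filter, Finset.mem_powerset]
    constructor
    · rintro ⟨hA, hy⟩
      exact ⟨⟨hA, hy⟩, hA hy⟩
    · rintro ⟨⟨hA, hy⟩, _⟩
      exact ⟨hA, hy⟩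

end Vale.Agent.H96

namespace Vale.Agent.H96

set_option linter.unusedSectionVars false

variable {V : Type*} [Fintype V] [DecidableEq V] (q : Matrix V V ℝ) (z : ℝ)

theorem wgt_split (g : V → ℝ) (A : Finset V) :
    wgt q z g A = ∑ R ∈ A.powerset, (∏ x ∈ R, z * g x) *
      wgt q z (fun x => ∑ y ∈ R, q y x) (A \ R) := by
  unfold wgt
  simp only [mul_add]
  rw [Finset.prod_add]
  refine Finset.sum_congr rfl fun R hR => ?_
  rw [Finset.mem_powerset] at hR
  congr 1
  refine Finset.prod_congr rfl fun x _ => ?_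
  have hsum : ∑ y ∈ A, q y x = ∑ y ∈ R, q y x + ∑ y ∈ A \ R, q y x := by
    rw [add_comm]
    exact (Finset.sum_sdiff (f := fun y => q y x) hR).symm
  rw [hsum, mul_add]

theorem Psi_field (g : V → ℝ) (U : Finset V) :
    Psi q z g U = ∑ R ∈ U.powerset, (∏ x ∈ R, z * g x) *
      Psi q z (fun x => ∑ y ∈ R, q y x) (U \ R) := by
  unfold Psi
  simp only [wgt_split q z g]
  rw [Finset.sum_comm' (s' := fun R => U.powerset.filter (fun A => R ⊆ A)) (t' := U.powerset)]
  · refine Finset.sum_congr rfl fun R hR => ?_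
    rw [Finset.mem_powerset] at hR
    rw [Finset.mul_sum]
    refine Finset.sum_nbij' (fun A => A \ R) (fun B => R ∪ B) ?_ ?_ ?_ ?_ ?_
    · intro A hA
      rw [Finset.mem_filter, Finset.mem_powerset] at hA
      rw [Finset.mem_powerset]
      exact Finset.sdiff_subset_sdiff hA.1 (Finset.Subset.refl R)
    · intro B hB
      rw [Finset.mem_powerset] at hB
      rw [Finset.mem_filter, Finset.mem_powerset]
      exact ⟨Finset.union_subset hR (hB.trans Finset.sdiff_subset), Finset.subset_union_left⟩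
    · intro A hA
      rw [Finset.mem_filter] at hA
      exact Finset.union_sdiff_of_subset hA.2
    · intro B hB
      rw [Finset.mem_powerset] at hB
      rw [Finset.union_sdiff_left]
      exact Finset.sdiff_eq_self_of_disjoint
        (Finset.disjoint_of_subset_left hB Finset.sdiff_disjoint)
    · intro A _
      rfl
  · intro A R
    simp only [Finset.mem_filter, Finset.mem_powerset]
    constructor
    · rintro ⟨hA, hR⟩
      exact ⟨⟨hA, hR⟩, hR.trans hA⟩
    · rintro ⟨⟨hA, hR⟩, _⟩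
      exact ⟨hA, hR⟩

end Vale.Agent.H96

namespace Vale.Agent.H96

set_option linter.unusedSectionVars false

variable {V : Type*} [Fintype V] [DecidableEq V] (q : Matrix V V ℝ) (z a : ℝ)

/-- The truncated resolvent `∑_{k<n} a^{k+1} q^k`. -/
noncomputable def resN (n : ℕ) : Matrix V V ℝ := ∑ k ∈ Finset.range n, a ^ (k + 1) • q ^ k

/-- The cycle weights. -/
noncomputable def cyc : ℕ → V → ℝ
  | 0 => fun _ => 0
  | (n + 1) => fun x => a * q x x + a * ∑ y, ∑ w, q y x * resN q a n y w * q x w +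
      a * ∑ y, q y x * cyc n y

theorem cyc_succ (n : ℕ) (x : V) :
    cyc q a (n + 1) x = a * q x x + a * ∑ y, ∑ w, q y x * resN q a n y w * q x w +
      a * ∑ y, q y x * cyc q a n y := rfl

theorem cyc_zero (x : V) : cyc q a 0 x = 0 := rfl

variable {q a}

theorem resN_nonneg (hq0 : ∀ x y, 0 ≤ q x y) (ha0 : 0 ≤ a) (n : ℕ) (x y : V) :
    0 ≤ resN q a n x y := by
  unfold resN
  rw [Matrix.sum_apply]
  refine Finset.sum_nonneg fun k _ => ?_
  rw [Matrix.smul_apply, smul_eq_mul]
  exact mul_nonneg (pow_nonneg ha0 _) (pow_entry_nonneg hq0 k x y)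

theorem resN_mono (hq0 : ∀ x y, 0 ≤ q x y) (ha0 : 0 ≤ a) (n : ℕ) (x y : V) :
    resN q a n x y ≤ resN q a (n + 1) x y := by
  unfold resN
  rw [Finset.sum_range_succ, Matrix.add_apply, Matrix.smul_apply, smul_eq_mul]
  have := mul_nonneg (pow_nonneg ha0 (n + 1)) (pow_entry_nonneg hq0 n x y)
  linarith

theorem resN_succ (n : ℕ) :
    resN q a (n + 1) = a • (1 : Matrix V V ℝ) + a • (q * resN q a n) := by
  unfold resN
  rw [Finset.sum_range_succ', Finset.mul_sum, Finset.smul_sum, add_comm]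
  congr 1
  · simp
  · refine Finset.sum_congr rfl fun k _ => ?_
    rw [Matrix.mul_smul, smul_smul, ← pow_succ', ← pow_succ']

theorem resN_mulVec_succ (n : ℕ) (g : V → ℝ) (x : V) :
    (resN q a (n + 1) *ᵥ g) x = a * g x + a * ∑ y, q x y * (resN q a n *ᵥ g) y := by
  rw [resN_succ, Matrix.add_mulVec, Matrix.smul_mulVec, Matrix.one_mulVec, Matrix.smul_mulVec,
    ← Matrix.mulVec_mulVec]
  simp only [Pi.add_apply, Pi.smul_apply, smul_eq_mul]
  rfl

theorem cyc_nonneg (hq0 : ∀ x y, 0 ≤ q x y) (ha0 : 0 ≤ a) (n : ℕ) (x : V) : 0 ≤ cyc q a n x := by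
  induction n generalizing x with
  | zero => exact le_refl _
  | succ n ih =>
    rw [cyc_succ]
    have h1 : 0 ≤ a * q x x := mul_nonneg ha0 (hq0 x x)
    have h2 : 0 ≤ a * ∑ y, ∑ w, q y x * resN q a n y w * q x w :=
      mul_nonneg ha0 (Finset.sum_nonneg fun y _ => Finset.sum_nonneg fun w _ =>
        mul_nonneg (mul_nonneg (hq0 y x) (resN_nonneg hq0 ha0 n y w)) (hq0 x w))
    have h3 : 0 ≤ a * ∑ y, q y x * cyc q a n y :=
      mul_nonneg ha0 (Finset.sum_nonneg fun y _ => mul_nonneg (hq0 y x) (ih y))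
    linarith

theorem cyc_mono (hq0 : ∀ x y, 0 ≤ q x y) (ha0 : 0 ≤ a) (n : ℕ) (x : V) :
    cyc q a n x ≤ cyc q a (n + 1) x := by
  induction n generalizing x with
  | zero => exact cyc_nonneg hq0 ha0 1 x
  | succ n ih =>
    rw [cyc_succ q a n, cyc_succ q a (n + 1)]
    have h2 : a * ∑ y, ∑ w, q y x * resN q a n y w * q x w ≤
        a * ∑ y, ∑ w, q y x * resN q a (n + 1) y w * q x w := by
      refine mul_le_mul_of_nonneg_left ?_ ha0
      refine Finset.sum_le_sum fun y _ => Finset.sum_le_sum fun w _ => ?_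
      exact mul_le_mul_of_nonneg_right
        (mul_le_mul_of_nonneg_left (resN_mono hq0 ha0 n y w) (hq0 y x)) (hq0 x w)
    have h3 : a * ∑ y, q y x * cyc q a n y ≤ a * ∑ y, q y x * cyc q a (n + 1) y := by
      refine mul_le_mul_of_nonneg_left ?_ ha0
      exact Finset.sum_le_sum fun y _ => mul_le_mul_of_nonneg_left (ih y) (hq0 y x)
    linarith

theorem wgt_nonneg (hq0 : ∀ x y, 0 ≤ q x y) (hz : 0 ≤ z) {g : V → ℝ} (hg : ∀ x, 0 ≤ g x)
    (A : Finset V) : 0 ≤ wgt q z g A := by
  unfold wgt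
  exact Finset.prod_nonneg fun x _ => mul_nonneg hz
    (add_nonneg (hg x) (Finset.sum_nonneg fun y _ => hq0 y x))

theorem Psi_nonneg (hq0 : ∀ x y, 0 ≤ q x y) (hz : 0 ≤ z) {g : V → ℝ} (hg : ∀ x, 0 ≤ g x)
    (U : Finset V) : 0 ≤ Psi q z g U :=
  Finset.sum_nonneg fun A _ => wgt_nonneg z hq0 hz hg A

theorem Mk_nonneg (hq0 : ∀ x y, 0 ≤ q x y) (hz : 0 ≤ z) {g : V → ℝ} (hg : ∀ x, 0 ≤ g x)
    (U : Finset V) (y : V) : 0 ≤ Mk q z g U y :=
  Finset.sum_nonneg fun A _ => wgt_nonneg z hq0 hz hg A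

theorem one_le_prod_one_add {c : V → ℝ} (hc : ∀ x, 0 ≤ c x) (S : Finset V) :
    1 ≤ ∏ x ∈ S, (1 + c x) := by
  induction S using Finset.induction_on with
  | empty => simp
  | insert x S hx ih =>
    rw [Finset.prod_insert hx]
    have := hc x
    nlinarith

theorem prod_one_add_mono {c : V → ℝ} (hc : ∀ x, 0 ≤ c x) {S T : Finset V} (h : S ⊆ T) :
    ∏ x ∈ S, (1 + c x) ≤ ∏ x ∈ T, (1 + c x) := by
  rw [← Finset.prod_sdiff h]
  have h1 := one_le_prod_one_add hc (T \ S)
  have h2 : 0 ≤ ∏ x ∈ S, (1 + c x) := le_trans zero_le_one (one_le_prod_one_add hc S)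
  nlinarith

end Vale.Agent.H96

namespace Vale.Agent.H96

set_option linter.unusedSectionVars false

variable {V : Type*} [Fintype V] [DecidableEq V] {q : Matrix V V ℝ} {z a : ℝ}

/-- The inductive step for the marked generating function. -/
theorem fg_stepC (hq0 : ∀ x y, 0 ≤ q x y) (hqs : ∀ x y, q x y = q y x)
    (hrow : ∀ x, ∑ y, q x y ≤ 1) (hz : 0 ≤ z) (ha0 : 0 ≤ a) (hza : z * Real.exp a ≤ a) (n : ℕ)
    (ih : ∀ U : Finset V, U.card ≤ n → ∀ g : V → ℝ, (∀ x, 0 ≤ g x) →
      (Psi q z g U ≤ (∏ x ∈ U, (1 + cyc q a n x)) * Real.exp (a * ∑ x ∈ U, g x)) ∧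
      (∀ y ∈ U, Mk q z g U y ≤ (∏ x ∈ U.erase y, (1 + cyc q a n x)) *
          Real.exp (a * ∑ x ∈ U, g x) * ((resN q a n *ᵥ g) y + cyc q a n y)))
    (U : Finset V) (hU : U.card ≤ n + 1) (g : V → ℝ) (hg : ∀ x, 0 ≤ g x) (x₀ : V) (hx₀ : x₀ ∈ U) :
    Mk q z g U x₀ ≤ (∏ x ∈ U.erase x₀, (1 + cyc q a (n + 1) x)) *
      Real.exp (a * ∑ x ∈ U, g x) * ((resN q a (n + 1) *ᵥ g) x₀ + cyc q a (n + 1) x₀) := by
  have hU2 : (U.erase x₀).card ≤ n := by
    rw [Finset.card_erase_of_mem hx₀]; omega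
  set g' : V → ℝ := fun x => g x + q x₀ x with hg'def
  have hg' : ∀ x, 0 ≤ g' x := fun x => add_nonneg (hg x) (hq0 x₀ x)
  obtain ⟨ihB, ihC⟩ := ih (U.erase x₀) hU2 g' hg'
  set P : ℝ := ∏ x ∈ U.erase x₀, (1 + cyc q a n x) with hP
  set Ex' : ℝ := Real.exp (a * ∑ x ∈ U.erase x₀, g' x) with hEx'
  set Ex : ℝ := Real.exp (a * ∑ x ∈ U, g x) with hEx
  have hcn : ∀ x, 0 ≤ cyc q a n x := cyc_nonneg hq0 ha0 n
  have hP1 : 1 ≤ P := one_le_prod_one_add hcn _
  have hP0 : 0 ≤ P := le_trans zero_le_one hP1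
  have hEx'0 : 0 < Ex' := Real.exp_pos _
  have hEx0 : 0 < Ex := Real.exp_pos _
  -- the exponential factor
  have hExle : Ex' ≤ Ex * Real.exp a := by
    rw [hEx', hEx, ← Real.exp_add]
    apply Real.exp_le_exp.mpr
    have h1 : ∑ x ∈ U.erase x₀, g' x = ∑ x ∈ U.erase x₀, g x + ∑ x ∈ U.erase x₀, q x₀ x :=
      Finset.sum_add_distrib
    have h2 : ∑ x ∈ U.erase x₀, g x ≤ ∑ x ∈ U, g x :=
      Finset.sum_le_sum_of_subset_of_nonneg (Finset.erase_subset x₀ U) (fun x _ _ => hg x)
    have h3 : ∑ x ∈ U.erase x₀, q x₀ x ≤ 1 :=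
      le_trans (Finset.sum_le_sum_of_subset_of_nonneg (Finset.subset_univ _)
        (fun x _ _ => hq0 x₀ x)) (hrow x₀)
    rw [h1]
    nlinarith
  -- the bracket
  set Br : ℝ := g x₀ + q x₀ x₀ + ∑ y, q y x₀ * ((resN q a n *ᵥ g') y + cyc q a n y) with hBr
  have hRg' : ∀ y, 0 ≤ (resN q a n *ᵥ g') y := fun y =>
    Finset.sum_nonneg fun w _ => mul_nonneg (resN_nonneg hq0 ha0 n y w) (hg' w)
  have hBr0 : 0 ≤ Br := by
    have h1 : 0 ≤ ∑ y, q y x₀ * ((resN q a n *ᵥ g') y + cyc q a n y) :=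
      Finset.sum_nonneg fun y _ => mul_nonneg (hq0 y x₀) (add_nonneg (hRg' y) (hcn y))
    have := hg x₀
    have := hq0 x₀ x₀
    linarith
  have hstep1 : Mk q z g U x₀ ≤ P * Ex' * (z * Br) := by
    rw [Mk_rec q z g hx₀]
    have t1 : z * (g x₀ + q x₀ x₀) * Psi q z g' (U.erase x₀) ≤
        z * (g x₀ + q x₀ x₀) * (P * Ex') :=
      mul_le_mul_of_nonneg_left ihB (mul_nonneg hz (add_nonneg (hg x₀) (hq0 x₀ x₀)))
    have t2 : z * ∑ y ∈ U.erase x₀, q y x₀ * Mk q z g' (U.erase x₀) y ≤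
        z * ∑ y, q y x₀ * (P * Ex' * ((resN q a n *ᵥ g') y + cyc q a n y)) := by
      refine mul_le_mul_of_nonneg_left ?_ hz
      calc ∑ y ∈ U.erase x₀, q y x₀ * Mk q z g' (U.erase x₀) y
          ≤ ∑ y ∈ U.erase x₀, q y x₀ * (P * Ex' * ((resN q a n *ᵥ g') y + cyc q a n y)) := by
            refine Finset.sum_le_sum fun y hy => mul_le_mul_of_nonneg_left ?_ (hq0 y x₀)
            refine le_trans (ihC y hy) ?_
            refine mul_le_mul_of_nonneg_right ?_ (add_nonneg (hRg' y) (hcn y))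
            refine mul_le_mul_of_nonneg_right ?_ hEx'0.le
            exact prod_one_add_mono hcn (Finset.erase_subset y _)
        _ ≤ ∑ y, q y x₀ * (P * Ex' * ((resN q a n *ᵥ g') y + cyc q a n y)) := by
            refine Finset.sum_le_sum_of_subset_of_nonneg (Finset.subset_univ _) (fun y _ _ => ?_)
            exact mul_nonneg (hq0 y x₀) (mul_nonneg (mul_nonneg hP0 hEx'0.le)
              (add_nonneg (hRg' y) (hcn y)))
    have e : P * Ex' * (z * Br) = z * (g x₀ + q x₀ x₀) * (P * Ex') +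
        z * ∑ y, q y x₀ * (P * Ex' * ((resN q a n *ᵥ g') y + cyc q a n y)) := by
      rw [hBr, mul_add, mul_add, Finset.mul_sum, Finset.mul_sum, Finset.mul_sum]
      congr 1
      · ring
      · refine Finset.sum_congr rfl fun y _ => ?_
        ring
    rw [e]
    linarith
  have hstep2 : P * Ex' * (z * Br) ≤ P * Ex * (a * Br) := by
    have h1 : Ex' * z ≤ Ex * a := by
      calc Ex' * z ≤ Ex * Real.exp a * z := mul_le_mul_of_nonneg_right hExle hz
        _ = Ex * (z * Real.exp a) := by ring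
        _ ≤ Ex * a := mul_le_mul_of_nonneg_left hza hEx0.le
    have h2 : P * Ex' * (z * Br) = P * Br * (Ex' * z) := by ring
    have h3 : P * Ex * (a * Br) = P * Br * (Ex * a) := by ring
    rw [h2, h3]
    exact mul_le_mul_of_nonneg_left h1 (mul_nonneg hP0 hBr0)
  have hbr : a * Br = (resN q a (n + 1) *ᵥ g) x₀ + cyc q a (n + 1) x₀ := by
    rw [resN_mulVec_succ, cyc_succ, hBr]
    have h1 : ∀ y, (resN q a n *ᵥ g') y = (resN q a n *ᵥ g) y + ∑ w, resN q a n y w * q x₀ w := by
      intro y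
      simp only [Matrix.mulVec, dotProduct, hg'def, mul_add, Finset.sum_add_distrib]
    simp only [h1, mul_add, Finset.sum_add_distrib, Finset.mul_sum]
    have h2 : ∀ y, q y x₀ = q x₀ y := fun y => hqs y x₀
    have h3 : ∑ y, a * (q y x₀ * (resN q a n *ᵥ g) y) = ∑ y, a * (q x₀ y * (resN q a n *ᵥ g) y) := by
      refine Finset.sum_congr rfl fun y _ => ?_
      rw [h2 y]
    have h4 : ∑ y, ∑ w, a * (q y x₀ * (resN q a n y w * q x₀ w)) =
        ∑ y, ∑ w, a * (q y x₀ * resN q a n y w * q x₀ w) := by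
      refine Finset.sum_congr rfl fun y _ => Finset.sum_congr rfl fun w _ => ?_
      ring
    rw [h3, h4]
    ring
  have hPmono : P ≤ ∏ x ∈ U.erase x₀, (1 + cyc q a (n + 1) x) := by
    refine Finset.prod_le_prod (fun x _ => ?_) (fun x _ => ?_)
    · have := hcn x; linarith
    · have := cyc_mono hq0 ha0 n x; linarith
  calc Mk q z g U x₀ ≤ P * Ex' * (z * Br) := hstep1
    _ ≤ P * Ex * (a * Br) := hstep2
    _ ≤ (∏ x ∈ U.erase x₀, (1 + cyc q a (n + 1) x)) * Ex * (a * Br) := by
        refine mul_le_mul_of_nonneg_right (mul_le_mul_of_nonneg_right hPmono hEx0.le) ?_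
        exact mul_nonneg ha0 hBr0
    _ = _ := by rw [hbr]

end Vale.Agent.H96

namespace Vale.Agent.H96

set_option linter.unusedSectionVars false

variable {V : Type*} [Fintype V] [DecidableEq V] {q : Matrix V V ℝ} {z a : ℝ}

/-- The main inductive bound on the generating functions of functional graphs. -/
theorem fg_bound (hq0 : ∀ x y, 0 ≤ q x y) (hqs : ∀ x y, q x y = q y x)
    (hrow : ∀ x, ∑ y, q x y ≤ 1) (hz : 0 ≤ z) (ha0 : 0 ≤ a) (hza : z * Real.exp a ≤ a) (n : ℕ) :
    ∀ U : Finset V, U.card ≤ n → ∀ g : V → ℝ, (∀ x, 0 ≤ g x) →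
      (Psi q z g U ≤ (∏ x ∈ U, (1 + cyc q a n x)) * Real.exp (a * ∑ x ∈ U, g x)) ∧
      (∀ y ∈ U, Mk q z g U y ≤ (∏ x ∈ U.erase y, (1 + cyc q a n x)) *
          Real.exp (a * ∑ x ∈ U, g x) * ((resN q a n *ᵥ g) y + cyc q a n y)) := by
  induction n with
  | zero =>
    intro U hU g hg
    have : U = ∅ := Finset.card_eq_zero.mp (Nat.le_zero.mp hU)
    subst this
    refine ⟨?_, fun y hy => absurd hy (Finset.notMem_empty y)⟩
    simp [Psi, wgt]
  | succ n ih =>
    have stepC := fg_stepC hq0 hqs hrow hz ha0 hza n ih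
    have hcn : ∀ x, 0 ≤ cyc q a n x := cyc_nonneg hq0 ha0 n
    have hcn1 : ∀ x, 0 ≤ cyc q a (n + 1) x := cyc_nonneg hq0 ha0 (n + 1)
    have stepA : ∀ U : Finset V, U.card ≤ n + 1 →
        Psi q z (fun _ => 0) U ≤ ∏ x ∈ U, (1 + cyc q a (n + 1) x) := by
      intro U hU
      rcases U.eq_empty_or_nonempty with rfl | ⟨x₀, hx₀⟩
      · simp [Psi, wgt]
      · have hU2 : (U.erase x₀).card ≤ n := by
          rw [Finset.card_erase_of_mem hx₀]; omega
        rw [Psi_split q z _ U x₀]
        have h1 := (ih (U.erase x₀) hU2 (fun _ => 0) (fun _ => le_refl 0)).1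
        have h2 := stepC U hU (fun _ => 0) (fun _ => le_refl 0) x₀ hx₀
        simp only [Finset.sum_const_zero, mul_zero, Real.exp_zero, mul_one] at h1 h2
        have h3 : (resN q a (n + 1) *ᵥ fun _ => (0 : ℝ)) x₀ = 0 := by
          simp [Matrix.mulVec, dotProduct]
        rw [h3, zero_add] at h2
        have h4 : ∏ x ∈ U.erase x₀, (1 + cyc q a n x) ≤
            ∏ x ∈ U.erase x₀, (1 + cyc q a (n + 1) x) := by
          refine Finset.prod_le_prod (fun x _ => ?_) (fun x _ => ?_)
          · have := hcn x; linarith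
          · have := cyc_mono hq0 ha0 n x; linarith
        rw [← Finset.mul_prod_erase U _ hx₀]
        nlinarith
    intro U hU g hg
    refine ⟨?_, stepC U hU g hg⟩
    rw [Psi_field q z g U]
    set P : ℝ := ∏ x ∈ U, (1 + cyc q a (n + 1) x) with hP
    have hP0 : 0 ≤ P := le_trans zero_le_one (one_le_prod_one_add hcn1 U)
    have hterm : ∀ R ∈ U.powerset, (∏ x ∈ R, z * g x) *
        Psi q z (fun x => ∑ y ∈ R, q y x) (U \ R) ≤ P * ∏ x ∈ R, (a * g x) := by
      intro R hR
      rw [Finset.mem_powerset] at hR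
      have hgR : ∀ x, 0 ≤ ∑ y ∈ R, q y x := fun x => Finset.sum_nonneg fun y _ => hq0 y x
      have hpsi : Psi q z (fun x => ∑ y ∈ R, q y x) (U \ R) ≤ P * Real.exp (a * R.card) := by
        rcases R.eq_empty_or_nonempty with rfl | hne
        · simp only [Finset.sum_empty, Finset.sdiff_empty, Finset.card_empty, Nat.cast_zero,
            mul_zero, Real.exp_zero, mul_one]
          exact stepA U hU
        · have hcard : (U \ R).card ≤ n := by
            rw [Finset.card_sdiff_of_subset hR]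
            have := Finset.card_pos.mpr hne
            omega
          have h1 := (ih (U \ R) hcard (fun x => ∑ y ∈ R, q y x) hgR).1
          refine le_trans h1 ?_
          have h2 : ∏ x ∈ U \ R, (1 + cyc q a n x) ≤ P := by
            calc ∏ x ∈ U \ R, (1 + cyc q a n x) ≤ ∏ x ∈ U \ R, (1 + cyc q a (n + 1) x) := by
                  refine Finset.prod_le_prod (fun x _ => ?_) (fun x _ => ?_)
                  · have := hcn x; linarith
                  · have := cyc_mono hq0 ha0 n x; linarith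
              _ ≤ P := prod_one_add_mono hcn1 Finset.sdiff_subset
          have h3 : ∑ x ∈ U \ R, ∑ y ∈ R, q y x ≤ R.card := by
            rw [Finset.sum_comm]
            calc ∑ y ∈ R, ∑ x ∈ U \ R, q y x ≤ ∑ y ∈ R, (1 : ℝ) := by
                  refine Finset.sum_le_sum fun y _ => ?_
                  exact le_trans (Finset.sum_le_sum_of_subset_of_nonneg (Finset.subset_univ _)
                    (fun x _ _ => hq0 y x)) (hrow y)
              _ = R.card := by simp
          have h4 : Real.exp (a * ∑ x ∈ U \ R, ∑ y ∈ R, q y x) ≤ Real.exp (a * R.card) :=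
            Real.exp_le_exp.mpr (mul_le_mul_of_nonneg_left h3 ha0)
          exact mul_le_mul h2 h4 (Real.exp_pos _).le hP0
      have hprod0 : 0 ≤ ∏ x ∈ R, z * g x :=
        Finset.prod_nonneg fun x _ => mul_nonneg hz (hg x)
      calc (∏ x ∈ R, z * g x) * Psi q z (fun x => ∑ y ∈ R, q y x) (U \ R)
          ≤ (∏ x ∈ R, z * g x) * (P * Real.exp (a * R.card)) :=
            mul_le_mul_of_nonneg_left hpsi hprod0
        _ = P * ∏ x ∈ R, (z * g x * Real.exp a) := by
            have e1 : ∏ x ∈ R, (z * g x * Real.exp a) =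
                (∏ x ∈ R, z * g x) * Real.exp (a * R.card) := by
              rw [Finset.prod_mul_distrib, Finset.prod_const, ← Real.exp_nat_mul, mul_comm a]
            rw [e1]
            ring
        _ ≤ P * ∏ x ∈ R, (a * g x) := by
            refine mul_le_mul_of_nonneg_left ?_ hP0
            refine Finset.prod_le_prod (fun x _ => ?_) (fun x _ => ?_)
            · exact mul_nonneg (mul_nonneg hz (hg x)) (Real.exp_pos _).le
            · have := mul_le_mul_of_nonneg_right hza (hg x)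
              linarith
    calc ∑ R ∈ U.powerset, (∏ x ∈ R, z * g x) * Psi q z (fun x => ∑ y ∈ R, q y x) (U \ R)
        ≤ ∑ R ∈ U.powerset, P * ∏ x ∈ R, (a * g x) := Finset.sum_le_sum hterm
      _ = P * ∏ x ∈ U, (1 + a * g x) := by
          rw [← Finset.mul_sum, Finset.prod_one_add]
      _ ≤ P * Real.exp (a * ∑ x ∈ U, g x) := by
          refine mul_le_mul_of_nonneg_left ?_ hP0
          rw [Finset.mul_sum, Real.exp_sum]
          refine Finset.prod_le_prod (fun x _ => ?_) (fun x _ => ?_)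
          · have := mul_nonneg ha0 (hg x); linarith
          · have := Real.add_one_le_exp (a * g x); linarith

end Vale.Agent.H96

namespace Vale.Agent.H96

set_option linter.unusedSectionVars false

variable {V : Type*} [Fintype V] [DecidableEq V] {q : Matrix V V ℝ} {z a : ℝ}

theorem sum_resN_sq (hqs : ∀ x y, q x y = q y x) (n : ℕ) :
    ∑ x, ∑ y, ∑ w, q y x * resN q a n y w * q x w =
      ∑ k ∈ Finset.range n, a ^ (k + 1) * Matrix.trace (q ^ (k + 2)) := by
  have h1 : ∀ k : ℕ, Matrix.trace (q ^ (k + 2)) = ∑ y, ∑ w, (q ^ k) y w * (q * q) w y := by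
    intro k
    rw [pow_add, pow_two]
    simp only [Matrix.trace, Matrix.diag_apply, Matrix.mul_apply (M := q ^ k)]
  have h2 : ∀ y w, (q * q) w y = ∑ x, q y x * q x w := by
    intro y w
    rw [Matrix.mul_apply]
    refine Finset.sum_congr rfl fun x _ => ?_
    rw [hqs w x, hqs x y, mul_comm]
  have h3 : ∀ y w, resN q a n y w = ∑ k ∈ Finset.range n, a ^ (k + 1) * (q ^ k) y w := by
    intro y w
    unfold resN
    rw [Matrix.sum_apply]
    rfl
  have hswap : ∀ F : ℕ → V → V → V → ℝ,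
      ∑ x, ∑ y, ∑ w, ∑ k ∈ Finset.range n, F k x y w =
        ∑ k ∈ Finset.range n, ∑ x, ∑ y, ∑ w, F k x y w := by
    intro F
    calc ∑ x, ∑ y, ∑ w, ∑ k ∈ Finset.range n, F k x y w
        = ∑ x, ∑ y, ∑ k ∈ Finset.range n, ∑ w, F k x y w :=
          Finset.sum_congr rfl fun x _ => Finset.sum_congr rfl fun y _ => Finset.sum_comm
      _ = ∑ x, ∑ k ∈ Finset.range n, ∑ y, ∑ w, F k x y w :=
          Finset.sum_congr rfl fun x _ => Finset.sum_comm
      _ = ∑ k ∈ Finset.range n, ∑ x, ∑ y, ∑ w, F k x y w := Finset.sum_comm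
  have hk : ∀ k : ℕ, ∑ x, ∑ y, ∑ w, q y x * (a ^ (k + 1) * (q ^ k) y w) * q x w =
      a ^ (k + 1) * Matrix.trace (q ^ (k + 2)) := by
    intro k
    rw [h1]
    simp only [h2, Finset.mul_sum]
    calc ∑ x, ∑ y, ∑ w, q y x * (a ^ (k + 1) * (q ^ k) y w) * q x w
        = ∑ y, ∑ x, ∑ w, q y x * (a ^ (k + 1) * (q ^ k) y w) * q x w := Finset.sum_comm
      _ = ∑ y, ∑ w, ∑ x, q y x * (a ^ (k + 1) * (q ^ k) y w) * q x w :=
          Finset.sum_congr rfl fun y _ => Finset.sum_comm
      _ = _ := by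
          refine Finset.sum_congr rfl fun y _ => Finset.sum_congr rfl fun w _ =>
            Finset.sum_congr rfl fun x _ => ?_
          ring
  simp only [h3, Finset.mul_sum, Finset.sum_mul]
  rw [hswap (fun k x y w => q y x * (a ^ (k + 1) * (q ^ k) y w) * q x w)]
  exact Finset.sum_congr rfl fun k _ => hk k

theorem sum_cyc_le (hq0 : ∀ x y, 0 ≤ q x y) (hqs : ∀ x y, q x y = q y x)
    (hrow : ∀ x, ∑ y, q x y ≤ 1) (ha0 : 0 ≤ a) (ha1 : a < 1) {T : ℝ}
    (hT : ∀ l : ℕ, 1 ≤ l → Matrix.trace (q ^ l) ≤ T) (n : ℕ) :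
    ∑ x, cyc q a n x ≤ a * T / (1 - a) ^ 2 := by
  have h1a : 0 < 1 - a := by linarith
  have hT0 : 0 ≤ T := by
    refine le_trans ?_ (hT 1 (le_refl 1))
    rw [pow_one]
    exact Finset.sum_nonneg fun x _ => hq0 x x
  induction n with
  | zero =>
    simp only [cyc_zero, Finset.sum_const_zero]
    positivity
  | succ n ih =>
    simp only [cyc_succ, Finset.sum_add_distrib, ← Finset.mul_sum]
    rw [sum_resN_sq hqs]
    have t1 : ∑ x, q x x ≤ T := by
      have := hT 1 (le_refl 1)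
      rw [pow_one] at this
      exact this
    have t2 : ∑ k ∈ Finset.range n, a ^ (k + 1) * Matrix.trace (q ^ (k + 2)) ≤ T * (a / (1 - a)) := by
      calc ∑ k ∈ Finset.range n, a ^ (k + 1) * Matrix.trace (q ^ (k + 2))
          ≤ ∑ k ∈ Finset.range n, a ^ (k + 1) * T :=
            Finset.sum_le_sum fun k _ => mul_le_mul_of_nonneg_left (hT (k + 2) (by omega))
              (pow_nonneg ha0 _)
        _ = T * (a * ∑ k ∈ Finset.range n, a ^ k) := by
            rw [Finset.mul_sum, Finset.mul_sum]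
            refine Finset.sum_congr rfl fun k _ => ?_
            rw [pow_succ]; ring
        _ ≤ T * (a / (1 - a)) := by
            refine mul_le_mul_of_nonneg_left ?_ hT0
            have hg := geom_sum_mul_neg a n
            have hs : ∑ k ∈ Finset.range n, a ^ k ≤ 1 / (1 - a) := by
              rw [le_div_iff₀ h1a, hg]
              have := pow_nonneg ha0 n
              linarith
            calc a * ∑ k ∈ Finset.range n, a ^ k ≤ a * (1 / (1 - a)) :=
                  mul_le_mul_of_nonneg_left hs ha0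
              _ = a / (1 - a) := by ring
    have t3 : ∑ x, ∑ y, q y x * cyc q a n y ≤ ∑ y, cyc q a n y := by
      rw [Finset.sum_comm]
      refine Finset.sum_le_sum fun y _ => ?_
      rw [← Finset.sum_mul]
      have := mul_le_mul_of_nonneg_right (hrow y) (cyc_nonneg hq0 ha0 n y)
      linarith
    have e : a * T / (1 - a) ^ 2 = a * T + a * (T * (a / (1 - a))) + a * (a * T / (1 - a) ^ 2) := by
      field_simp
      ring
    rw [e]
    have h5 := mul_le_mul_of_nonneg_left t1 ha0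
    have h6 := mul_le_mul_of_nonneg_left t2 ha0
    have h7 := mul_le_mul_of_nonneg_left (le_trans t3 ih) ha0
    linarith

/-- The functional-graph bound: the generating function of occupied sets is bounded by the
exponential of the trace bound. -/
theorem Psi_zero_le (hq0 : ∀ x y, 0 ≤ q x y) (hqs : ∀ x y, q x y = q y x)
    (hrow : ∀ x, ∑ y, q x y ≤ 1) (hz : 0 ≤ z) (ha0 : 0 ≤ a) (hza : z * Real.exp a ≤ a)
    (ha1 : a < 1) {T : ℝ} (hT : ∀ l : ℕ, 1 ≤ l → Matrix.trace (q ^ l) ≤ T) :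
    Psi q z (fun _ => 0) Finset.univ ≤ Real.exp (a * T / (1 - a) ^ 2) := by
  have h1 := (fg_bound hq0 hqs hrow hz ha0 hza (Fintype.card V) Finset.univ
    (by rw [Finset.card_univ]) (fun _ => 0) (fun _ => le_refl 0)).1
  simp only [Finset.sum_const_zero, mul_zero, Real.exp_zero, mul_one] at h1
  refine le_trans h1 ?_
  calc ∏ x, (1 + cyc q a (Fintype.card V) x)
      ≤ ∏ x, Real.exp (cyc q a (Fintype.card V) x) := by
        refine Finset.prod_le_prod (fun x _ => ?_) (fun x _ => ?_)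
        · have := cyc_nonneg hq0 ha0 (Fintype.card V) x; linarith
        · have := Real.add_one_le_exp (cyc q a (Fintype.card V) x); linarith
    _ = Real.exp (∑ x, cyc q a (Fintype.card V) x) := (Real.exp_sum _ _).symm
    _ ≤ Real.exp (a * T / (1 - a) ^ 2) :=
        Real.exp_le_exp.mpr (sum_cyc_le hq0 hqs hrow ha0 ha1 hT _)

end Vale.Agent.H96
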