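import Vale.Agent.H96.Main

open Matrix Filter Topology

namespace Vale.Agent.H96

set_option linter.unusedSectionVars false

theorem exp13 : (376832 : ℝ) ≤ Real.exp 13 := by
  have h1 : Real.exp 13 = Real.exp 1 ^ 13 := by
    rw [← Real.exp_nat_mul]; norm_num
  rw [h1]
  have h2 : (2.718 : ℝ) ≤ Real.exp 1 := by
    have := Real.exp_one_gt_d9
    linarith
  calc (376832 : ℝ) ≤ (2.718 : ℝ) ^ 13 := by norm_num
    _ ≤ Real.exp 1 ^ 13 := pow_le_pow_left₀ (by norm_num) h2 13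

theorem log_one_add_exp_ge {a : ℝ} (ha : a ≤ 1) : 1 / 4 ≤ Real.log (1 + Real.exp (-a)) := by
  have he : Real.exp (-1) ≤ Real.exp (-a) := Real.exp_le_exp.mpr (by linarith)
  have h1 : Real.exp (-1) = (Real.exp 1)⁻¹ := Real.exp_neg 1
  have he3 : Real.exp 1 ≤ 3 := by
    have := Real.exp_one_lt_d9
    linarith
  have h3 : (3 : ℝ)⁻¹ ≤ (Real.exp 1)⁻¹ := inv_anti₀ (Real.exp_pos 1) he3
  have hu : (4 / 3 : ℝ) ≤ 1 + Real.exp (-a) := by
    rw [h1] at he
    linarith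
  have hu0 : (0 : ℝ) < 1 + Real.exp (-a) := by linarith
  have h4 := Real.one_sub_inv_le_log_of_pos hu0
  have h5 : (1 + Real.exp (-a))⁻¹ ≤ (4 / 3 : ℝ)⁻¹ := inv_anti₀ (by norm_num) hu
  have h6 : (4 / 3 : ℝ)⁻¹ = 3 / 4 := by norm_num
  linarith

theorem numerics (d : ℕ) (hd : 1 ≤ d) (β : ℝ) (hβ : 1 ≤ β) :
    ∃ r : ℕ, 1 ≤ r ∧ ∃ h : ℝ, 0 < h ∧
      ((d : ℝ) * Real.exp (-(β * h)) -
        Real.log (1 + Real.exp (-(12 * (d : ℝ) * β / (r : ℝ) ^ 2))) / (512 * (r : ℝ) ^ 3)) /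
          (β * h) ≤
        -(1 / (5000000 * ((d : ℝ) * β) ^ (3 / 2 : ℝ) * (1 + Real.log ((d : ℝ) * β)))) := by
  have hd' : (1 : ℝ) ≤ d := by exact_mod_cast hd
  have hβ0 : (0 : ℝ) < β := by linarith
  set x : ℝ := (d : ℝ) * β with hx
  have hx1 : 1 ≤ x := by nlinarith
  have hdx : (d : ℝ) ≤ x := by nlinarith
  set s : ℝ := Real.sqrt x with hs
  have hs1 : 1 ≤ s := by
    rw [hs]
    calc (1 : ℝ) = Real.sqrt 1 := Real.sqrt_one.symm
      _ ≤ Real.sqrt x := Real.sqrt_le_sqrt hx1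
  have hss : s * s = x := Real.mul_self_sqrt (by linarith)
  have hs3 : x ^ (3 / 2 : ℝ) = s ^ 3 := by
    rw [hs, Real.sqrt_eq_rpow, ← Real.rpow_natCast, ← Real.rpow_mul (by linarith)]
    norm_num
  have hlogs : Real.log s = Real.log x / 2 := by
    rw [hs]; exact Real.log_sqrt (by linarith)
  have hlogx : 0 ≤ Real.log x := Real.log_nonneg hx1
  -- the block size
  set r : ℕ := ⌈Real.sqrt (12 * x)⌉₊ with hr
  have hq : Real.sqrt (12 * x) ≤ (7 / 2) * s := by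
    rw [Real.sqrt_le_iff]
    constructor
    · positivity
    · nlinarith
  have hq0 : 0 < Real.sqrt (12 * x) := Real.sqrt_pos.mpr (by linarith)
  have hr1 : 1 ≤ r := Nat.one_le_ceil_iff.mpr hq0
  have hrle : Real.sqrt (12 * x) ≤ (r : ℝ) := Nat.le_ceil _
  have hrlt : (r : ℝ) < Real.sqrt (12 * x) + 1 := Nat.ceil_lt_add_one hq0.le
  have hr0 : (0 : ℝ) < r := by linarith
  have h12 : 12 * x ≤ (r : ℝ) ^ 2 := (Real.sqrt_le_iff.mp hrle).2
  have ha : 12 * (d : ℝ) * β / (r : ℝ) ^ 2 ≤ 1 := by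
    rw [div_le_one (by positivity)]
    have : 12 * (d : ℝ) * β = 12 * x := by rw [hx]; ring
    linarith
  have hG := log_one_add_exp_ge ha
  have hr92 : (r : ℝ) ^ 3 ≤ 92 * s ^ 3 := by
    have h1 : (r : ℝ) ≤ (9 / 2) * s := by linarith
    have h2 : (r : ℝ) ^ 3 ≤ ((9 / 2) * s) ^ 3 := pow_le_pow_left₀ hr0.le h1 3
    have h3 : ((9 / 2 : ℝ) * s) ^ 3 = (729 / 8) * s ^ 3 := by ring
    have h4 : (0 : ℝ) < s ^ 3 := by positivity
    linarith
  -- the field
  have hs30 : (0 : ℝ) < s ^ 3 := by positivity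
  have hd0 : (0 : ℝ) < d := by linarith
  have hL0 : (1 : ℝ) < 376832 * (d : ℝ) * s ^ 3 := by
    have : (1 : ℝ) ≤ s ^ 3 := one_le_pow₀ hs1
    nlinarith
  set L : ℝ := Real.log (376832 * (d : ℝ) * s ^ 3) with hL
  have hLpos : 0 < L := Real.log_pos hL0
  have hLle : L ≤ 13 * (1 + Real.log x) := by
    rw [hL, Real.log_mul (by positivity) (by positivity), Real.log_mul (by norm_num) (by positivity),
      Real.log_pow, hlogs]
    have h1 : Real.log 376832 ≤ 13 := by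
      rw [Real.log_le_iff_le_exp (by norm_num)]
      exact exp13
    have h2 : Real.log (d : ℝ) ≤ Real.log x := Real.log_le_log hd0 hdx
    push_cast
    linarith
  refine ⟨r, hr1, L / β, div_pos hLpos hβ0, ?_⟩
  have hbh : β * (L / β) = L := by field_simp
  rw [hbh, hs3]
  have hexp : (d : ℝ) * Real.exp (-L) = 1 / (376832 * s ^ 3) := by
    rw [Real.exp_neg, hL, Real.exp_log (by linarith)]
    field_simp
  have hG2 : 1 / (188416 * s ^ 3) ≤
      Real.log (1 + Real.exp (-(12 * (d : ℝ) * β / (r : ℝ) ^ 2))) / (512 * (r : ℝ) ^ 3) := by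
    rw [div_le_div_iff₀ (by positivity) (by positivity)]
    have h1 : 512 * (r : ℝ) ^ 3 ≤ 512 * (92 * s ^ 3) := by linarith
    have h2 : (0 : ℝ) ≤ 512 * (r : ℝ) ^ 3 := by positivity
    nlinarith
  have hX : (d : ℝ) * Real.exp (-L) -
      Real.log (1 + Real.exp (-(12 * (d : ℝ) * β / (r : ℝ) ^ 2))) / (512 * (r : ℝ) ^ 3) ≤
      -(1 / (376832 * s ^ 3)) := by
    rw [hexp]
    have : 1 / (188416 * s ^ 3) = 2 * (1 / (376832 * s ^ 3)) := by
      field_simp; norm_num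
    linarith
  have hl1 : (0 : ℝ) < 1 + Real.log x := by linarith
  rw [div_le_iff₀ hLpos]
  refine le_trans hX ?_
  rw [neg_mul, neg_le_neg_iff, div_mul_eq_mul_div, one_mul, div_le_div_iff₀ (by positivity) (by positivity)]
  have : L * (376832 * s ^ 3) ≤ 13 * (1 + Real.log x) * (376832 * s ^ 3) :=
    mul_le_mul_of_nonneg_right hLle (by positivity)
  have h5 : (0 : ℝ) ≤ s ^ 3 * (1 + Real.log x) := by positivity
  nlinarith

end Vale.Agent.H96

namespace Vale.Agent.H96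

set_option linter.unusedSectionVars false

theorem finite_volume_general (d N r : ℕ) (hd : 1 ≤ d) (hr : 1 ≤ r) (hN : 2 * r ≤ N)
    {β : ℝ} (hβ : 0 < β) {h : ℝ} (hh : 0 < h) {t : ℝ} (ht0 : 0 < t) (hth : t ≤ h) :
    pressure d N β t - pressure d N β 0 ≤
      t * ((d : ℝ) / 2 + ((d : ℝ) * Real.exp (-(β * h)) -
        Real.log (1 + Real.exp (-(12 * (d : ℝ) * β / (r : ℝ) ^ 2))) / (512 * (r : ℝ) ^ 3)) /
          (β * h)) := by
  have hA := pressure_diff_le d N r hd hr (by omega) hβ hh.le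
  set X := ((d : ℝ) * Real.exp (-(β * h)) -
        Real.log (1 + Real.exp (-(12 * (d : ℝ) * β / (r : ℝ) ^ 2))) / (512 * (r : ℝ) ^ 3)) with hX
  have key : pressure d N β t - pressure d N β 0 ≤
      t / h * (pressure d N β h - pressure d N β 0) := by
    rcases eq_or_lt_of_le hth with rfl | hlt
    · rw [div_self hh.ne', one_mul]
    · have h0 : 0 < t / h := div_pos ht0 hh
      have h1 : t / h < 1 := (div_lt_one hh).mpr hlt
      have := pressure_convex d N hβ h h0 h1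
      rw [div_mul_cancel₀ _ hh.ne'] at this
      linarith
  refine le_trans key ?_
  have h2 : t / h * (pressure d N β h - pressure d N β 0) ≤
      t / h * (h * ((d : ℝ) / 2) + X / β) :=
    mul_le_mul_of_nonneg_left hA (div_pos ht0 hh).le
  refine le_trans h2 (le_of_eq ?_)
  field_simp

/-- Main result with a logarithmic loss, for all spins. -/
theorem bloch_upper_log (d : ℕ) (hd : 1 ≤ d) (β : ℝ) (hβ : 1 ≤ β) :
    (∃ h₀ : ℝ, 0 < h₀ ∧ ∃ N₀ : ℕ, ∀ N : ℕ, N₀ ≤ N → ∀ t : ℝ, 0 < t → t ≤ h₀ →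
        pressure d N β t - pressure d N β 0 ≤
          t * ((d : ℝ) / 2 -
            1 / (5000000 * ((d : ℝ) * β) ^ (3 / 2 : ℝ) * (1 + Real.log ((d : ℝ) * β))))) ∧
    (∀ p : ℝ → ℝ, (∀ h : ℝ, Tendsto (fun N : ℕ => pressure d N β h) atTop (𝓝 (p h))) →
      ∀ m : ℝ, HasDerivWithinAt p m (Set.Ioi 0) 0 →
        m ≤ (d : ℝ) / 2 -
          1 / (5000000 * ((d : ℝ) * β) ^ (3 / 2 : ℝ) * (1 + Real.log ((d : ℝ) * β)))) := by
  obtain ⟨r, hr1, h, hh, hnum⟩ := numerics d hd β hβ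
  have hβ0 : (0 : ℝ) < β := by linarith
  constructor
  · refine ⟨h, hh, 2 * r, fun N hN t ht0 hth => ?_⟩
    have := finite_volume_general d N r hd hr1 hN hβ0 hh ht0 hth
    refine le_trans this ?_
    apply mul_le_mul_of_nonneg_left _ ht0.le
    linarith
  · intro p hp m hm
    have := magnetization_bound d r hd hr1 β hβ0 p hp m hm h hh
    linarith

end Vale.Agent.H96
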