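import Vale.Agent.H96.MatExp

open Matrix

namespace Vale.Agent.H96

set_option linter.unusedSectionVars false

variable {V : Type*} [Fintype V] [DecidableEq V]

/-- The graph Laplacian of a set `E` of ordered pairs: the generator of the random walk that
jumps from `e.1` to `e.2` at rate one for every `e ∈ E`. -/
def lapM (E : Finset (V × V)) : Matrix V V ℝ :=
  ∑ e ∈ E, (Matrix.single e.1 e.2 (1 : ℝ) - Matrix.single e.1 e.1 1)

theorem lapM_mulVec (E : Finset (V × V)) (f : V → ℝ) (x : V) :
    (lapM E *ᵥ f) x = ∑ e ∈ E, if e.1 = x then f e.2 - f e.1 else 0 := by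
  unfold lapM
  rw [Matrix.sum_mulVec, Finset.sum_apply]
  refine Finset.sum_congr rfl fun e _ => ?_
  rw [Matrix.sub_mulVec, Pi.sub_apply]
  simp only [Matrix.mulVec, dotProduct, Matrix.single_apply]
  by_cases h : e.1 = x
  · simp [h]
  · simp [h]

theorem lapM_offdiag (E : Finset (V × V)) {x y : V} (hxy : x ≠ y) : 0 ≤ lapM E x y := by
  unfold lapM
  rw [Matrix.sum_apply]
  refine Finset.sum_nonneg fun e _ => ?_
  rw [Matrix.sub_apply, Matrix.single_apply, Matrix.single_apply]
  have h2 : ¬ (e.1 = x ∧ e.1 = y) := fun h => hxy (h.1.symm.trans h.2)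
  rw [if_neg h2, sub_zero]
  split_ifs <;> norm_num

theorem lapM_transpose {E : Finset (V × V)} (hE : ∀ e ∈ E, (e.2, e.1) ∈ E) :
    (lapM E)ᵀ = lapM E := by
  unfold lapM
  rw [Matrix.transpose_sum]
  simp only [Matrix.transpose_sub, Matrix.transpose_single, Finset.sum_sub_distrib]
  congr 1
  refine Finset.sum_nbij' (fun e => (e.2, e.1)) (fun e => (e.2, e.1)) ?_ ?_ ?_ ?_ ?_
  · intro e he; exact hE e he
  · intro e he; exact hE e he
  · intro e _; rfl
  · intro e _; rfl
  · intro e _; rfl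

theorem lapM_mulVec_one (E : Finset (V × V)) : lapM E *ᵥ (fun _ => (1 : ℝ)) = 0 := by
  funext x
  rw [lapM_mulVec]
  simp

/-- The heat kernel `exp (s Δ)`. -/
noncomputable def hker (E : Finset (V × V)) (s : ℝ) : Matrix V V ℝ :=
  NormedSpace.exp (s • lapM E)

theorem hker_nonneg (E : Finset (V × V)) {s : ℝ} (hs : 0 ≤ s) (x y : V) : 0 ≤ hker E s x y :=
  exp_metzler_nonneg (fun _ _ h => lapM_offdiag E h) hs x y

theorem hker_transpose {E : Finset (V × V)} (hE : ∀ e ∈ E, (e.2, e.1) ∈ E) (s : ℝ) :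
    (hker E s)ᵀ = hker E s := by
  unfold hker
  rw [← Matrix.exp_transpose, Matrix.transpose_smul, lapM_transpose hE]

theorem hker_symm {E : Finset (V × V)} (hE : ∀ e ∈ E, (e.2, e.1) ∈ E) (s : ℝ) (x y : V) :
    hker E s x y = hker E s y x := by
  have := congrFun (congrFun (hker_transpose hE s) y) x
  rw [Matrix.transpose_apply] at this
  exact this

theorem hker_mulVec_one (E : Finset (V × V)) {s : ℝ} (hs : 0 ≤ s) :
    hker E s *ᵥ (fun _ => (1 : ℝ)) = fun _ => 1 := by
  funext x
  apply le_antisymm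
  · have := exp_compare (A := lapM E) (fun _ _ h => lapM_offdiag E h) hs
      (fun _ _ => (1 : ℝ)) (fun _ _ => 0) (fun s i => hasDerivAt_const s 1)
      (fun s _ _ i => by rw [lapM_mulVec_one]; simp) x
    exact this
  · have := exp_compare (A := lapM E) (fun _ _ h => lapM_offdiag E h) hs
      (fun _ _ => (-1 : ℝ)) (fun _ _ => 0) (fun s i => hasDerivAt_const s (-1))
      (fun s _ _ i => by
        have : (fun _ : V => (-1 : ℝ)) = -(fun _ : V => (1 : ℝ)) := by funext; simp
        rw [this, Matrix.mulVec_neg, lapM_mulVec_one]; simp) x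
    have e : (fun _ : V => (-1 : ℝ)) = -(fun _ : V => (1 : ℝ)) := by funext; simp
    rw [e, Matrix.mulVec_neg, Pi.neg_apply] at this
    unfold hker
    linarith

theorem hker_row_sum (E : Finset (V × V)) {s : ℝ} (hs : 0 ≤ s) (x : V) :
    ∑ y, hker E s x y = 1 := by
  have := congrFun (hker_mulVec_one E hs) x
  simpa [Matrix.mulVec, dotProduct] using this

theorem hker_pow (E : Finset (V × V)) (s : ℝ) (l : ℕ) : hker E s ^ l = hker E (l * s) := by
  unfold hker
  rw [← Matrix.exp_nsmul, mul_smul]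
  congr 1
  rw [Nat.cast_smul_eq_nsmul]

theorem hker_le_one (E : Finset (V × V)) {s : ℝ} (hs : 0 ≤ s) (x y : V) : hker E s x y ≤ 1 := by
  rw [← hker_row_sum E hs x]
  exact Finset.single_le_sum (f := fun y => hker E s x y) (fun y _ => hker_nonneg E hs x y)
    (Finset.mem_univ y)

end Vale.Agent.H96
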