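import Vale.Agent.H96.Defs

open Matrix

namespace Vale.Agent.H96

set_option linter.unusedSectionVars false

variable {V : Type*} [Fintype V] [DecidableEq V] {α : Type*} [Fintype α] [DecidableEq α]

theorem siteOp_apply (x : V) (A : Matrix α α ℂ) (σ τ : V → α) :
    siteOp x A σ τ = if ∀ y, y ≠ x → σ y = τ y then A (σ x) (τ x) else 0 := rfl

theorem siteOp_mulVec (x : V) (A : Matrix α α ℂ) (ψ : (V → α) → ℂ) (σ : V → α) :
    (siteOp x A *ᵥ ψ) σ = ∑ k, A (σ x) k * ψ (Function.update σ x k) := by
  unfold Matrix.mulVec dotProduct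
  simp only [siteOp_apply, ite_mul, zero_mul]
  rw [← Finset.sum_filter]
  refine Finset.sum_nbij' (fun τ => τ x) (fun k => Function.update σ x k) ?_ ?_ ?_ ?_ ?_
  · intro τ _; exact Finset.mem_univ _
  · intro k _
    rw [Finset.mem_filter]
    refine ⟨Finset.mem_univ _, fun y hy => ?_⟩
    rw [Function.update_of_ne hy]
  · intro τ hτ
    rw [Finset.mem_filter] at hτ
    ext y
    by_cases hy : y = x
    · subst hy; simp
    · rw [Function.update_of_ne hy]; exact hτ.2 y hy
  · intro k _; simp
  · intro τ hτ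
    rw [Finset.mem_filter] at hτ
    have : Function.update σ x (τ x) = τ := by
      ext y
      by_cases hy : y = x
      · subst hy; simp
      · rw [Function.update_of_ne hy]; exact hτ.2 y hy
    rw [this]

theorem siteOp_mul (x : V) (A B : Matrix α α ℂ) : siteOp x (A * B) = siteOp x A * siteOp x B := by
  apply Matrix.mulVec_injective
  funext ψ σ
  rw [← Matrix.mulVec_mulVec, siteOp_mulVec, siteOp_mulVec]
  simp only [siteOp_mulVec, Function.update_self, Function.update_idem, Matrix.mul_apply,
    Finset.sum_mul, Finset.mul_sum]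
  rw [Finset.sum_comm]
  refine Finset.sum_congr rfl fun k _ => Finset.sum_congr rfl fun l _ => ?_
  ring

theorem siteOp_add (x : V) (A B : Matrix α α ℂ) : siteOp x (A + B) = siteOp x A + siteOp x B := by
  ext σ τ
  simp only [siteOp_apply, Matrix.add_apply]
  split_ifs <;> simp

theorem siteOp_sub (x : V) (A B : Matrix α α ℂ) : siteOp x (A - B) = siteOp x A - siteOp x B := by
  ext σ τ
  simp only [siteOp_apply, Matrix.sub_apply]
  split_ifs <;> simp

theorem siteOp_neg (x : V) (A : Matrix α α ℂ) : siteOp x (-A) = -siteOp x A := by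
  ext σ τ
  simp only [siteOp_apply, Matrix.neg_apply]
  split_ifs <;> simp

theorem siteOp_smul (x : V) (c : ℂ) (A : Matrix α α ℂ) : siteOp x (c • A) = c • siteOp x A := by
  ext σ τ
  simp only [siteOp_apply, Matrix.smul_apply]
  split_ifs <;> simp

theorem siteOp_one (x : V) : siteOp x (1 : Matrix α α ℂ) = 1 := by
  ext σ τ
  simp only [siteOp_apply, Matrix.one_apply]
  by_cases h : σ = τ
  · subst h; simp
  · rw [if_neg h]
    split_ifs with h1 h2
    · exfalso; apply h; ext y
      by_cases hy : y = x
      · subst hy; exact h2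
      · exact h1 y hy
    · rfl
    · rfl

theorem siteOp_conjTranspose (x : V) (A : Matrix α α ℂ) : (siteOp x A)ᴴ = siteOp x Aᴴ := by
  ext σ τ
  simp only [siteOp_apply, Matrix.conjTranspose_apply]
  by_cases h : ∀ y, y ≠ x → σ y = τ y
  · have h' : ∀ y, y ≠ x → τ y = σ y := fun y hy => (h y hy).symm
    rw [if_pos h, if_pos h']
  · have h' : ¬ ∀ y, y ≠ x → τ y = σ y := fun h' => h fun y hy => (h' y hy).symm
    rw [if_neg h, if_neg h']; simp

theorem siteOp_comm {x y : V} (hxy : x ≠ y) (A B : Matrix α α ℂ) :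
    siteOp x A * siteOp y B = siteOp y B * siteOp x A := by
  apply Matrix.mulVec_injective
  funext ψ σ
  rw [← Matrix.mulVec_mulVec, ← Matrix.mulVec_mulVec, siteOp_mulVec, siteOp_mulVec]
  simp only [siteOp_mulVec, Function.update_of_ne hxy, Function.update_of_ne hxy.symm,
    Finset.mul_sum]
  rw [Finset.sum_comm]
  refine Finset.sum_congr rfl fun k _ => Finset.sum_congr rfl fun l _ => ?_
  rw [Function.update_comm hxy]
  ring

end Vale.Agent.H96
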