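import Vale.Agent.H96.Defs

open Matrix

namespace Vale.Agent.H96

theorem spinZ_isHermitian (d : ℕ) : (spinZ d).IsHermitian := by
  unfold spinZ Matrix.IsHermitian
  rw [Matrix.diagonal_conjTranspose]
  congr 1
  ext k
  simp

theorem spinMinus_conjTranspose (d : ℕ) : (spinMinus d)ᴴ = spinPlus d := by
  unfold spinMinus; simp

theorem spinPlus_conjTranspose (d : ℕ) : (spinPlus d)ᴴ = spinMinus d := rfl

theorem spinMinus_apply (d : ℕ) (i j : Fin (d + 1)) :
    spinMinus d i j = if (i : ℕ) = (j : ℕ) + 1 then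
      ((Real.sqrt (((i : ℕ) : ℝ) * ((d : ℝ) + 1 - ((i : ℕ) : ℝ))) : ℝ) : ℂ) else 0 := by
  unfold spinMinus spinPlus
  rw [Matrix.conjTranspose_apply, Matrix.of_apply]
  split_ifs <;> simp

theorem spinPlus_apply (d : ℕ) (i j : Fin (d + 1)) :
    spinPlus d i j = if (j : ℕ) = (i : ℕ) + 1 then
      ((Real.sqrt (((j : ℕ) : ℝ) * ((d : ℝ) + 1 - ((j : ℕ) : ℝ))) : ℝ) : ℂ) else 0 := rfl

theorem sqrt_mul_self_cast {d : ℕ} {a : ℕ} (ha : a ≤ d + 1) :
    ((Real.sqrt ((a : ℝ) * ((d : ℝ) + 1 - (a : ℝ))) : ℝ) : ℂ) *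
      ((Real.sqrt ((a : ℝ) * ((d : ℝ) + 1 - (a : ℝ))) : ℝ) : ℂ) =
      (a : ℂ) * ((d : ℂ) + 1 - (a : ℂ)) := by
  have h : (0 : ℝ) ≤ (a : ℝ) * ((d : ℝ) + 1 - (a : ℝ)) := by
    apply mul_nonneg (Nat.cast_nonneg _)
    have : (a : ℝ) ≤ (d : ℝ) + 1 := by exact_mod_cast ha
    linarith
  rw [← Complex.ofReal_mul, Real.mul_self_sqrt h]
  push_cast
  ring

theorem sum_range_succ_ite (d a : ℕ) (F : ℕ → ℂ) :
    ∑ m ∈ Finset.range (d + 1), (if m = a + 1 then F m else 0) =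
      if a + 1 ≤ d then F (a + 1) else 0 := by
  rw [Finset.sum_ite_eq']
  simp

theorem sum_range_pred_ite (d a : ℕ) (F : ℕ → ℂ) (ha : a ≤ d + 1) :
    ∑ m ∈ Finset.range (d + 1), (if a = m + 1 then F m else 0) =
      if 1 ≤ a then F (a - 1) else 0 := by
  split_ifs with h
  · rw [Finset.sum_eq_single (a - 1)]
    · simp [Nat.sub_add_cancel h]
    · intro m _ hm; rw [if_neg]; omega
    · intro hm; exfalso; apply hm; rw [Finset.mem_range]; omega
  · apply Finset.sum_eq_zero; intro m _; rw [if_neg]; omega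

/-- The weight `sqrt (a (d+1-a))` as a complex number. -/
noncomputable def spinW (d a : ℕ) : ℂ :=
  ((Real.sqrt ((a : ℝ) * ((d : ℝ) + 1 - (a : ℝ))) : ℝ) : ℂ)

theorem spinW_mul_self {d a : ℕ} (ha : a ≤ d + 1) :
    spinW d a * spinW d a = (a : ℂ) * ((d : ℂ) + 1 - (a : ℂ)) := sqrt_mul_self_cast ha

theorem spinPlus_apply' (d : ℕ) (i j : Fin (d + 1)) :
    spinPlus d i j = if (j : ℕ) = (i : ℕ) + 1 then spinW d j else 0 := rfl

theorem spinMinus_apply' (d : ℕ) (i j : Fin (d + 1)) :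
    spinMinus d i j = if (i : ℕ) = (j : ℕ) + 1 then spinW d i else 0 := spinMinus_apply d i j

/-- `[S^+, S^-] = 2 S^3`. -/
theorem spin_comm_plus_minus (d : ℕ) :
    spinPlus d * spinMinus d - spinMinus d * spinPlus d = (2 : ℂ) • spinZ d := by
  ext i l
  rw [Matrix.sub_apply, Matrix.mul_apply, Matrix.mul_apply, Matrix.smul_apply]
  simp only [spinPlus_apply', spinMinus_apply', spinZ, Matrix.diagonal_apply]
  rw [Fin.sum_univ_eq_sum_range (fun m => (if m = (i : ℕ) + 1 then spinW d m else 0) *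
      (if m = (l : ℕ) + 1 then spinW d m else 0)) (d + 1)]
  rw [Fin.sum_univ_eq_sum_range (fun m => (if (i : ℕ) = m + 1 then spinW d i else 0) *
      (if (l : ℕ) = m + 1 then spinW d l else 0)) (d + 1)]
  simp only [ite_mul, zero_mul]
  have hi : (i : ℕ) ≤ d := Nat.lt_succ_iff.mp i.2
  have hl : (l : ℕ) ≤ d := Nat.lt_succ_iff.mp l.2
  rw [sum_range_succ_ite, sum_range_pred_ite _ _ _ (by omega)]
  by_cases hil : i = l
  · subst hil
    simp only [if_true, mul_ite, mul_zero]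
    have e1 : (if (i : ℕ) + 1 ≤ d then spinW d ((i : ℕ) + 1) * spinW d ((i : ℕ) + 1) else 0) =
        (((i : ℕ) : ℂ) + 1) * ((d : ℂ) - ((i : ℕ) : ℂ)) := by
      split_ifs with h
      · rw [spinW_mul_self (by omega)]; push_cast; ring
      · have : (i : ℕ) = d := by omega
        rw [this]; ring
    have e2 : (if 1 ≤ (i : ℕ) then (if (i : ℕ) = (i : ℕ) - 1 + 1 then spinW d i * spinW d i else 0)
        else 0) = ((i : ℕ) : ℂ) * ((d : ℂ) + 1 - ((i : ℕ) : ℂ)) := by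
      split_ifs with h h'
      · rw [spinW_mul_self (by omega)]
      · omega
      · have : (i : ℕ) = 0 := by omega
        rw [this]; simp
    rw [e1, e2]
    simp
    ring
  · have hne : (i : ℕ) ≠ (l : ℕ) := fun h => hil (Fin.ext h)
    rw [if_neg hil]
    have e1 : (if (i : ℕ) + 1 ≤ d then
        (if (i : ℕ) + 1 = (l : ℕ) + 1 then spinW d ((i : ℕ) + 1) * spinW d ((i : ℕ) + 1) else 0)
        else 0) = 0 := by
      split_ifs with h h'
      · omega
      · rfl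
      · rfl
    have e2 : (if 1 ≤ (i : ℕ) then (if (l : ℕ) = (i : ℕ) - 1 + 1 then spinW d i * spinW d l else 0)
        else 0) = 0 := by
      split_ifs with h h'
      · omega
      · rfl
      · rfl
    simp only [mul_ite, mul_zero]
    rw [e1, e2]
    simp

/-- `[S^3, S^-] = -S^-`. -/
theorem spin_comm_z_minus (d : ℕ) :
    spinZ d * spinMinus d - spinMinus d * spinZ d = -spinMinus d := by
  ext i l
  unfold spinZ
  rw [Matrix.sub_apply, Matrix.diagonal_mul, Matrix.mul_diagonal, Matrix.neg_apply,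
    spinMinus_apply']
  split_ifs with h
  · rw [h]; push_cast; ring
  · simp

/-- Diagonal auxiliary matrix `a |k⟩ = sqrt (d-k) |k⟩` (Schwinger boson, truncated). -/
noncomputable def bosA (d : ℕ) : Matrix (Fin (d + 1)) (Fin (d + 1)) ℂ :=
  Matrix.diagonal fun k => ((Real.sqrt ((d : ℝ) - ((k : ℕ) : ℝ)) : ℝ) : ℂ)

/-- Auxiliary matrix `b |k⟩ = sqrt k |k-1⟩` (Schwinger boson, truncated). -/
noncomputable def bosB (d : ℕ) : Matrix (Fin (d + 1)) (Fin (d + 1)) ℂ :=
  Matrix.of fun i j => if (j : ℕ) = (i : ℕ) + 1 then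
    ((Real.sqrt (((j : ℕ) : ℝ)) : ℝ) : ℂ) else 0

theorem bosA_conjTranspose (d : ℕ) : (bosA d)ᴴ = bosA d := by
  unfold bosA
  rw [Matrix.diagonal_conjTranspose]
  congr 1
  ext k
  simp

theorem bosA_mul_self (d : ℕ) : (bosA d)ᴴ * bosA d = ((d : ℂ) / 2) • (1 : Matrix _ _ ℂ) + spinZ d := by
  rw [bosA_conjTranspose]
  unfold bosA spinZ
  rw [Matrix.diagonal_mul_diagonal, ← Matrix.diagonal_one, ← Matrix.diagonal_smul,
    Matrix.diagonal_add]
  congr 1
  ext k
  have hk : ((k : ℕ) : ℝ) ≤ (d : ℝ) := by exact_mod_cast Nat.lt_succ_iff.mp k.2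
  have h : (0 : ℝ) ≤ (d : ℝ) - ((k : ℕ) : ℝ) := by linarith
  simp only [Pi.smul_apply, smul_eq_mul, mul_one]
  rw [← Complex.ofReal_mul, Real.mul_self_sqrt h]
  push_cast
  ring

theorem bosB_conjTranspose_apply (d : ℕ) (i j : Fin (d + 1)) :
    (bosB d)ᴴ i j = if (i : ℕ) = (j : ℕ) + 1 then ((Real.sqrt (((i : ℕ) : ℝ)) : ℝ) : ℂ) else 0 := by
  unfold bosB
  rw [Matrix.conjTranspose_apply, Matrix.of_apply]
  split_ifs <;> simp

theorem bosB_apply (d : ℕ) (i j : Fin (d + 1)) :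
    bosB d i j = if (j : ℕ) = (i : ℕ) + 1 then ((Real.sqrt (((j : ℕ) : ℝ)) : ℝ) : ℂ) else 0 := rfl

theorem bosB_mul_self (d : ℕ) : (bosB d)ᴴ * bosB d = ((d : ℂ) / 2) • (1 : Matrix _ _ ℂ) - spinZ d := by
  ext i l
  rw [Matrix.mul_apply, Matrix.sub_apply, Matrix.smul_apply]
  simp only [bosB_conjTranspose_apply, bosB_apply, spinZ, Matrix.diagonal_apply,
    Matrix.one_apply]
  rw [Fin.sum_univ_eq_sum_range (fun m => (if (i : ℕ) = m + 1 then
      ((Real.sqrt (((i : ℕ) : ℝ)) : ℝ) : ℂ) else 0) *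
      (if (l : ℕ) = m + 1 then ((Real.sqrt (((l : ℕ) : ℝ)) : ℝ) : ℂ) else 0)) (d + 1)]
  simp only [ite_mul, zero_mul]
  have hi : (i : ℕ) ≤ d := Nat.lt_succ_iff.mp i.2
  rw [sum_range_pred_ite _ _ _ (by omega)]
  by_cases hil : i = l
  · subst hil
    simp only [if_true, mul_ite, mul_zero, smul_eq_mul, mul_one]
    split_ifs with h h'
    · rw [← Complex.ofReal_mul, Real.mul_self_sqrt (Nat.cast_nonneg _)]
      push_cast; ring
    · omega
    · have : (i : ℕ) = 0 := by omega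
      rw [this]; simp
  · have hne : (i : ℕ) ≠ (l : ℕ) := fun h => hil (Fin.ext h)
    rw [if_neg hil, if_neg hil]
    simp only [mul_ite, mul_zero, smul_eq_mul, sub_zero]
    split_ifs with h h'
    · omega
    · rfl
    · rfl

theorem bosB_mul_bosA (d : ℕ) : (bosB d)ᴴ * bosA d = spinMinus d := by
  ext i l
  unfold bosA
  rw [Matrix.mul_diagonal, bosB_conjTranspose_apply, spinMinus_apply]
  split_ifs with h
  · have hl : ((l : ℕ) : ℝ) + 1 = ((i : ℕ) : ℝ) := by exact_mod_cast h.symm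
    rw [← Complex.ofReal_mul, ← Real.sqrt_mul (Nat.cast_nonneg _)]
    congr 3
    linarith
  · simp

theorem bosA_mul_bosB (d : ℕ) : (bosA d)ᴴ * bosB d = spinPlus d := by
  have := congrArg Matrix.conjTranspose (bosB_mul_bosA d)
  rw [Matrix.conjTranspose_mul, Matrix.conjTranspose_conjTranspose, spinMinus_conjTranspose] at this
  exact this

end Vale.Agent.H96
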