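import Vale.Agent.H96.Peierls
import Vale.Agent.H96.Spin
import Vale.Agent.H96.SiteOp

open Matrix

namespace Vale.Agent.H96

set_option linter.unusedSectionVars false

variable {V : Type*} [Fintype V] [DecidableEq V] (d : ℕ)

/-- The ferromagnetic Heisenberg Hamiltonian `-∑_{(x,y) ∈ E} S_x · S_y` of an edge set `E`. -/
noncomputable def heis (E : Finset (V × V)) : Matrix (V → Fin (d + 1)) (V → Fin (d + 1)) ℂ :=
  -∑ e ∈ E, spinDot d e.1 e.2

theorem spinDot_eq (x y : V) :
    spinDot d x y = siteOp x (spinZ d) * siteOp y (spinZ d) +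
      (1 / 2 : ℂ) • (siteOp x (spinPlus d) * siteOp y (spinMinus d) +
        siteOp x (spinMinus d) * siteOp y (spinPlus d)) := by
  unfold spinDot spinX spinY
  simp only [siteOp_smul, siteOp_add, siteOp_sub, smul_mul_smul_comm]
  have hI : (-Complex.I / 2) * (-Complex.I / 2) = (-1 / 4 : ℂ) := by
    ring_nf; rw [Complex.I_sq]; ring
  rw [hI]
  simp only [mul_add, add_mul, mul_sub, sub_mul]
  module

theorem pair_mul {α : Type*} [Fintype α] [DecidableEq α] {x y : V} (hxy : x ≠ y)
    (A B A' B' : Matrix α α ℂ) :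
    (siteOp x A * siteOp y B) * (siteOp x A' * siteOp y B') =
      siteOp x (A * A') * siteOp y (B * B') := by
  rw [siteOp_mul, siteOp_mul, mul_assoc, ← mul_assoc (siteOp y B), ← siteOp_comm hxy A' B,
    mul_assoc, ← mul_assoc]

theorem pair_conjTranspose {α : Type*} [Fintype α] [DecidableEq α] {x y : V} (hxy : x ≠ y)
    (A B : Matrix α α ℂ) :
    (siteOp x A * siteOp y B)ᴴ = siteOp x Aᴴ * siteOp y Bᴴ := by
  rw [Matrix.conjTranspose_mul, siteOp_conjTranspose, siteOp_conjTranspose, siteOp_comm hxy.symm]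

/-- The Schwinger-boson pair operator whose square is `2 (S^2 - S_x · S_y)`. -/
noncomputable def pairC (x y : V) : Matrix (V → Fin (d + 1)) (V → Fin (d + 1)) ℂ :=
  siteOp x (bosA d) * siteOp y (bosB d) - siteOp x (bosB d) * siteOp y (bosA d)

theorem spinDot_sos {x y : V} (hxy : x ≠ y) :
    spinDot d x y = (((d : ℂ) / 2) ^ 2) • (1 : Matrix (V → Fin (d + 1)) (V → Fin (d + 1)) ℂ) -
      (1 / 2 : ℂ) • ((pairC d x y)ᴴ * pairC d x y) := by
  unfold pairC
  rw [Matrix.conjTranspose_sub, pair_conjTranspose hxy, pair_conjTranspose hxy]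
  simp only [sub_mul, mul_sub, pair_mul hxy, bosA_mul_self, bosB_mul_self, bosB_mul_bosA,
    bosA_mul_bosB, siteOp_add, siteOp_sub, siteOp_smul, siteOp_one]
  rw [spinDot_eq]
  simp only [mul_add, add_mul, smul_mul_assoc, mul_smul_comm, one_mul, mul_one]
  module

end Vale.Agent.H96
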