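import Vale.Agent.H96.Heis

open Matrix

namespace Vale.Agent.H96

set_option linter.unusedSectionVars false

section general

variable {n : Type*} [Fintype n] [DecidableEq n]

theorem star_dot_self (w : n → ℂ) :
    star w ⬝ᵥ w = ((∑ i, Complex.normSq (w i) : ℝ) : ℂ) := by
  unfold dotProduct
  rw [Complex.ofReal_sum]
  refine Finset.sum_congr rfl fun i _ => ?_
  rw [Complex.normSq_eq_conj_mul_self]
  rfl

theorem qform_one (v : n → ℂ) : qform (1 : Matrix n n ℂ) v = ∑ i, Complex.normSq (v i) := by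
  unfold qform
  rw [Matrix.one_mulVec, star_dot_self, Complex.ofReal_re]

theorem qform_conjTranspose_mul_self_nonneg (C : Matrix n n ℂ) (v : n → ℂ) :
    0 ≤ qform (Cᴴ * C) v := by
  unfold qform
  rw [← Matrix.mulVec_mulVec, Matrix.dotProduct_mulVec, ← Matrix.star_mulVec, star_dot_self,
    Complex.ofReal_re]
  exact Finset.sum_nonneg fun i _ => Complex.normSq_nonneg _

theorem qform_neg (A : Matrix n n ℂ) (v : n → ℂ) : qform (-A) v = -qform A v := by
  unfold qform
  rw [Matrix.neg_mulVec, dotProduct_neg, Complex.neg_re]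

theorem qform_sub (A B : Matrix n n ℂ) (v : n → ℂ) : qform (A - B) v = qform A v - qform B v := by
  rw [sub_eq_add_neg, qform_add, qform_neg, sub_eq_add_neg]

theorem qform_sum {ι : Type*} (s : Finset ι) (A : ι → Matrix n n ℂ) (v : n → ℂ) :
    qform (∑ i ∈ s, A i) v = ∑ i ∈ s, qform (A i) v := by
  classical
  induction s using Finset.induction_on with
  | empty => simp [qform]
  | insert a s ha ih => rw [Finset.sum_insert ha, Finset.sum_insert ha, qform_add, ih]

end general

variable {V : Type*} [Fintype V] [DecidableEq V] (d : ℕ)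

theorem qform_spinDot_le {x y : V} (hxy : x ≠ y) (v : (V → Fin (d + 1)) → ℂ) :
    qform (spinDot d x y) v ≤ ((d : ℝ) / 2) ^ 2 * qform (1 : Matrix _ _ ℂ) v := by
  rw [spinDot_sos d hxy]
  have e1 : (((d : ℂ) / 2) ^ 2) = (((((d : ℝ) / 2) ^ 2 : ℝ)) : ℂ) := by push_cast; ring
  have e2 : (1 / 2 : ℂ) = (((1 / 2 : ℝ)) : ℂ) := by push_cast; ring
  rw [e1, e2, qform_sub, qform_real_smul, qform_real_smul]
  have := qform_conjTranspose_mul_self_nonneg (pairC d x y) v
  linarith

theorem spinDot_isHermitian {x y : V} (hxy : x ≠ y) : (spinDot d x y).IsHermitian := by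
  rw [spinDot_sos d hxy]
  have e1 : (((d : ℂ) / 2) ^ 2) = (((((d : ℝ) / 2) ^ 2 : ℝ)) : ℂ) := by push_cast; ring
  have e2 : (1 / 2 : ℂ) = (((1 / 2 : ℝ)) : ℂ) := by push_cast; ring
  rw [e1, e2]
  exact (isHermitian_real_smul Matrix.isHermitian_one _).sub
    (isHermitian_real_smul (Matrix.isHermitian_conjTranspose_mul_self _) _)

theorem heis_isHermitian (E : Finset (V × V)) (hE : ∀ e ∈ E, e.1 ≠ e.2) :
    (heis d E).IsHermitian := by
  unfold heis
  apply Matrix.IsHermitian.neg
  unfold Matrix.IsHermitian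
  rw [Matrix.conjTranspose_sum]
  exact Finset.sum_congr rfl fun e he => (spinDot_isHermitian d (hE e he)).eq

theorem qform_heis_ge (E : Finset (V × V)) (hE : ∀ e ∈ E, e.1 ≠ e.2)
    (v : (V → Fin (d + 1)) → ℂ) :
    -(((d : ℝ) / 2) ^ 2 * E.card * qform (1 : Matrix _ _ ℂ) v) ≤ qform (heis d E) v := by
  unfold heis
  rw [qform_neg, qform_sum, neg_le_neg_iff]
  calc ∑ e ∈ E, qform (spinDot d e.1 e.2) v
      ≤ ∑ e ∈ E, ((d : ℝ) / 2) ^ 2 * qform (1 : Matrix _ _ ℂ) v :=
        Finset.sum_le_sum fun e he => qform_spinDot_le d (hE e he) v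
    _ = ((d : ℝ) / 2) ^ 2 * E.card * qform (1 : Matrix _ _ ℂ) v := by
        rw [Finset.sum_const, nsmul_eq_mul]; ring

theorem siteOp_diagonal {α : Type*} [Fintype α] [DecidableEq α] (x : V) (f : α → ℂ) :
    siteOp x (Matrix.diagonal f) = Matrix.diagonal (fun σ : V → α => f (σ x)) := by
  ext σ τ
  simp only [siteOp_apply, Matrix.diagonal_apply]
  by_cases h : σ = τ
  · subst h; simp
  · rw [if_neg h]
    split_ifs with h1 h2
    · exfalso; apply h; ext y
      by_cases hy : y = x
      · subst hy; exact h2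
      · exact h1 y hy
    · rfl
    · rfl

theorem magZ_eq : magZ (V := V) d = Matrix.diagonal
    (fun σ : V → Fin (d + 1) => ((∑ x, ((d : ℝ) / 2 - ((σ x : ℕ) : ℝ)) : ℝ) : ℂ)) := by
  unfold magZ spinZ
  simp only [siteOp_diagonal]
  ext σ τ
  rw [Matrix.sum_apply]
  simp only [Matrix.diagonal_apply]
  split_ifs with h
  · push_cast; rfl
  · simp

theorem magZ_isHermitian : (magZ (V := V) d).IsHermitian := by
  rw [magZ_eq]
  unfold Matrix.IsHermitian
  rw [Matrix.diagonal_conjTranspose]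
  congr 1
  ext σ
  simp

end Vale.Agent.H96
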