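import Vale.Agent.H96.Energy2

open Matrix

namespace Vale.Agent.H96

set_option linter.unusedSectionVars false

variable {V : Type*} [Fintype V] [DecidableEq V] (d : ℕ)
variable {ι : Type*} [DecidableEq ι] (blk : V → ι) (f : V → ℝ)

theorem trExp_heis_ge (E : Finset (V × V)) (hE : ∀ e ∈ E, e.1 ≠ e.2)
    (hbuf : ∀ e ∈ E, blk e.1 = blk e.2 ∨ (f e.1 = 0 ∧ f e.2 = 0))
    (act : Finset ι) (hnorm : ∀ i ∈ act, (d : ℝ) * ∑ z, amp blk f i z ^ 2 = 1) (β : ℝ) :
    Real.exp (β * (((d : ℝ) / 2) ^ 2 * E.card)) *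
      ∏ i ∈ act, (1 + Real.exp (-(β * blockEnergy d blk f E i))) ≤
      trExp (-(β : ℂ) • heis d E) := by
  have e : -(β : ℂ) = (((-β : ℝ)) : ℂ) := by push_cast; ring
  have hA : (-(β : ℂ) • heis d E).IsHermitian := by
    rw [e]; exact isHermitian_real_smul (heis_isHermitian d E hE) _
  let Φ : {T // T ∈ act.powerset} → (V → Fin (d + 1)) → ℂ :=
    fun T => trial d blk f T.1.toList
  have hsub : ∀ T : {T // T ∈ act.powerset}, ∀ j ∈ T.1.toList,
      (d : ℝ) * ∑ z, amp blk f j z ^ 2 = 1 := by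
    intro T j hj
    exact hnorm j (Finset.mem_powerset.mp T.2 (Finset.mem_toList.mp hj))
  have hΦ : ∀ T T' : {T // T ∈ act.powerset},
      star (Φ T) ⬝ᵥ Φ T' = if T = T' then 1 else 0 := by
    intro T T'
    show star (trial d blk f T.1.toList) ⬝ᵥ trial d blk f T'.1.toList = _
    rw [inner_trial d blk f _ _ (Finset.nodup_toList _) (Finset.nodup_toList _) (hsub T'),
      Finset.toList_toFinset, Finset.toList_toFinset]
    by_cases h : T = T'
    · rw [if_pos h, if_pos (congrArg Subtype.val h)]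
    · rw [if_neg h, if_neg (fun h' => h (Subtype.ext h'))]
  have hp := peierls hA Φ hΦ
  refine le_trans (le_of_eq ?_) hp
  have hq : ∀ T : {T // T ∈ act.powerset}, Real.exp (qform (-(β : ℂ) • heis d E) (Φ T)) =
      Real.exp (β * (((d : ℝ) / 2) ^ 2 * E.card)) *
        ∏ i ∈ T.1, Real.exp (-(β * blockEnergy d blk f E i)) := by
    intro T
    rw [e, qform_real_smul]
    show Real.exp (-β * qform (heis d E) (trial d blk f T.1.toList)) = _
    rw [qform_heis_trial d blk f E hE hbuf _ (Finset.nodup_toList _) (hsub T),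
      Finset.toList_toFinset, ← Real.exp_sum, ← Real.exp_add]
    congr 1
    rw [Finset.sum_neg_distrib, ← Finset.mul_sum]
    ring
  simp only [hq]
  rw [← Finset.mul_sum, Finset.prod_one_add,
    Finset.sum_coe_sort act.powerset
      (fun T => ∏ i ∈ T, Real.exp (-(β * blockEnergy d blk f E i)))]

end Vale.Agent.H96
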