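import Vale.Agent.H96.Upper

open Matrix

namespace Vale.Agent.H96

set_option linter.unusedSectionVars false

variable {V : Type*} [Fintype V] [DecidableEq V] (d : ℕ)

/-- The fully polarized product state `|0,0,…,0⟩` (all spins up). -/
def vacVec : (V → Fin (d + 1)) → ℂ := fun σ => if σ = (fun _ => 0) then 1 else 0

theorem spinPlus_vac (x : V) : siteOp x (spinPlus d) *ᵥ vacVec (V := V) d = 0 := by
  funext σ
  rw [siteOp_mulVec]
  apply Finset.sum_eq_zero
  intro k _
  by_cases hk : spinPlus d (σ x) k = 0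
  · rw [hk, zero_mul]
  · unfold vacVec
    rw [if_neg, mul_zero]
    intro h
    apply hk
    have hk0 : k = 0 := by
      have := congrFun h x
      simpa using this
    rw [spinPlus_apply, if_neg]
    rw [hk0]
    simp

theorem spinZ_vac (x : V) :
    siteOp x (spinZ d) *ᵥ vacVec (V := V) d = ((d : ℂ) / 2) • vacVec (V := V) d := by
  funext σ
  rw [siteOp_mulVec]
  unfold spinZ
  simp only [Matrix.diagonal_apply, ite_mul, zero_mul, Finset.sum_ite_eq, Finset.mem_univ,
    if_true, Function.update_eq_self, Pi.smul_apply, smul_eq_mul]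
  unfold vacVec
  by_cases h : σ = fun _ => 0
  · rw [if_pos h, h]; simp
  · rw [if_neg h]; simp

theorem vac_norm : star (vacVec (V := V) d) ⬝ᵥ vacVec (V := V) d = 1 := by
  unfold dotProduct vacVec
  simp

/-- `[S^+_x, S^-_x] = 2 S^3_x`. -/
theorem site_comm_plus_minus (x : V) :
    siteOp x (spinPlus d) * siteOp x (spinMinus d) =
      siteOp x (spinMinus d) * siteOp x (spinPlus d) + (2 : ℂ) • siteOp x (spinZ d) := by
  rw [← siteOp_mul, ← siteOp_mul, ← siteOp_smul, ← siteOp_add, ← spin_comm_plus_minus]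
  congr 1
  abel

/-- `[S^3_x, S^-_x] = -S^-_x`. -/
theorem site_comm_z_minus (x : V) :
    siteOp x (spinZ d) * siteOp x (spinMinus d) =
      siteOp x (spinMinus d) * siteOp x (spinZ d) - siteOp x (spinMinus d) := by
  rw [← siteOp_mul, ← siteOp_mul, ← siteOp_sub]
  congr 1
  have := spin_comm_z_minus d
  rw [sub_eq_iff_eq_add] at this
  rw [this]
  abel

/-- The magnon creation operator `∑_x g(x) S^-_x` with real amplitude `g`. -/
noncomputable def crea (g : V → ℝ) : Matrix (V → Fin (d + 1)) (V → Fin (d + 1)) ℂ :=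
  ∑ x : V, ((g x : ℝ) : ℂ) • siteOp x (spinMinus d)

/-- The magnon annihilation operator `∑_x g(x) S^+_x` with real amplitude `g`. -/
noncomputable def anni (g : V → ℝ) : Matrix (V → Fin (d + 1)) (V → Fin (d + 1)) ℂ :=
  ∑ x : V, ((g x : ℝ) : ℂ) • siteOp x (spinPlus d)

theorem crea_conjTranspose (g : V → ℝ) : (crea d g)ᴴ = anni d g := by
  unfold crea anni
  rw [Matrix.conjTranspose_sum]
  refine Finset.sum_congr rfl fun x _ => ?_
  rw [Matrix.conjTranspose_smul, siteOp_conjTranspose, spinMinus_conjTranspose]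
  simp

theorem plus_crea (x : V) (g : V → ℝ) :
    siteOp x (spinPlus d) * crea d g =
      crea d g * siteOp x (spinPlus d) + ((2 * g x : ℝ) : ℂ) • siteOp x (spinZ d) := by
  unfold crea
  rw [Finset.mul_sum, Finset.sum_mul]
  have key : ∀ z : V, siteOp x (spinPlus d) * (((g z : ℝ) : ℂ) • siteOp z (spinMinus d)) =
      (((g z : ℝ) : ℂ) • siteOp z (spinMinus d)) * siteOp x (spinPlus d) +
        (if z = x then ((2 * g x : ℝ) : ℂ) • siteOp x (spinZ d) else 0) := by
    intro z
    by_cases hz : z = x
    · subst hz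
      rw [if_pos rfl, mul_smul_comm, smul_mul_assoc, site_comm_plus_minus, smul_add, smul_smul]
      congr 2
      push_cast; ring
    · rw [if_neg hz, add_zero, mul_smul_comm, smul_mul_assoc, siteOp_comm (Ne.symm hz)]
  simp only [key, Finset.sum_add_distrib, Finset.sum_ite_eq', Finset.mem_univ, if_true]

theorem z_crea (x : V) (g : V → ℝ) :
    siteOp x (spinZ d) * crea d g =
      crea d g * siteOp x (spinZ d) - ((g x : ℝ) : ℂ) • siteOp x (spinMinus d) := by
  unfold crea
  rw [Finset.mul_sum, Finset.sum_mul]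
  have key : ∀ z : V, siteOp x (spinZ d) * (((g z : ℝ) : ℂ) • siteOp z (spinMinus d)) =
      (((g z : ℝ) : ℂ) • siteOp z (spinMinus d)) * siteOp x (spinZ d) -
        (if z = x then ((g x : ℝ) : ℂ) • siteOp x (spinMinus d) else 0) := by
    intro z
    by_cases hz : z = x
    · subst hz
      rw [if_pos rfl, mul_smul_comm, smul_mul_assoc, site_comm_z_minus, smul_sub]
    · rw [if_neg hz, sub_zero, mul_smul_comm, smul_mul_assoc, siteOp_comm (Ne.symm hz)]
  simp only [key, Finset.sum_sub_distrib, Finset.sum_ite_eq', Finset.mem_univ, if_true]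

theorem minus_crea (x : V) (g : V → ℝ) :
    siteOp x (spinMinus d) * crea d g = crea d g * siteOp x (spinMinus d) := by
  unfold crea
  rw [Finset.mul_sum, Finset.sum_mul]
  refine Finset.sum_congr rfl fun z _ => ?_
  rw [mul_smul_comm, smul_mul_assoc]
  by_cases hz : z = x
  · subst hz; rfl
  · rw [siteOp_comm (Ne.symm hz)]

theorem crea_comm (g g' : V → ℝ) : crea d g * crea d g' = crea d g' * crea d g := by
  have : crea d g = ∑ x : V, ((g x : ℝ) : ℂ) • siteOp x (spinMinus d) := rfl
  rw [this, Finset.sum_mul, Finset.mul_sum]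
  refine Finset.sum_congr rfl fun z _ => ?_
  rw [smul_mul_assoc, mul_smul_comm, minus_crea]

/-- adjoint of `plus_crea`. -/
theorem anni_minus (x : V) (g : V → ℝ) :
    anni d g * siteOp x (spinMinus d) =
      siteOp x (spinMinus d) * anni d g + ((2 * g x : ℝ) : ℂ) • siteOp x (spinZ d) := by
  have h := congrArg Matrix.conjTranspose (plus_crea d x g)
  rw [Matrix.conjTranspose_mul, Matrix.conjTranspose_add, Matrix.conjTranspose_mul,
    Matrix.conjTranspose_smul, crea_conjTranspose, siteOp_conjTranspose, siteOp_conjTranspose,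
    spinPlus_conjTranspose, (spinZ_isHermitian d).eq] at h
  rw [h]
  simp

end Vale.Agent.H96
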