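import Vale.Agent.H96.Thermo2

open Matrix Filter Topology

namespace Vale.Agent.H96

set_option linter.unusedSectionVars false

/-- The general magnetization bound with free parameters `r` (block size) and `h` (field). -/
theorem magnetization_bound (d r : ℕ) (hd : 1 ≤ d) (hr : 1 ≤ r) (β : ℝ) (hβ : 0 < β)
    (p : ℝ → ℝ)
    (hp : ∀ h : ℝ, Tendsto (fun N : ℕ => pressure d N β h) atTop (𝓝 (p h)))
    (m : ℝ) (hm : HasDerivWithinAt p m (Set.Ioi 0) 0) (h : ℝ) (hh : 0 < h) :
    m ≤ (d : ℝ) / 2 + ((d : ℝ) * Real.exp (-(β * h)) -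
        Real.log (1 + Real.exp (-(12 * (d : ℝ) * β / (r : ℝ) ^ 2))) / (512 * (r : ℝ) ^ 3)) /
          (β * h) := by
  -- Step A: bound on p h - p 0
  have hA : p h - p 0 ≤ h * ((d : ℝ) / 2) + ((d : ℝ) * Real.exp (-(β * h)) -
        Real.log (1 + Real.exp (-(12 * (d : ℝ) * β / (r : ℝ) ^ 2))) / (512 * (r : ℝ) ^ 3)) / β := by
    have hlim := (hp h).sub (hp 0)
    apply le_of_tendsto hlim
    rw [eventually_atTop]
    refine ⟨2 * r, fun N hN => ?_⟩
    exact pressure_diff_le d N r hd hr (by omega) hβ hh.le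
  -- Step B: convexity in the limit
  have hB : ∀ θ : ℝ, 0 < θ → θ < 1 → p (θ * h) ≤ θ * p h + (1 - θ) * p 0 := by
    intro θ h0 h1
    have hlim1 := hp (θ * h)
    have hlim2 := ((hp h).const_mul θ).add ((hp 0).const_mul (1 - θ))
    exact le_of_tendsto_of_tendsto' hlim1 hlim2 (fun N => pressure_convex d N hβ h h0 h1)
  -- Step C: slope bound
  have hC : ∀ t ∈ Set.Ioo (0 : ℝ) h, slope p 0 t ≤ (p h - p 0) / h := by
    intro t ht
    have h0 : 0 < t / h := div_pos ht.1 hh
    have h1 : t / h < 1 := (div_lt_one hh).mpr ht.2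
    have := hB (t / h) h0 h1
    rw [div_mul_cancel₀ _ hh.ne'] at this
    rw [slope_def_field, sub_zero, div_le_div_iff₀ ht.1 hh]
    have e : (p t - p 0) * h ≤ (p h - p 0) * t := by
      have h2 : p t - p 0 ≤ t / h * (p h - p 0) := by linarith
      have h3 := mul_le_mul_of_nonneg_right h2 hh.le
      have h4 : t / h * (p h - p 0) * h = (p h - p 0) * t := by field_simp
      linarith
    exact e
  -- Step D: the derivative
  have hD : m ≤ (p h - p 0) / h := by
    rw [hasDerivWithinAt_iff_tendsto_slope' (by simp)] at hm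
    apply le_of_tendsto hm
    filter_upwards [Ioo_mem_nhdsGT hh] with t ht
    exact hC t ht
  refine le_trans hD ?_
  rw [div_le_iff₀ hh]
  refine le_trans hA (le_of_eq ?_)
  field_simp

end Vale.Agent.H96
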