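import Mathlib

open Matrix

namespace Vale.Agent.H96

set_option linter.unusedSectionVars false

variable {n : Type*} [Fintype n] [DecidableEq n]

/-- Entrywise derivative of `s ↦ exp (s • A)`. -/
theorem hasDerivAt_exp_entry (A : Matrix n n ℝ) (i j : n) (s : ℝ) :
    HasDerivAt (fun u : ℝ => NormedSpace.exp (u • A) i j)
      ((NormedSpace.exp (s • A) * A) i j) s := by
  open scoped Matrix.Norms.Operator in
  have h := hasDerivAt_exp_smul_const (𝕂 := ℝ) A s
  open scoped Matrix.Norms.Operator in
  have hL : HasFDerivAt (fun M : Matrix n n ℝ => M i j)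
      (LinearMap.toContinuousLinearMap (Matrix.entryLinearMap ℝ ℝ i j))
      (NormedSpace.exp (s • A)) :=
    (LinearMap.toContinuousLinearMap (Matrix.entryLinearMap ℝ ℝ i j)).hasFDerivAt
  open scoped Matrix.Norms.Operator in
  exact hL.comp_hasDerivAt s h

theorem pow_entry_nonneg {A : Matrix n n ℝ} (hA : ∀ i j, 0 ≤ A i j) (k : ℕ) :
    ∀ i j, 0 ≤ (A ^ k) i j := by
  induction k with
  | zero =>
    intro i j
    rw [pow_zero, Matrix.one_apply]
    split_ifs <;> norm_num
  | succ k ih =>
    intro i j
    rw [pow_succ, Matrix.mul_apply]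
    exact Finset.sum_nonneg fun l _ => mul_nonneg (ih i l) (hA l j)

/-- The exponential of an entrywise nonnegative matrix is entrywise nonnegative. -/
theorem exp_entry_nonneg {A : Matrix n n ℝ} (hA : ∀ i j, 0 ≤ A i j) (i j : n) :
    0 ≤ NormedSpace.exp A i j := by
  open scoped Matrix.Norms.Operator in
  have h := NormedSpace.exp_series_hasSum_exp' (𝕂 := ℝ) A
  open scoped Matrix.Norms.Operator in
  have h2 := h.mapL (LinearMap.toContinuousLinearMap (Matrix.entryLinearMap ℝ ℝ i j))
  refine h2.nonneg fun k => ?_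
  show 0 ≤ (((k.factorial : ℝ)⁻¹) • A ^ k) i j
  rw [Matrix.smul_apply, smul_eq_mul]
  exact mul_nonneg (by positivity) (pow_entry_nonneg hA k i j)

theorem exp_smul_one (r : ℝ) :
    NormedSpace.exp (r • (1 : Matrix n n ℝ)) = Real.exp r • (1 : Matrix n n ℝ) := by
  have h1 : r • (1 : Matrix n n ℝ) = Matrix.diagonal (fun _ => r) := by
    ext i j
    simp [Matrix.one_apply, Matrix.diagonal_apply]
  have h2 : Real.exp r • (1 : Matrix n n ℝ) = Matrix.diagonal (fun _ => Real.exp r) := by
    ext i j
    simp [Matrix.one_apply, Matrix.diagonal_apply]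
  rw [h1, h2, Matrix.exp_diagonal]
  congr 1
  funext i
  rw [Pi.exp_def, Real.exp_eq_exp_ℝ]

/-- The exponential of `t • A` is entrywise nonnegative when the off-diagonal entries of `A`
are nonnegative and `t ≥ 0`. -/
theorem exp_metzler_nonneg {A : Matrix n n ℝ} (hA : ∀ i j, i ≠ j → 0 ≤ A i j) {t : ℝ}
    (ht : 0 ≤ t) (i j : n) : 0 ≤ NormedSpace.exp (t • A) i j := by
  set c : ℝ := ∑ k, |A k k| with hc
  set B : Matrix n n ℝ := A + c • (1 : Matrix n n ℝ) with hB
  have hBnn : ∀ k l, 0 ≤ B k l := by
    intro k l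
    rw [hB, Matrix.add_apply, Matrix.smul_apply, Matrix.one_apply]
    by_cases hkl : k = l
    · subst hkl
      rw [if_pos rfl, smul_eq_mul, mul_one]
      have h1 : |A k k| ≤ c := by
        rw [hc]
        exact Finset.single_le_sum (f := fun k => |A k k|) (fun k _ => abs_nonneg _)
          (Finset.mem_univ k)
      have h2 := neg_abs_le (A k k)
      linarith
    · rw [if_neg hkl, smul_zero, add_zero]
      exact hA k l hkl
  have hsplit : t • A = t • B + (-(t * c)) • (1 : Matrix n n ℝ) := by
    rw [hB, smul_add, smul_smul, neg_smul]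
    abel
  have hcomm : Commute (t • B) ((-(t * c)) • (1 : Matrix n n ℝ)) :=
    (Commute.one_right _).smul_right _
  rw [hsplit, Matrix.exp_add_of_commute _ _ hcomm, exp_smul_one, Matrix.mul_smul,
    Matrix.mul_one, Matrix.smul_apply, smul_eq_mul]
  refine mul_nonneg (Real.exp_pos _).le (exp_entry_nonneg (fun k l => ?_) i j)
  rw [Matrix.smul_apply, smul_eq_mul]
  exact mul_nonneg ht (hBnn k l)

/-- The exponential commutes with the entrywise embedding of real matrices into complex ones. -/
theorem exp_map_ofReal (A : Matrix n n ℝ) :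
    NormedSpace.exp (A.map ((↑) : ℝ → ℂ)) = (NormedSpace.exp A).map ((↑) : ℝ → ℂ) := by
  have hcont : Continuous (Complex.ofRealHom.mapMatrix : Matrix n n ℝ →+* Matrix n n ℂ) :=
    Continuous.matrix_map continuous_id Complex.continuous_ofReal
  open scoped Matrix.Norms.Operator in
  have := NormedSpace.map_exp (Complex.ofRealHom.mapMatrix : Matrix n n ℝ →+* Matrix n n ℂ)
    hcont A
  exact this.symm

end Vale.Agent.H96

namespace Vale.Agent.H96

set_option linter.unusedSectionVars false

variable {n : Type*} [Fintype n] [DecidableEq n]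

/-- Comparison principle: a supersolution `W` of `∂_s W = A W` (entrywise) dominates the
semigroup applied to its initial value, when the off-diagonal entries of `A` are nonnegative. -/
theorem exp_compare {A : Matrix n n ℝ} (hA : ∀ i j, i ≠ j → 0 ≤ A i j) {t : ℝ} (ht : 0 ≤ t)
    (W W' : ℝ → n → ℝ) (hW : ∀ s i, HasDerivAt (fun u => W u i) (W' s i) s)
    (hsup : ∀ s, 0 ≤ s → s ≤ t → ∀ i, (A *ᵥ W s) i ≤ W' s i) (i : n) :
    (NormedSpace.exp (t • A) *ᵥ W 0) i ≤ W t i := by
  set F : ℝ → ℝ := fun s => ∑ j, NormedSpace.exp ((t - s) • A) i j * W s j with hF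
  have hder : ∀ s, HasDerivAt F
      (∑ j, ((NormedSpace.exp ((t - s) • A) * A) i j * (-1) * W s j +
        NormedSpace.exp ((t - s) • A) i j * W' s j)) s := by
    intro s
    apply HasDerivAt.fun_sum
    intro j _
    have h1 : HasDerivAt (fun u : ℝ => NormedSpace.exp ((t - u) • A) i j)
        ((NormedSpace.exp ((t - s) • A) * A) i j * (-1)) s := by
      have h2 := hasDerivAt_exp_entry A i j (t - s)
      have h3 : HasDerivAt (fun u : ℝ => t - u) (-1) s := by
        simpa using (hasDerivAt_id s).const_sub t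
      exact h2.comp s h3
    exact h1.mul (hW s j)
  have hder2 : ∀ s, ∑ j, ((NormedSpace.exp ((t - s) • A) * A) i j * (-1) * W s j +
        NormedSpace.exp ((t - s) • A) i j * W' s j) =
      ∑ k, NormedSpace.exp ((t - s) • A) i k * (W' s k - (A *ᵥ W s) k) := by
    intro s
    rw [Finset.sum_add_distrib]
    simp only [mul_sub, Finset.sum_sub_distrib]
    have e : ∑ j, (NormedSpace.exp ((t - s) • A) * A) i j * (-1) * W s j =
        -∑ k, NormedSpace.exp ((t - s) • A) i k * (A *ᵥ W s) k := by
      simp only [Matrix.mul_apply, Matrix.mulVec, dotProduct, Finset.mul_sum, Finset.sum_mul]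
      rw [← Finset.sum_neg_distrib, Finset.sum_comm]
      refine Finset.sum_congr rfl fun k _ => ?_
      rw [← Finset.sum_neg_distrib]
      refine Finset.sum_congr rfl fun j _ => ?_
      ring
    rw [e]
    ring
  have hmono : MonotoneOn F (Set.Icc 0 t) := by
    apply monotoneOn_of_deriv_nonneg (convex_Icc 0 t)
    · exact fun s _ => (hder s).continuousAt.continuousWithinAt
    · exact fun s _ => (hder s).differentiableAt.differentiableWithinAt
    · intro s hs
      rw [interior_Icc] at hs
      rw [(hder s).deriv, hder2]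
      refine Finset.sum_nonneg fun k _ => mul_nonneg ?_ ?_
      · exact exp_metzler_nonneg hA (by linarith [hs.2]) i k
      · linarith [hsup s hs.1.le hs.2.le k]
  have h0 := hmono (Set.left_mem_Icc.mpr ht) (Set.right_mem_Icc.mpr ht) ht
  have e0 : F 0 = (NormedSpace.exp (t • A) *ᵥ W 0) i := by
    simp only [hF, sub_zero, Matrix.mulVec, dotProduct]
  have e1 : F t = W t i := by
    simp only [hF, sub_self, zero_smul, NormedSpace.exp_zero, Matrix.one_apply, ite_mul, one_mul,
      zero_mul, Finset.sum_ite_eq, Finset.mem_univ, if_true]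
  rw [← e0, ← e1]
  exact h0

/-- Derivative of `s ↦ exp (s • A) v` in each coordinate. -/
theorem hasDerivAt_exp_mulVec (A : Matrix n n ℝ) (v : n → ℝ) (i : n) (s : ℝ) :
    HasDerivAt (fun u : ℝ => (NormedSpace.exp (u • A) *ᵥ v) i)
      ((A *ᵥ (NormedSpace.exp (s • A) *ᵥ v)) i) s := by
  have h : HasDerivAt (fun u : ℝ => ∑ j, NormedSpace.exp (u • A) i j * v j)
      (∑ j, (NormedSpace.exp (s • A) * A) i j * v j) s := by
    apply HasDerivAt.fun_sum
    intro j _
    exact (hasDerivAt_exp_entry A i j s).mul_const (v j)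
  have hc : NormedSpace.exp (s • A) * A = A * NormedSpace.exp (s • A) := by
    have : Commute (s • A) A := (Commute.refl A).smul_left s
    exact (this.exp_left).eq
  have e : (∑ j, (NormedSpace.exp (s • A) * A) i j * v j) =
      (A *ᵥ (NormedSpace.exp (s • A) *ᵥ v)) i := by
    rw [hc, Matrix.mulVec_mulVec]
    rfl
  rw [← e]
  exact h

end Vale.Agent.H96
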