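import Vale.Agent.H96.Cube5

open Matrix

namespace Vale.Agent.H96

set_option linter.unusedSectionVars false

theorem hamBox_eq (d N : ℕ) : hamBox d N = (1 / 2 : ℂ) • heis d (nnPairs N) := by
  unfold hamBox heis
  rw [smul_neg]

theorem field_eq (d N : ℕ) (β h : ℝ) :
    -(β : ℂ) • (hamBox d N - (h : ℂ) • magZ (V := Site N) d) =
      -(((β / 2 : ℝ)) : ℂ) • (heis d (nnPairs N) - (((2 * h : ℝ)) : ℂ) • magZ (V := Site N) d) := by
  rw [hamBox_eq]
  push_cast
  module

theorem partitionFn_eq (d N : ℕ) (β h : ℝ) :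
    partitionFn d N β h =
      trExp (-(((β / 2 : ℝ)) : ℂ) •
        (heis d (nnPairs N) - (((2 * h : ℝ)) : ℂ) • magZ (V := Site N) d)) := by
  unfold partitionFn trExp
  rw [field_eq]

theorem partitionFn_pos (d N : ℕ) (β h : ℝ) : 0 < partitionFn d N β h := by
  rw [partitionFn_eq]
  exact trExp_pos (field_isHermitian d (nnPairs N) nnPairs_ne _ _)

theorem partition_upper (d N : ℕ) {β : ℝ} (hβ : 0 ≤ β) (h : ℝ) :
    partitionFn d N β h ≤
      Real.exp (β / 2 * (((d : ℝ) / 2) ^ 2 * (nnPairs N).card)) *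
        (∑ k : Fin (d + 1), Real.exp (β * h * ((d : ℝ) / 2 - ((k : ℕ) : ℝ)))) ^
          Fintype.card (Site N) := by
  rw [partitionFn_eq]
  have := trExp_heis_le d (nnPairs N) nnPairs_ne (β := β / 2) (by linarith) (2 * h)
  refine le_trans this (le_of_eq ?_)
  congr 3
  funext k
  congr 1
  ring

/-- The set of blocks of side `4 r` that fit completely into the box. -/
def activeBlocks (N r : ℕ) : Finset (Fin 3 → ℕ) :=
  Fintype.piFinset fun _ : Fin 3 => Finset.range ((2 * N + 1) / (4 * r))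

theorem card_activeBlocks (N r : ℕ) :
    (activeBlocks N r).card = ((2 * N + 1) / (4 * r)) ^ 3 := by
  unfold activeBlocks
  rw [Fintype.card_piFinset]
  simp

theorem activeBlocks_fit {N r : ℕ} {i : Fin 3 → ℕ} (hi : i ∈ activeBlocks N r) :
    ∀ j, (i j + 1) * (4 * r) ≤ 2 * N + 1 := by
  intro j
  unfold activeBlocks at hi
  rw [Fintype.mem_piFinset] at hi
  have h1 := hi j
  rw [Finset.mem_range] at h1
  calc (i j + 1) * (4 * r) ≤ (2 * N + 1) / (4 * r) * (4 * r) := Nat.mul_le_mul_right _ h1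
    _ ≤ 2 * N + 1 := Nat.div_mul_le_self _ _

theorem partition_lower (d N r : ℕ) (hd : 1 ≤ d) (hr : 1 ≤ r) {β : ℝ} (hβ : 0 ≤ β) :
    Real.exp (β / 2 * (((d : ℝ) / 2) ^ 2 * (nnPairs N).card)) *
      (1 + Real.exp (-(12 * (d : ℝ) * β / (r : ℝ) ^ 2))) ^ (((2 * N + 1) / (4 * r)) ^ 3) ≤
      partitionFn d N β 0 := by
  rw [partitionFn_eq]
  have hℓ : 0 < 4 * r := by omega
  have hr' : (0 : ℝ) < r := by exact_mod_cast hr
  have hnorm : ∀ i ∈ activeBlocks N r,
      (d : ℝ) * ∑ z, amp (blkIdx (4 * r)) (cubeAmp d N (4 * r)) i z ^ 2 = 1 := by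
    intro i hi
    apply cubeAmp_norm hd
    exact lt_of_lt_of_le (by positivity) (blockMass_ge i (activeBlocks_fit hi))
  have hlow := trExp_heis_ge d (blkIdx (4 * r)) (cubeAmp d N (4 * r)) (nnPairs N) nnPairs_ne
    (cubeAmp_buf hℓ) (activeBlocks N r) hnorm (β / 2)
  have e0 : -(((β / 2 : ℝ)) : ℂ) •
      (heis d (nnPairs N) - (((2 * (0 : ℝ) : ℝ)) : ℂ) • magZ (V := Site N) d) =
      -(((β / 2 : ℝ)) : ℂ) • heis d (nnPairs N) := by
    simp
  rw [e0]
  refine le_trans ?_ hlow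
  apply mul_le_mul_of_nonneg_left _ (Real.exp_pos _).le
  rw [← card_activeBlocks, ← Finset.prod_const]
  apply Finset.prod_le_prod
  · intro i _; positivity
  · intro i hi
    have hE := blockEnergy_cube_le hd hr i (activeBlocks_fit hi)
    have : β / 2 * blockEnergy d (blkIdx (4 * r)) (cubeAmp d N (4 * r)) (nnPairs N) i ≤
        12 * (d : ℝ) * β / (r : ℝ) ^ 2 := by
      calc β / 2 * blockEnergy d (blkIdx (4 * r)) (cubeAmp d N (4 * r)) (nnPairs N) i
          ≤ β / 2 * (24 * (d : ℝ) / (r : ℝ) ^ 2) :=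
            mul_le_mul_of_nonneg_left hE (by linarith)
        _ = 12 * (d : ℝ) * β / (r : ℝ) ^ 2 := by ring
    have h2 := Real.exp_le_exp.mpr (neg_le_neg this)
    linarith

end Vale.Agent.H96
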