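import Mathlib

open Matrix

namespace Vale.Agent.H96

set_option linter.unusedSectionVars false

/-- The cosine eigenvectors of the path Laplacian with free ends. -/
noncomputable def vcos (n k i : ℕ) : ℝ := Real.cos (Real.pi * k * (2 * i + 1) / (2 * n))

/-- The eigenvalues of the path Laplacian with free ends. -/
noncomputable def lam (n k : ℕ) : ℝ := 2 - 2 * Real.cos (Real.pi * k / n)

/-- The real-variable cosine profile. -/
noncomputable def wcos (n k : ℕ) (r : ℝ) : ℝ := Real.cos (Real.pi * k * (2 * r + 1) / (2 * n))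

theorem vcos_eq (n k i : ℕ) : vcos n k i = wcos n k i := rfl

theorem wcos_rec {n : ℕ} (hn : 0 < n) (k : ℕ) (r : ℝ) :
    wcos n k (r + 1) + wcos n k (r - 1) - 2 * wcos n k r = -(lam n k) * wcos n k r := by
  unfold wcos lam
  have hn' : (n : ℝ) ≠ 0 := by positivity
  have e1 : Real.pi * k * (2 * (r + 1) + 1) / (2 * n) =
      Real.pi * k * (2 * r + 1) / (2 * n) + Real.pi * k / n := by
    field_simp; ring
  have e2 : Real.pi * k * (2 * (r - 1) + 1) / (2 * n) =
      Real.pi * k * (2 * r + 1) / (2 * n) - Real.pi * k / n := by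
    field_simp; ring
  rw [e1, e2, Real.cos_add, Real.cos_sub]
  ring

theorem wcos_neg_one (n k : ℕ) : wcos n k (-1) = wcos n k 0 := by
  unfold wcos
  rw [← Real.cos_neg]
  congr 1
  ring

theorem wcos_top {n : ℕ} (hn : 0 < n) (k : ℕ) : wcos n k n = wcos n k ((n : ℝ) - 1) := by
  unfold wcos
  have hn' : (n : ℝ) ≠ 0 := by positivity
  have e1 : Real.pi * k * (2 * (n : ℝ) + 1) / (2 * n) = k * Real.pi + Real.pi * k / (2 * n) := by
    field_simp
  have e2 : Real.pi * k * (2 * ((n : ℝ) - 1) + 1) / (2 * n) =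
      k * Real.pi - Real.pi * k / (2 * n) := by
    field_simp; ring
  rw [e1, e2, Real.cos_add, Real.cos_sub, Real.sin_nat_mul_pi]
  ring

/-- The eigenvalue equation for the path Laplacian with free ends. -/
theorem path_eig {n : ℕ} (hn : 0 < n) (k : ℕ) (i : Fin n) :
    ∑ c : Fin n, (if Nat.dist (c : ℕ) (i : ℕ) = 1 then vcos n k c - vcos n k i else 0) =
      -(lam n k) * vcos n k i := by
  rw [Fin.sum_univ_eq_sum_range (fun m => if Nat.dist m (i : ℕ) = 1 then
    vcos n k m - vcos n k i else 0) n]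
  have hi := i.2
  -- the lower neighbour
  have hlow : (if 1 ≤ (i : ℕ) then vcos n k ((i : ℕ) - 1) - vcos n k i else 0) =
      wcos n k ((i : ℝ) - 1) - wcos n k i := by
    split_ifs with h
    · rw [vcos_eq, vcos_eq, Nat.cast_sub h, Nat.cast_one]
    · have h0 : (i : ℕ) = 0 := by omega
      rw [h0, Nat.cast_zero, zero_sub, wcos_neg_one]
      ring
  have hup : (if (i : ℕ) + 1 < n then vcos n k ((i : ℕ) + 1) - vcos n k i else 0) =
      wcos n k ((i : ℝ) + 1) - wcos n k i := by
    split_ifs with h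
    · rw [vcos_eq, vcos_eq, Nat.cast_add, Nat.cast_one]
    · have h0 : (i : ℕ) + 1 = n := by omega
      have h1 : ((i : ℕ) : ℝ) + 1 = n := by exact_mod_cast h0
      have h2 : ((i : ℕ) : ℝ) = (n : ℝ) - 1 := by linarith
      rw [h1, wcos_top hn, h2]
      ring
  have hsum : ∑ m ∈ Finset.range n, (if Nat.dist m (i : ℕ) = 1 then
      vcos n k m - vcos n k i else 0) =
      (if 1 ≤ (i : ℕ) then vcos n k ((i : ℕ) - 1) - vcos n k i else 0) +
        (if (i : ℕ) + 1 < n then vcos n k ((i : ℕ) + 1) - vcos n k i else 0) := by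
    have hsplit : ∀ m, (if Nat.dist m (i : ℕ) = 1 then vcos n k m - vcos n k i else 0) =
        (if m + 1 = (i : ℕ) then vcos n k m - vcos n k i else 0) +
          (if m = (i : ℕ) + 1 then vcos n k m - vcos n k i else 0) := by
      intro m
      unfold Nat.dist
      by_cases h1 : m + 1 = (i : ℕ)
      · rw [if_pos (by omega), if_pos h1, if_neg (by omega), add_zero]
      · by_cases h2 : m = (i : ℕ) + 1
        · rw [if_pos (by omega), if_neg h1, if_pos h2, zero_add]
        · rw [if_neg (by omega), if_neg h1, if_neg h2, add_zero]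
    simp only [hsplit, Finset.sum_add_distrib]
    congr 1
    · split_ifs with h
      · rw [Finset.sum_eq_single ((i : ℕ) - 1)]
        · rw [if_pos (by omega)]
        · intro m _ hm; rw [if_neg (by omega)]
        · intro hm; exfalso; apply hm; rw [Finset.mem_range]; omega
      · apply Finset.sum_eq_zero; intro m _; rw [if_neg (by omega)]
    · rw [Finset.sum_ite_eq' (Finset.range n) ((i : ℕ) + 1)
        (fun m => vcos n k m - vcos n k i)]
      simp only [Finset.mem_range]
  rw [hsum, hlow, hup, vcos_eq]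
  have := wcos_rec hn k (i : ℝ)
  linarith

end Vale.Agent.H96

namespace Vale.Agent.H96

set_option linter.unusedSectionVars false

theorem lam_inj {n k l : ℕ} (hk : k < n) (hl : l < n) (h : lam n k = lam n l) : k = l := by
  unfold lam at h
  have hn : (0 : ℝ) < n := by
    have : 0 < n := by omega
    exact_mod_cast this
  have hcos : Real.cos (Real.pi * k / n) = Real.cos (Real.pi * l / n) := by linarith
  have hmem : ∀ m : ℕ, m < n → Real.pi * m / n ∈ Set.Icc 0 Real.pi := by
    intro m hm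
    have hm' : (m : ℝ) ≤ n := by exact_mod_cast hm.le
    constructor
    · have := Real.pi_pos; positivity
    · rw [div_le_iff₀ hn]
      exact mul_le_mul_of_nonneg_left hm' Real.pi_pos.le
  have hinj := Real.injOn_cos (hmem k hk) (hmem l hl) hcos
  have h2 : (k : ℝ) = l := by
    have hpi := Real.pi_pos
    field_simp at hinj
    exact hinj
  exact_mod_cast h2

theorem lam_nonneg (n k : ℕ) : 0 ≤ lam n k := by
  unfold lam
  have := Real.cos_le_one (Real.pi * k / n)
  linarith

/-- Symmetry of the path Laplacian. -/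
theorem path_symm (n : ℕ) (f g : Fin n → ℝ) :
    ∑ i : Fin n, (∑ c : Fin n, (if Nat.dist (c : ℕ) (i : ℕ) = 1 then f c - f i else 0)) * g i =
      ∑ i : Fin n, f i * ∑ c : Fin n, (if Nat.dist (c : ℕ) (i : ℕ) = 1 then g c - g i else 0) := by
  have h1 : ∀ F : Fin n → Fin n → ℝ, ∑ i : Fin n, ∑ c : Fin n,
      (if Nat.dist (c : ℕ) (i : ℕ) = 1 then F c i else 0) =
      ∑ i : Fin n, ∑ c : Fin n, (if Nat.dist (c : ℕ) (i : ℕ) = 1 then F i c else 0) := by
    intro F
    rw [Finset.sum_comm]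
    refine Finset.sum_congr rfl fun i _ => Finset.sum_congr rfl fun c _ => ?_
    rw [Nat.dist_comm]
  simp only [Finset.sum_mul, Finset.mul_sum, ite_mul, mul_ite, zero_mul, mul_zero]
  have h2 := h1 (fun c i => f c * g i)
  have e1 : ∀ i c : Fin n, (if Nat.dist (c : ℕ) (i : ℕ) = 1 then (f c - f i) * g i else 0) =
      (if Nat.dist (c : ℕ) (i : ℕ) = 1 then f c * g i else 0) -
        (if Nat.dist (c : ℕ) (i : ℕ) = 1 then f i * g i else 0) := by
    intro i c; split_ifs <;> ring
  have e2 : ∀ i c : Fin n, (if Nat.dist (c : ℕ) (i : ℕ) = 1 then f i * (g c - g i) else 0) =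
      (if Nat.dist (c : ℕ) (i : ℕ) = 1 then f i * g c else 0) -
        (if Nat.dist (c : ℕ) (i : ℕ) = 1 then f i * g i else 0) := by
    intro i c; split_ifs <;> ring
  simp only [e1, e2, Finset.sum_sub_distrib]
  rw [h2]

theorem path_orth {n k l : ℕ} (hk : k < n) (hl : l < n) (hkl : k ≠ l) :
    ∑ i : Fin n, vcos n k i * vcos n l i = 0 := by
  have hn : 0 < n := by omega
  have h1 := path_symm n (fun i => vcos n k i) (fun i => vcos n l i)
  simp only [path_eig hn] at h1
  have h2 : ∑ i : Fin n, -lam n k * vcos n k i * vcos n l i =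
      -lam n k * ∑ i : Fin n, vcos n k i * vcos n l i := by
    rw [Finset.mul_sum]
    exact Finset.sum_congr rfl fun i _ => by ring
  have h3 : ∑ i : Fin n, vcos n k i * (-lam n l * vcos n l i) =
      -lam n l * ∑ i : Fin n, vcos n k i * vcos n l i := by
    rw [Finset.mul_sum]
    exact Finset.sum_congr rfl fun i _ => by ring
  rw [h2, h3] at h1
  have hne : lam n k ≠ lam n l := fun h => hkl (lam_inj hk hl h)
  have h4 : (lam n l - lam n k) * ∑ i : Fin n, vcos n k i * vcos n l i = 0 := by linarith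
  rcases mul_eq_zero.mp h4 with h5 | h5
  · exact absurd (by linarith) hne
  · exact h5

theorem vcos_norm_pos {n k : ℕ} (hk : k < n) : 0 < ∑ i : Fin n, vcos n k i * vcos n k i := by
  have hn : 0 < n := by omega
  have hn' : (0 : ℝ) < n := by exact_mod_cast hn
  have e0 : vcos n k 0 = Real.cos (Real.pi * k / (2 * n)) := by
    unfold vcos
    congr 1
    push_cast
    ring
  have h0 : 0 < vcos n k 0 := by
    rw [e0]
    apply Real.cos_pos_of_mem_Ioo
    have hk' : (k : ℝ) < n := by exact_mod_cast hk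
    have hpi := Real.pi_pos
    constructor
    · have : (0 : ℝ) ≤ Real.pi * k / (2 * n) := by positivity
      linarith
    · rw [div_lt_iff₀ (by positivity)]
      nlinarith
  have h1 := Finset.single_le_sum (f := fun i : Fin n => vcos n k i * vcos n k i)
    (fun i _ => mul_self_nonneg _) (Finset.mem_univ (⟨0, hn⟩ : Fin n))
  simp only at h1
  exact lt_of_lt_of_le (mul_pos h0 h0) h1

end Vale.Agent.H96

namespace Vale.Agent.H96

set_option linter.unusedSectionVars false

theorem lam_ge {n k : ℕ} (hn : 0 < n) (hk : k ≤ n) : 4 * (k : ℝ) ^ 2 / (n : ℝ) ^ 2 ≤ lam n k := by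
  unfold lam
  have hn' : (0 : ℝ) < n := by exact_mod_cast hn
  have hk' : (k : ℝ) ≤ n := by exact_mod_cast hk
  have hpi := Real.pi_pos
  have habs : |Real.pi * k / n| ≤ Real.pi := by
    rw [abs_of_nonneg (by positivity), div_le_iff₀ hn']
    exact mul_le_mul_of_nonneg_left hk' hpi.le
  have h1 := Real.cos_le_one_sub_mul_cos_sq habs
  have e : 2 / Real.pi ^ 2 * (Real.pi * k / n) ^ 2 = 2 * (k : ℝ) ^ 2 / (n : ℝ) ^ 2 := by
    field_simp
  rw [e] at h1
  have e2 : 4 * (k : ℝ) ^ 2 / (n : ℝ) ^ 2 = 2 * (2 * (k : ℝ) ^ 2 / (n : ℝ) ^ 2) := by ring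
  rw [e2]
  linarith

theorem inv_sq_sum_le {α : ℝ} (hα : 0 < α) (K : ℕ) (hK : 1 ≤ K) (m : ℕ) :
    ∑ k ∈ Finset.range (K + 1 + m), 1 / (1 + α * (k : ℝ) ^ 2) ≤
      (K : ℝ) + 1 + 1 / α * (1 / (K : ℝ) - 1 / ((K : ℝ) + m)) := by
  have hK' : (1 : ℝ) ≤ K := by exact_mod_cast hK
  induction m with
  | zero =>
    simp only [add_zero, Nat.cast_zero, sub_self, mul_zero]
    calc ∑ k ∈ Finset.range (K + 1), 1 / (1 + α * (k : ℝ) ^ 2)
        ≤ ∑ k ∈ Finset.range (K + 1), (1 : ℝ) := by
          refine Finset.sum_le_sum fun k _ => ?_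
          rw [div_le_one (by positivity)]
          have : 0 ≤ α * (k : ℝ) ^ 2 := by positivity
          linarith
      _ = (K : ℝ) + 1 := by simp
  | succ m ih =>
    rw [← add_assoc, Finset.sum_range_succ]
    have hj : (0 : ℝ) < (K : ℝ) + m := by positivity
    have hterm : 1 / (1 + α * (((K + 1 + m : ℕ)) : ℝ) ^ 2) ≤
        1 / α * (1 / ((K : ℝ) + m) - 1 / ((K : ℝ) + (m + 1 : ℕ))) := by
      push_cast
      have e : 1 / α * (1 / ((K : ℝ) + m) - 1 / ((K : ℝ) + (m + 1))) =
          1 / (α * (((K : ℝ) + m) * ((K : ℝ) + m + 1))) := by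
        field_simp
        ring
      rw [e]
      apply one_div_le_one_div_of_le (by positivity)
      nlinarith
    push_cast at hterm ⊢
    linarith

theorem gauss_sum_le {α : ℝ} (hα : 0 < α) (m : ℕ) :
    ∑ k ∈ Finset.range m, Real.exp (-(α * (k : ℝ) ^ 2)) ≤ 2 + 2 / Real.sqrt α := by
  have hsq : 0 < Real.sqrt α := Real.sqrt_pos.mpr hα
  set K : ℕ := ⌈1 / Real.sqrt α⌉₊ with hKdef
  have hK1 : 1 ≤ K := Nat.one_le_ceil_iff.mpr (by positivity)
  have hK' : (1 : ℝ) ≤ K := by exact_mod_cast hK1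
  have hKle : 1 / Real.sqrt α ≤ K := Nat.le_ceil _
  have hKlt : (K : ℝ) < 1 / Real.sqrt α + 1 := Nat.ceil_lt_add_one (by positivity)
  have h1 : ∑ k ∈ Finset.range m, Real.exp (-(α * (k : ℝ) ^ 2)) ≤
      ∑ k ∈ Finset.range m, 1 / (1 + α * (k : ℝ) ^ 2) := by
    refine Finset.sum_le_sum fun k _ => ?_
    rw [Real.exp_neg, ← one_div]
    apply one_div_le_one_div_of_le (by positivity)
    have := Real.add_one_le_exp (α * (k : ℝ) ^ 2)
    linarith
  have h2 : ∑ k ∈ Finset.range m, 1 / (1 + α * (k : ℝ) ^ 2) ≤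
      ∑ k ∈ Finset.range (K + 1 + m), 1 / (1 + α * (k : ℝ) ^ 2) := by
    refine Finset.sum_le_sum_of_subset_of_nonneg ?_ (fun k _ _ => by positivity)
    intro k hk
    rw [Finset.mem_range] at hk ⊢
    omega
  have h3 := inv_sq_sum_le hα K hK1 m
  have h4 : 1 / α * (1 / (K : ℝ) - 1 / ((K : ℝ) + m)) ≤ 1 / Real.sqrt α := by
    have h5 : 1 / ((K : ℝ) + m) ≥ 0 := by positivity
    have h6 : 1 / (K : ℝ) ≤ Real.sqrt α := by
      rw [div_le_iff₀ (by positivity)]
      have := (div_le_iff₀ hsq).mp hKle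
      linarith
    have h7 : 1 / α * (1 / (K : ℝ) - 1 / ((K : ℝ) + m)) ≤ 1 / α * Real.sqrt α := by
      apply mul_le_mul_of_nonneg_left _ (by positivity)
      linarith
    have h8 : 1 / α * Real.sqrt α = 1 / Real.sqrt α := by
      have hss : Real.sqrt α * Real.sqrt α = α := Real.mul_self_sqrt hα.le
      field_simp
      linarith
    linarith
  have e : 2 + 2 / Real.sqrt α = 1 / Real.sqrt α + 1 + 1 + 1 / Real.sqrt α := by ring
  linarith

theorem sum_exp_lam_le {n : ℕ} (hn : 0 < n) {s : ℝ} (hs : 0 < s) :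
    ∑ k : Fin n, Real.exp (-(s * lam n k)) ≤ 2 + (n : ℝ) / Real.sqrt s := by
  have hn' : (0 : ℝ) < n := by exact_mod_cast hn
  set α : ℝ := 4 * s / (n : ℝ) ^ 2 with hα
  have hα0 : 0 < α := by positivity
  rw [Fin.sum_univ_eq_sum_range (fun k => Real.exp (-(s * lam n k))) n]
  have h1 : ∑ k ∈ Finset.range n, Real.exp (-(s * lam n k)) ≤
      ∑ k ∈ Finset.range n, Real.exp (-(α * (k : ℝ) ^ 2)) := by
    refine Finset.sum_le_sum fun k hk => ?_
    rw [Finset.mem_range] at hk
    apply Real.exp_le_exp.mpr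
    have := lam_ge hn hk.le
    have e : α * (k : ℝ) ^ 2 = s * (4 * (k : ℝ) ^ 2 / (n : ℝ) ^ 2) := by
      rw [hα]; ring
    rw [e]
    have := mul_le_mul_of_nonneg_left this hs.le
    linarith
  have h2 := gauss_sum_le hα0 n
  have h3 : Real.sqrt α = 2 * Real.sqrt s / n := by
    rw [hα, Real.sqrt_div (by positivity), Real.sqrt_sq hn'.le,
      show (4 : ℝ) * s = 2 ^ 2 * s by ring, Real.sqrt_mul (by positivity),
      Real.sqrt_sq (by norm_num)]
  have hss : 0 < Real.sqrt s := Real.sqrt_pos.mpr hs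
  have h4 : 2 / Real.sqrt α = (n : ℝ) / Real.sqrt s := by
    rw [h3]
    field_simp
  linarith

end Vale.Agent.H96
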