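import Mathlib

/-!
# Peierls-type inequalities for traces of matrix exponentials

Abstract finite-dimensional facts used for the Heisenberg model:
* `trace_exp_eq` : the trace of the exponential of a Hermitian matrix is the sum of the
  exponentials of its eigenvalues;
* `peierls` : for an orthonormal family `Φ k`, `∑ k, exp ⟨Φ k, A Φ k⟩ ≤ Tr exp A`;
* `trace_exp_mono` : monotonicity of `A ↦ Tr exp A` in the form order;
* `log_trace_exp_convex` : convexity of `A ↦ log Tr exp A`.
-/

open Matrix NormedSpace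

namespace Vale.Agent.H96

variable {n : Type*} [Fintype n] [DecidableEq n]

/-- The real quadratic form `Re ⟨v, A v⟩` of a complex matrix. -/
noncomputable def qform (A : Matrix n n ℂ) (v : n → ℂ) : ℝ := (star v ⬝ᵥ (A *ᵥ v)).re

/-- The real trace of the matrix exponential. -/
noncomputable def trExp (A : Matrix n n ℂ) : ℝ := (Matrix.trace (NormedSpace.exp A)).re

theorem exp_eq_of_hermitian {A : Matrix n n ℂ} (hA : A.IsHermitian) :
    NormedSpace.exp A = (hA.eigenvectorUnitary : Matrix n n ℂ) *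
      Matrix.diagonal (fun i => ((Real.exp (hA.eigenvalues i) : ℝ) : ℂ)) *
      star (hA.eigenvectorUnitary : Matrix n n ℂ) := by
  have h1 := hA.spectral_theorem
  rw [Unitary.conjStarAlgAut_apply] at h1
  conv_lhs => rw [h1]
  have hU : IsUnit (hA.eigenvectorUnitary : Matrix n n ℂ) := by
    refine ⟨⟨(hA.eigenvectorUnitary : Matrix n n ℂ), star (hA.eigenvectorUnitary : Matrix n n ℂ),
      ?_, ?_⟩, rfl⟩
    · exact Unitary.coe_mul_star_self _
    · exact Unitary.coe_star_mul_self _
  have hinv : (hA.eigenvectorUnitary : Matrix n n ℂ)⁻¹ = star (hA.eigenvectorUnitary : Matrix n n ℂ) := by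
    apply Matrix.inv_eq_right_inv
    exact Unitary.coe_mul_star_self _
  rw [← hinv, Matrix.exp_conj _ _ hU, Matrix.exp_diagonal]
  congr 2
  ext i
  simp [Pi.exp_def, Complex.ofReal_exp, Complex.exp_eq_exp_ℂ]


theorem unitary_mul_star (U : Matrix.unitaryGroup n ℂ) :
    (U : Matrix n n ℂ) * star (U : Matrix n n ℂ) = 1 := Unitary.coe_mul_star_self U

theorem unitary_star_mul (U : Matrix.unitaryGroup n ℂ) :
    star (U : Matrix n n ℂ) * (U : Matrix n n ℂ) = 1 := Unitary.coe_star_mul_self U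

theorem dot_conj_diag (U : Matrix n n ℂ) (d : n → ℝ) (v : n → ℂ) :
    star v ⬝ᵥ ((U * Matrix.diagonal (fun i => (d i : ℂ)) * star U) *ᵥ v) =
      ∑ i, ((d i * Complex.normSq ((star U *ᵥ v) i) : ℝ) : ℂ) := by
  rw [← Matrix.mulVec_mulVec, ← Matrix.mulVec_mulVec, Matrix.dotProduct_mulVec]
  have h : star v ᵥ* U = star (star U *ᵥ v) := by
    rw [Matrix.star_mulVec]
    simp [Matrix.star_eq_conjTranspose]
  rw [h]
  simp only [dotProduct, Matrix.mulVec_diagonal, Pi.star_apply]
  refine Finset.sum_congr rfl fun i _ => ?_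
  rw [Complex.ofReal_mul, Complex.normSq_eq_conj_mul_self]
  simp
  ring

theorem qform_eq_sum {A : Matrix n n ℂ} (hA : A.IsHermitian) (v : n → ℂ) :
    qform A v = ∑ i, hA.eigenvalues i *
      Complex.normSq ((star (hA.eigenvectorUnitary : Matrix n n ℂ) *ᵥ v) i) := by
  have h1 := hA.spectral_theorem
  rw [Unitary.conjStarAlgAut_apply] at h1
  unfold qform
  conv_lhs => rw [h1]
  have := dot_conj_diag (hA.eigenvectorUnitary : Matrix n n ℂ) hA.eigenvalues v
  simp only [Function.comp_def] at *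
  rw [show (fun x => (RCLike.ofReal (hA.eigenvalues x) : ℂ)) = fun i => ((hA.eigenvalues i : ℝ) : ℂ) from rfl]
  rw [this, ← Complex.ofReal_sum, Complex.ofReal_re]

theorem qform_exp_eq_sum {A : Matrix n n ℂ} (hA : A.IsHermitian) (v : n → ℂ) :
    qform (NormedSpace.exp A) v = ∑ i, Real.exp (hA.eigenvalues i) *
      Complex.normSq ((star (hA.eigenvectorUnitary : Matrix n n ℂ) *ᵥ v) i) := by
  unfold qform
  rw [exp_eq_of_hermitian hA, dot_conj_diag, ← Complex.ofReal_sum, Complex.ofReal_re]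

theorem sum_normSq_star_unitary {A : Matrix n n ℂ} (hA : A.IsHermitian) (v : n → ℂ) :
    ∑ i, Complex.normSq ((star (hA.eigenvectorUnitary : Matrix n n ℂ) *ᵥ v) i) =
      (star v ⬝ᵥ v).re := by
  have := dot_conj_diag (hA.eigenvectorUnitary : Matrix n n ℂ) (fun _ => 1) v
  simp only [Complex.ofReal_one, Matrix.diagonal_one, mul_one, one_mul] at this
  rw [unitary_mul_star, Matrix.one_mulVec] at this
  rw [this, ← Complex.ofReal_sum, Complex.ofReal_re]

theorem trExp_eq {A : Matrix n n ℂ} (hA : A.IsHermitian) :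
    trExp A = ∑ i, Real.exp (hA.eigenvalues i) := by
  unfold trExp
  rw [exp_eq_of_hermitian hA, Matrix.trace_mul_cycle, unitary_star_mul, Matrix.one_mul,
    Matrix.trace_diagonal, ← Complex.ofReal_sum, Complex.ofReal_re]

theorem trExp_pos {A : Matrix n n ℂ} (hA : A.IsHermitian) [Nonempty n] : 0 < trExp A := by
  rw [trExp_eq hA]
  exact Finset.sum_pos (fun i _ => Real.exp_pos _) Finset.univ_nonempty



theorem bessel_aux {A : Matrix n n ℂ} (hA : A.IsHermitian) {κ : Type*} [Fintype κ]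
    [DecidableEq κ] (Φ : κ → n → ℂ) (hΦ : ∀ k l, star (Φ k) ⬝ᵥ Φ l = if k = l then 1 else 0) (i : n) :
    ∑ k, Complex.normSq ((star (hA.eigenvectorUnitary : Matrix n n ℂ) *ᵥ Φ k) i) ≤ 1 := by
  classical
  let Φ' : κ → EuclideanSpace ℂ n := fun k => WithLp.toLp 2 (Φ k)
  have hon : Orthonormal ℂ Φ' := by
    rw [orthonormal_iff_ite]
    intro k l
    rw [EuclideanSpace.inner_eq_star_dotProduct, dotProduct_comm]
    exact hΦ k l
  have hb := hon.sum_inner_products_le (hA.eigenvectorBasis i) (s := Finset.univ)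
  rw [hA.eigenvectorBasis.orthonormal.1 i] at hb
  simp only [one_pow] at hb
  refine le_trans (le_of_eq ?_) hb
  refine Finset.sum_congr rfl fun k _ => ?_
  rw [Complex.sq_norm, EuclideanSpace.inner_eq_star_dotProduct]
  rw [← Complex.normSq_conj]
  congr 1
  simp only [Matrix.mulVec, dotProduct, map_sum, map_mul, Matrix.star_apply,
    Matrix.IsHermitian.eigenvectorUnitary_apply, Φ', Pi.star_apply]
  refine Finset.sum_congr rfl fun j _ => ?_
  simp

theorem peierls {A : Matrix n n ℂ} (hA : A.IsHermitian) {κ : Type*} [Fintype κ]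
    [DecidableEq κ] (Φ : κ → n → ℂ) (hΦ : ∀ k l, star (Φ k) ⬝ᵥ Φ l = if k = l then 1 else 0) :
    ∑ k, Real.exp (qform A (Φ k)) ≤ trExp A := by
  classical
  set U : Matrix n n ℂ := (hA.eigenvectorUnitary : Matrix n n ℂ) with hU
  have h1 : ∀ k, Real.exp (qform A (Φ k)) ≤
      ∑ i, Complex.normSq ((star U *ᵥ Φ k) i) * Real.exp (hA.eigenvalues i) := by
    intro k
    rw [qform_eq_sum hA]
    have hsum : ∑ i, Complex.normSq ((star U *ᵥ Φ k) i) = 1 := by
      rw [hU, sum_normSq_star_unitary hA, hΦ k k]; simp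
    have := convexOn_exp.map_sum_le (t := Finset.univ)
      (w := fun i => Complex.normSq ((star U *ᵥ Φ k) i)) (p := fun i => hA.eigenvalues i)
      (fun i _ => Complex.normSq_nonneg _) hsum (fun i _ => Set.mem_univ _)
    simp only [smul_eq_mul] at this
    refine le_trans (le_of_eq ?_) this
    congr 1
    refine Finset.sum_congr rfl fun i _ => ?_
    rw [mul_comm]
  calc ∑ k, Real.exp (qform A (Φ k))
      ≤ ∑ k, ∑ i, Complex.normSq ((star U *ᵥ Φ k) i) * Real.exp (hA.eigenvalues i) :=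
        Finset.sum_le_sum fun k _ => h1 k
    _ = ∑ i, (∑ k, Complex.normSq ((star U *ᵥ Φ k) i)) * Real.exp (hA.eigenvalues i) := by
        rw [Finset.sum_comm]
        refine Finset.sum_congr rfl fun i _ => ?_
        rw [Finset.sum_mul]
    _ ≤ ∑ i, 1 * Real.exp (hA.eigenvalues i) := by
        refine Finset.sum_le_sum fun i _ => ?_
        exact mul_le_mul_of_nonneg_right (bessel_aux hA Φ hΦ i) (Real.exp_pos _).le
    _ = trExp A := by
        rw [trExp_eq hA]; simp



theorem eigenvector_orthonormal {A : Matrix n n ℂ} (hA : A.IsHermitian) (i j : n) :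
    star (⇑(hA.eigenvectorBasis i) : n → ℂ) ⬝ᵥ (⇑(hA.eigenvectorBasis j) : n → ℂ) =
      if i = j then 1 else 0 := by
  have h := orthonormal_iff_ite.mp hA.eigenvectorBasis.orthonormal i j
  rw [EuclideanSpace.inner_eq_star_dotProduct, dotProduct_comm] at h
  exact h

theorem qform_eigenvector {A : Matrix n n ℂ} (hA : A.IsHermitian) (i : n) :
    qform A (⇑(hA.eigenvectorBasis i) : n → ℂ) = hA.eigenvalues i :=
  (hA.eigenvalues_eq i).symm

theorem trExp_eq_sum_qform {A : Matrix n n ℂ} (hA : A.IsHermitian) :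
    trExp A = ∑ i, Real.exp (qform A (⇑(hA.eigenvectorBasis i) : n → ℂ)) := by
  rw [trExp_eq hA]
  exact Finset.sum_congr rfl fun i _ => by rw [qform_eigenvector]

theorem trExp_mono {A B : Matrix n n ℂ} (hA : A.IsHermitian) (hB : B.IsHermitian)
    (h : ∀ v, qform A v ≤ qform B v) : trExp A ≤ trExp B := by
  rw [trExp_eq_sum_qform hA]
  refine le_trans ?_ (peierls hB (fun i => (⇑(hA.eigenvectorBasis i) : n → ℂ))
    (eigenvector_orthonormal hA))
  exact Finset.sum_le_sum fun i _ => Real.exp_le_exp.mpr (h _)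

theorem qform_add (A B : Matrix n n ℂ) (v : n → ℂ) :
    qform (A + B) v = qform A v + qform B v := by
  unfold qform
  rw [Matrix.add_mulVec, dotProduct_add, Complex.add_re]

theorem qform_real_smul (c : ℝ) (A : Matrix n n ℂ) (v : n → ℂ) :
    qform ((c : ℂ) • A) v = c * qform A v := by
  unfold qform
  rw [Matrix.smul_mulVec, dotProduct_smul, smul_eq_mul, Complex.re_ofReal_mul]

theorem isHermitian_real_smul {A : Matrix n n ℂ} (hA : A.IsHermitian) (c : ℝ) :
    ((c : ℂ) • A).IsHermitian := by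
  unfold Matrix.IsHermitian
  rw [Matrix.conjTranspose_smul, hA.eq]
  simp

theorem holder_exp {ι : Type*} (s : Finset ι) (a b : ι → ℝ) {θ : ℝ} (h0 : 0 < θ) (h1 : θ < 1) :
    ∑ i ∈ s, Real.exp (θ * a i + (1 - θ) * b i) ≤
      (∑ i ∈ s, Real.exp (a i)) ^ θ * (∑ i ∈ s, Real.exp (b i)) ^ (1 - θ) := by
  have hpq := Real.HolderConjugate.inv_one_sub_inv h0 h1
  have := Real.inner_le_Lp_mul_Lq_of_nonneg s hpq
    (f := fun i => Real.exp (θ * a i)) (g := fun i => Real.exp ((1 - θ) * b i))
    (fun i _ => (Real.exp_pos _).le) (fun i _ => (Real.exp_pos _).le)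
  have h1' : (1 : ℝ) - θ ≠ 0 := by linarith
  have e1 : ∀ i, Real.exp (θ * a i) ^ θ⁻¹ = Real.exp (a i) := by
    intro i
    rw [← Real.exp_mul]
    congr 1; field_simp
  have e2 : ∀ i, Real.exp ((1 - θ) * b i) ^ (1 - θ)⁻¹ = Real.exp (b i) := by
    intro i
    rw [← Real.exp_mul]
    congr 1; field_simp
  simp only [← Real.exp_add, one_div, inv_inv, e1, e2] at this
  exact this

theorem log_trExp_convex {A B : Matrix n n ℂ} [Nonempty n] (hA : A.IsHermitian)
    (hB : B.IsHermitian) {θ : ℝ} (h0 : 0 < θ) (h1 : θ < 1) :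
    Real.log (trExp ((θ : ℂ) • A + ((1 - θ : ℝ) : ℂ) • B)) ≤
      θ * Real.log (trExp A) + (1 - θ) * Real.log (trExp B) := by
  have hC : ((θ : ℂ) • A + ((1 - θ : ℝ) : ℂ) • B).IsHermitian :=
    (isHermitian_real_smul hA θ).add (isHermitian_real_smul hB (1 - θ))
  have hposA := trExp_pos hA
  have hposB := trExp_pos hB
  have hposC := trExp_pos hC
  have key : trExp ((θ : ℂ) • A + ((1 - θ : ℝ) : ℂ) • B) ≤
      trExp A ^ θ * trExp B ^ (1 - θ) := by
    rw [trExp_eq_sum_qform hC]
    simp only [qform_add, qform_real_smul]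
    refine le_trans (holder_exp _ _ _ h0 h1) ?_
    have hA' := peierls hA (fun i => (⇑(hC.eigenvectorBasis i) : n → ℂ))
      (eigenvector_orthonormal hC)
    have hB' := peierls hB (fun i => (⇑(hC.eigenvectorBasis i) : n → ℂ))
      (eigenvector_orthonormal hC)
    have h1' : 0 ≤ 1 - θ := by linarith
    have hsA : 0 ≤ ∑ i, Real.exp (qform A (⇑(hC.eigenvectorBasis i) : n → ℂ)) :=
      Finset.sum_nonneg fun i _ => (Real.exp_pos _).le
    have hsB : 0 ≤ ∑ i, Real.exp (qform B (⇑(hC.eigenvectorBasis i) : n → ℂ)) :=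
      Finset.sum_nonneg fun i _ => (Real.exp_pos _).le
    exact mul_le_mul (Real.rpow_le_rpow hsA hA' h0.le) (Real.rpow_le_rpow hsB hB' h1')
      (Real.rpow_nonneg hsB _) (Real.rpow_nonneg hposA.le _)
  calc Real.log (trExp ((θ : ℂ) • A + ((1 - θ : ℝ) : ℂ) • B))
      ≤ Real.log (trExp A ^ θ * trExp B ^ (1 - θ)) := Real.log_le_log hposC key
    _ = θ * Real.log (trExp A) + (1 - θ) * Real.log (trExp B) := by
        rw [Real.log_mul (Real.rpow_pos_of_pos hposA _).ne' (Real.rpow_pos_of_pos hposB _).ne',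
          Real.log_rpow hposA, Real.log_rpow hposB]



theorem trExp_diagonal (d : n → ℝ) :
    trExp (Matrix.diagonal (fun i => (d i : ℂ))) = ∑ i, Real.exp (d i) := by
  unfold trExp
  rw [Matrix.exp_diagonal, Matrix.trace_diagonal]
  simp only [Pi.exp_def, ← Complex.exp_eq_exp_ℂ, ← Complex.ofReal_exp]
  rw [← Complex.ofReal_sum, Complex.ofReal_re]

theorem qform_diagonal (d : n → ℝ) (v : n → ℂ) :
    qform (Matrix.diagonal (fun i => (d i : ℂ))) v = ∑ i, d i * Complex.normSq (v i) := by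
  unfold qform
  simp only [dotProduct, Matrix.mulVec_diagonal, Pi.star_apply]
  rw [Complex.re_sum]
  refine Finset.sum_congr rfl fun i _ => ?_
  rw [show (star (v i) * ((d i : ℂ) * v i)) = ((d i * Complex.normSq (v i) : ℝ) : ℂ) by
    rw [Complex.ofReal_mul, Complex.normSq_eq_conj_mul_self]; simp; ring]
  exact Complex.ofReal_re _

end Vale.Agent.H96
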