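import Vale.Agent.H96.Model
import Vale.Agent.H96.HeatKernel

open Matrix

namespace Vale.Agent.H96

set_option linter.unusedSectionVars false

/-- Real form of `S^3`. -/
noncomputable def spinZr (d : ℕ) : Matrix (Fin (d + 1)) (Fin (d + 1)) ℝ :=
  Matrix.diagonal fun k => (d : ℝ) / 2 - ((k : ℕ) : ℝ)

/-- Real form of `S^+`. -/
noncomputable def spinPr (d : ℕ) : Matrix (Fin (d + 1)) (Fin (d + 1)) ℝ :=
  Matrix.of fun i j => if (j : ℕ) = (i : ℕ) + 1 then
    Real.sqrt (((j : ℕ) : ℝ) * ((d : ℝ) + 1 - ((j : ℕ) : ℝ))) else 0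

/-- Real form of `S^-`. -/
noncomputable def spinMr (d : ℕ) : Matrix (Fin (d + 1)) (Fin (d + 1)) ℝ := (spinPr d)ᵀ

theorem spinZr_map (d : ℕ) : (spinZr d).map ((↑) : ℝ → ℂ) = spinZ d := by
  ext i j
  simp only [spinZr, spinZ, Matrix.map_apply, Matrix.diagonal_apply]
  split_ifs <;> simp

theorem spinPr_map (d : ℕ) : (spinPr d).map ((↑) : ℝ → ℂ) = spinPlus d := by
  ext i j
  simp only [spinPr, spinPlus, Matrix.map_apply, Matrix.of_apply]
  split_ifs <;> simp

theorem spinMr_map (d : ℕ) : (spinMr d).map ((↑) : ℝ → ℂ) = spinMinus d := by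
  ext i j
  simp only [spinMr, spinPr, spinMinus, spinPlus, Matrix.map_apply, Matrix.of_apply,
    Matrix.transpose_apply, Matrix.conjTranspose_apply]
  split_ifs <;> simp

variable {V : Type*} [Fintype V] [DecidableEq V] {α : Type*} [Fintype α] [DecidableEq α]

/-- Real version of `siteOp`. -/
def siteOpR (x : V) (A : Matrix α α ℝ) : Matrix (V → α) (V → α) ℝ :=
  Matrix.of fun σ τ => if ∀ y, y ≠ x → σ y = τ y then A (σ x) (τ x) else 0

theorem siteOpR_apply (x : V) (A : Matrix α α ℝ) (σ τ : V → α) :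
    siteOpR x A σ τ = if ∀ y, y ≠ x → σ y = τ y then A (σ x) (τ x) else 0 := rfl

theorem siteOpR_map (x : V) (A : Matrix α α ℝ) :
    (siteOpR x A).map ((↑) : ℝ → ℂ) = siteOp x (A.map ((↑) : ℝ → ℂ)) := by
  ext σ τ
  simp only [siteOpR_apply, siteOp_apply, Matrix.map_apply]
  split_ifs <;> simp

theorem siteOpR_nonneg (x : V) {A : Matrix α α ℝ} (hA : ∀ a b, 0 ≤ A a b) (σ τ : V → α) :
    0 ≤ siteOpR x A σ τ := by
  rw [siteOpR_apply]
  split_ifs
  · exact hA _ _
  · exact le_refl _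

theorem siteOpR_mulVec (x : V) (A : Matrix α α ℝ) (ψ : (V → α) → ℝ) (σ : V → α) :
    (siteOpR x A *ᵥ ψ) σ = ∑ k, A (σ x) k * ψ (Function.update σ x k) := by
  unfold Matrix.mulVec dotProduct
  simp only [siteOpR_apply, ite_mul, zero_mul]
  rw [← Finset.sum_filter]
  refine Finset.sum_nbij' (fun τ => τ x) (fun k => Function.update σ x k) ?_ ?_ ?_ ?_ ?_
  · intro τ _; exact Finset.mem_univ _
  · intro k _
    rw [Finset.mem_filter]
    refine ⟨Finset.mem_univ _, fun y hy => ?_⟩
    rw [Function.update_of_ne hy]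
  · intro τ hτ
    rw [Finset.mem_filter] at hτ
    ext y
    by_cases hy : y = x
    · subst hy; simp
    · rw [Function.update_of_ne hy]; exact hτ.2 y hy
  · intro k _; simp
  · intro τ hτ
    rw [Finset.mem_filter] at hτ
    have : Function.update σ x (τ x) = τ := by
      ext y
      by_cases hy : y = x
      · subst hy; simp
      · rw [Function.update_of_ne hy]; exact hτ.2 y hy
    rw [this]

theorem siteOpR_diagonal (x : V) (f : α → ℝ) :
    siteOpR x (Matrix.diagonal f) = Matrix.diagonal (fun σ : V → α => f (σ x)) := by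
  ext σ τ
  simp only [siteOpR_apply, Matrix.diagonal_apply]
  by_cases h : σ = τ
  · subst h; simp
  · rw [if_neg h]
    split_ifs with h1 h2
    · exfalso; apply h; ext y
      by_cases hy : y = x
      · subst hy; exact h2
      · exact h1 y hy
    · rfl
    · rfl

variable (d : ℕ)

/-- Real form of `S_x · S_y`. -/
noncomputable def dotR (x y : V) : Matrix (V → Fin (d + 1)) (V → Fin (d + 1)) ℝ :=
  siteOpR x (spinZr d) * siteOpR y (spinZr d) +
    (1 / 2 : ℝ) • (siteOpR x (spinPr d) * siteOpR y (spinMr d) +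
      siteOpR x (spinMr d) * siteOpR y (spinPr d))

/-- The number of spin deviations (magnons) of a configuration, as a diagonal matrix. -/
noncomputable def numR : Matrix (V → Fin (d + 1)) (V → Fin (d + 1)) ℝ :=
  Matrix.diagonal fun σ => ∑ x, ((σ x : ℕ) : ℝ)

/-- The real generator `(1/2) ∑_{e ∈ E} (S_x · S_y - d²/4) - h N`. -/
noncomputable def genR (E : Finset (V × V)) (h : ℝ) :
    Matrix (V → Fin (d + 1)) (V → Fin (d + 1)) ℝ :=
  (1 / 2 : ℝ) • ∑ e ∈ E, (dotR d e.1 e.2 - ((d : ℝ) ^ 2 / 4) • 1) - h • numR d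

theorem dotR_map (x y : V) : (dotR d x y).map ((↑) : ℝ → ℂ) = spinDot d x y := by
  rw [spinDot_eq]
  unfold dotR
  have e : ∀ M : Matrix (V → Fin (d + 1)) (V → Fin (d + 1)) ℝ,
      M.map ((↑) : ℝ → ℂ) = Complex.ofRealHom.mapMatrix M := fun M => rfl
  have es : ∀ (r : ℝ) (M : Matrix (V → Fin (d + 1)) (V → Fin (d + 1)) ℝ),
      Complex.ofRealHom.mapMatrix (r • M) = (r : ℂ) • Complex.ofRealHom.mapMatrix M := by
    intro r M
    ext i j
    simp
  rw [e, map_add, es, map_add, map_mul, map_mul, map_mul]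
  simp only [← e, siteOpR_map, spinZr_map, spinPr_map, spinMr_map]
  push_cast
  rfl

theorem numR_map : (numR (V := V) d).map ((↑) : ℝ → ℂ) =
    ((Fintype.card V : ℂ) * ((d : ℂ) / 2)) • (1 : Matrix _ _ ℂ) - magZ (V := V) d := by
  rw [magZ_eq]
  ext σ τ
  simp only [numR, Matrix.map_apply, Matrix.diagonal_apply, Matrix.sub_apply, Matrix.smul_apply,
    Matrix.one_apply]
  split_ifs with h
  · push_cast
    rw [Finset.sum_sub_distrib]
    simp
  · simp

end Vale.Agent.H96

namespace Vale.Agent.H96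

set_option linter.unusedSectionVars false

section maps

variable {n : Type*} [Fintype n] [DecidableEq n]

theorem map_ofReal_smul (r : ℝ) (M : Matrix n n ℝ) :
    (r • M).map ((↑) : ℝ → ℂ) = (r : ℂ) • M.map ((↑) : ℝ → ℂ) := by
  ext i j; simp

theorem map_ofReal_add (M M' : Matrix n n ℝ) :
    (M + M').map ((↑) : ℝ → ℂ) = M.map ((↑) : ℝ → ℂ) + M'.map ((↑) : ℝ → ℂ) := by
  ext i j; simp

theorem map_ofReal_sub (M M' : Matrix n n ℝ) :
    (M - M').map ((↑) : ℝ → ℂ) = M.map ((↑) : ℝ → ℂ) - M'.map ((↑) : ℝ → ℂ) := by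
  ext i j; simp

theorem map_ofReal_one : (1 : Matrix n n ℝ).map ((↑) : ℝ → ℂ) = 1 := by
  ext i j
  simp only [Matrix.map_apply, Matrix.one_apply]
  split_ifs <;> simp

theorem map_ofReal_sum {ι : Type*} (s : Finset ι) (F : ι → Matrix n n ℝ) :
    (∑ i ∈ s, F i).map ((↑) : ℝ → ℂ) = ∑ i ∈ s, (F i).map ((↑) : ℝ → ℂ) := by
  have e : ∀ M : Matrix n n ℝ,
      M.map ((↑) : ℝ → ℂ) = Complex.ofRealHom.mapMatrix M := fun M => rfl
  simp only [e, map_sum]

theorem trace_map_ofReal (M : Matrix n n ℝ) :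
    (Matrix.trace (M.map ((↑) : ℝ → ℂ))).re = Matrix.trace M := by
  simp only [Matrix.trace, Matrix.diag_apply, Matrix.map_apply]
  rw [← Complex.ofReal_sum, Complex.ofReal_re]

end maps

variable {V : Type*} [Fintype V] [DecidableEq V] (d : ℕ)

/-- The energy shift relating the generator to the Hamiltonian in a field. -/
noncomputable def shiftC (E : Finset (V × V)) (h : ℝ) : ℝ :=
  (d : ℝ) ^ 2 / 8 * E.card + h * (Fintype.card V * ((d : ℝ) / 2))

theorem genR_map (E : Finset (V × V)) (β h : ℝ) :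
    (β • (genR d E h + shiftC d E h • (1 : Matrix _ _ ℝ))).map ((↑) : ℝ → ℂ) =
      -(β : ℂ) • (-((1 / 2 : ℂ) • ∑ e ∈ E, spinDot d e.1 e.2) - (h : ℂ) • magZ (V := V) d) := by
  unfold genR shiftC
  rw [map_ofReal_smul, map_ofReal_add, map_ofReal_sub, map_ofReal_smul, map_ofReal_smul,
    map_ofReal_smul, map_ofReal_sum, map_ofReal_one, numR_map]
  simp only [map_ofReal_sub, map_ofReal_smul, map_ofReal_one, dotR_map, Finset.sum_sub_distrib,
    Finset.sum_const, smul_sub, smul_add, ← Nat.cast_smul_eq_nsmul ℂ]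
  push_cast
  module

end Vale.Agent.H96

namespace Vale.Agent.H96

set_option linter.unusedSectionVars false

theorem partitionFn_real (d N : ℕ) (β h : ℝ) :
    partitionFn d N β h = Real.exp (β * shiftC d (nnPairs N) h) *
      Matrix.trace (NormedSpace.exp (β • genR d (nnPairs N) h)) := by
  unfold partitionFn hamBox
  rw [← genR_map, exp_map_ofReal, trace_map_ofReal]
  have hsplit : β • (genR d (nnPairs N) h + shiftC d (nnPairs N) h • (1 : Matrix _ _ ℝ)) =
      β • genR d (nnPairs N) h + (β * shiftC d (nnPairs N) h) • (1 : Matrix _ _ ℝ) := by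
    rw [smul_add, smul_smul]
  have hcomm : Commute (β • genR d (nnPairs N) h)
      ((β * shiftC d (nnPairs N) h) • (1 : Matrix _ _ ℝ)) :=
    (Commute.one_right _).smul_right _
  rw [hsplit, Matrix.exp_add_of_commute _ _ hcomm, exp_smul_one, Matrix.mul_smul, Matrix.mul_one,
    Matrix.trace_smul, smul_eq_mul]

end Vale.Agent.H96
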