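import Vale.Agent.H96.Coherent2
import Vale.Agent.H96.FGraph

open Matrix

namespace Vale.Agent.H96

set_option linter.unusedSectionVars false

variable {V : Type*} [Fintype V] [DecidableEq V]

theorem geom_tail_le (d : ℕ) {z : ℝ} (hz0 : 0 ≤ z) (hz1 : z < 1) :
    ∑ k : Fin (d + 1), (if (k : ℕ) = 0 then 0 else z ^ (k : ℕ)) ≤ z / (1 - z) := by
  rw [Fin.sum_univ_eq_sum_range (fun m => if m = 0 then 0 else z ^ m) (d + 1),
    Finset.sum_range_succ']
  simp only [Nat.succ_ne_zero, if_false, if_true, add_zero]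
  have h1 : ∑ m ∈ Finset.range d, z ^ (m + 1) = z * ∑ m ∈ Finset.range d, z ^ m := by
    rw [Finset.mul_sum]
    exact Finset.sum_congr rfl fun m _ => by rw [pow_succ]; ring
  rw [h1]
  have h1z : 0 < 1 - z := by linarith
  have hg := geom_sum_mul_neg z d
  have hs : ∑ m ∈ Finset.range d, z ^ m ≤ 1 / (1 - z) := by
    rw [le_div_iff₀ h1z, hg]
    have := pow_nonneg hz0 d
    linarith
  calc z * ∑ m ∈ Finset.range d, z ^ m ≤ z * (1 / (1 - z)) := mul_le_mul_of_nonneg_left hs hz0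
    _ = z / (1 - z) := by ring

/-- The sum over spin configurations of the products of occupation probabilities is bounded by
a sum over occupied sets with the modified activity `z / (1 - z)`. -/
theorem config_sum_le (d : ℕ) (ρ : Finset V → V → ℝ) (hρ0 : ∀ A x, 0 ≤ ρ A x)
    (hρ1 : ∀ A x, ρ A x ≤ 1) {z : ℝ} (hz0 : 0 ≤ z) (hz1 : z < 1) :
    ∑ σ : V → Fin (d + 1), ∏ x, (z * ρ (supp d σ) x) ^ (σ x : ℕ) ≤
      ∑ A ∈ (Finset.univ : Finset V).powerset, ∏ x ∈ A, (z / (1 - z)) * ρ A x := by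
  set u : Finset V → V → Fin (d + 1) → ℝ := fun A x k =>
    if x ∈ A then (if (k : ℕ) = 0 then 0 else z ^ (k : ℕ)) else (if (k : ℕ) = 0 then 1 else 0)
    with hu
  have hu0 : ∀ A x k, 0 ≤ u A x k := by
    intro A x k
    simp only [hu]
    split_ifs <;> first | exact le_refl _ | exact zero_le_one | exact pow_nonneg hz0 _
  have hR0 : ∀ A : Finset V, 0 ≤ ∏ x ∈ A, ρ A x := fun A => Finset.prod_nonneg fun x _ => hρ0 A x
  -- pointwise bound
  have hpt : ∀ σ : V → Fin (d + 1), ∏ x, (z * ρ (supp d σ) x) ^ (σ x : ℕ) ≤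
      ∑ A ∈ (Finset.univ : Finset V).powerset, (∏ x, u A x (σ x)) * ∏ x ∈ A, ρ A x := by
    intro σ
    set A := supp d σ with hA
    have hmem : ∀ x, x ∈ A ↔ (σ x : ℕ) ≠ 0 := by
      intro x
      rw [hA, supp, Finset.mem_filter]
      simp
    have h1 : ∏ x, (z * ρ A x) ^ (σ x : ℕ) ≤ (∏ x, u A x (σ x)) * ∏ x ∈ A, ρ A x := by
      have e : ∏ x ∈ A, ρ A x = ∏ x, (if x ∈ A then ρ A x else 1) := by
        rw [Finset.prod_ite_mem, Finset.univ_inter]
      rw [e, ← Finset.prod_mul_distrib]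
      refine Finset.prod_le_prod (fun x _ => pow_nonneg (mul_nonneg hz0 (hρ0 A x)) _)
        (fun x _ => ?_)
      by_cases hx : x ∈ A
      · have hk : (σ x : ℕ) ≠ 0 := (hmem x).mp hx
        simp only [hu, if_pos hx, if_neg hk]
        rw [mul_pow]
        refine mul_le_mul_of_nonneg_left ?_ (pow_nonneg hz0 _)
        exact pow_le_of_le_one (hρ0 A x) (hρ1 A x) hk
      · have hk : (σ x : ℕ) = 0 := by
          by_contra h
          exact hx ((hmem x).mpr h)
        simp only [hu, if_neg hx, if_pos hk]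
        rw [hk, pow_zero, mul_one]
    refine le_trans h1 ?_
    exact Finset.single_le_sum (f := fun A => (∏ x, u A x (σ x)) * ∏ x ∈ A, ρ A x)
      (fun B _ => mul_nonneg (Finset.prod_nonneg fun x _ => hu0 B x _) (hR0 B))
      (Finset.mem_powerset.mpr (Finset.subset_univ A))
  refine le_trans (Finset.sum_le_sum fun σ _ => hpt σ) ?_
  rw [Finset.sum_comm]
  refine Finset.sum_le_sum fun A _ => ?_
  rw [← Finset.sum_mul]
  have hsum : ∑ σ : V → Fin (d + 1), ∏ x, u A x (σ x) = ∏ x, ∑ k, u A x k := by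
    rw [Finset.prod_univ_sum]
    simp [Fintype.piFinset_univ]
  rw [hsum]
  have hS : ∀ x, ∑ k, u A x k = if x ∈ A then
      ∑ k : Fin (d + 1), (if (k : ℕ) = 0 then 0 else z ^ (k : ℕ)) else 1 := by
    intro x
    by_cases hx : x ∈ A
    · simp only [hu, if_pos hx]
    · simp only [hu, if_neg hx]
      rw [Finset.sum_eq_single (0 : Fin (d + 1))]
      · simp
      · intro k _ hk
        have : (k : ℕ) ≠ 0 := fun h => hk (Fin.ext h)
        rw [if_neg this]
      · intro h; exact absurd (Finset.mem_univ _) h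
  simp only [hS]
  rw [Finset.prod_ite_mem, Finset.univ_inter, ← Finset.prod_mul_distrib]
  refine Finset.prod_le_prod (fun x _ => mul_nonneg ?_ (hρ0 A x)) (fun x _ => ?_)
  · refine Finset.sum_nonneg fun k _ => ?_
    split_ifs
    · exact le_refl _
    · exact pow_nonneg hz0 _
  · exact mul_le_mul_of_nonneg_right (geom_tail_le d hz0 hz1) (hρ0 A x)

end Vale.Agent.H96

namespace Vale.Agent.H96

set_option linter.unusedSectionVars false

variable {V : Type*} [Fintype V] [DecidableEq V]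

/-- Upper bound on the trace of the Heisenberg semigroup in a field, in terms of traces of
powers of the one-particle heat kernel. -/
theorem trace_exp_genR_le (d : ℕ) {E : Finset (V × V)} (hEs : ∀ e ∈ E, (e.2, e.1) ∈ E)
    (hEi : ∀ e ∈ E, e.1 ≠ e.2) {h t : ℝ} (ht : 0 ≤ t) (hht : 0 < h * t) {a : ℝ} (ha0 : 0 ≤ a)
    (ha1 : a < 1)
    (hza : Real.exp (-(h * t)) / (1 - Real.exp (-(h * t))) * Real.exp a ≤ a) {T : ℝ}
    (hT : ∀ l : ℕ, 1 ≤ l → Matrix.trace (hker E ((d : ℝ) / 2 * t) ^ l) ≤ T) :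
    Matrix.trace (NormedSpace.exp (t • genR d E h)) ≤ Real.exp (a * T / (1 - a) ^ 2) := by
  set q : Matrix V V ℝ := hker E ((d : ℝ) / 2 * t) with hq
  have hs : (0 : ℝ) ≤ (d : ℝ) / 2 * t := by positivity
  set z : ℝ := Real.exp (-(h * t)) with hz
  have hz0 : 0 < z := Real.exp_pos _
  have hz1 : z < 1 := by
    rw [hz, ← Real.exp_zero]
    exact Real.exp_lt_exp.mpr (by linarith)
  have hq0 : ∀ x y, 0 ≤ q x y := fun x y => hker_nonneg E hs x y
  have hqs : ∀ x y, q x y = q y x := fun x y => hker_symm hEs _ x y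
  have hrow : ∀ x, ∑ y, q x y ≤ 1 := fun x => (hker_row_sum E hs x).le
  set ρ : Finset V → V → ℝ := fun A x => ∑ y ∈ A, q x y with hρ
  have hρ0 : ∀ A x, 0 ≤ ρ A x := fun A x => Finset.sum_nonneg fun y _ => hq0 x y
  have hρ1 : ∀ A x, ρ A x ≤ 1 := fun A x =>
    le_trans (Finset.sum_le_sum_of_subset_of_nonneg (Finset.subset_univ _)
      (fun y _ _ => hq0 x y)) (hrow x)
  have h1 : Matrix.trace (NormedSpace.exp (t • genR d E h)) ≤
      ∑ σ : V → Fin (d + 1), ∏ x, (z * ρ (supp d σ) x) ^ (σ x : ℕ) := by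
    unfold Matrix.trace
    refine Finset.sum_le_sum fun σ _ => ?_
    rw [Matrix.diag_apply]
    refine le_trans (exp_genR_diag_le d hEs hEi h ht σ) (le_of_eq ?_)
    refine Finset.prod_congr rfl fun x _ => ?_
    rw [fld_eq]
  have h2 := config_sum_le d ρ hρ0 hρ1 hz0.le hz1
  have h3 : ∑ A ∈ (Finset.univ : Finset V).powerset, ∏ x ∈ A, (z / (1 - z)) * ρ A x =
      Psi q (z / (1 - z)) (fun _ => 0) Finset.univ := by
    unfold Psi wgt
    refine Finset.sum_congr rfl fun A _ => Finset.prod_congr rfl fun x _ => ?_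
    rw [zero_add]
    congr 1
    exact Finset.sum_congr rfl fun y _ => hqs x y
  have hz' : 0 ≤ z / (1 - z) := div_nonneg hz0.le (by linarith)
  have h4 := Psi_zero_le hq0 hqs hrow hz' ha0 hza ha1 hT
  rw [h3] at h2
  linarith

end Vale.Agent.H96
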