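import Vale.Agent.H96.Model

open Matrix

namespace Vale.Agent.H96

set_option linter.unusedSectionVars false

theorem card_site (N : ℕ) : Fintype.card (Site N) = (2 * N + 1) ^ 3 := by
  simp [Site]

theorem log_partition_diff (d N r : ℕ) (hd : 1 ≤ d) (hr : 1 ≤ r) {β : ℝ} (hβ : 0 ≤ β) (h : ℝ) :
    Real.log (partitionFn d N β h) - Real.log (partitionFn d N β 0) ≤
      (Fintype.card (Site N) : ℝ) *
        Real.log (∑ k : Fin (d + 1), Real.exp (β * h * ((d : ℝ) / 2 - ((k : ℕ) : ℝ)))) -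
      ((((2 * N + 1) / (4 * r)) ^ 3 : ℕ) : ℝ) *
        Real.log (1 + Real.exp (-(12 * (d : ℝ) * β / (r : ℝ) ^ 2))) := by
  have hu := partition_upper d N hβ h
  have hl := partition_lower d N r hd hr hβ
  have hpos := partitionFn_pos d N β h
  have hS : 0 < ∑ k : Fin (d + 1), Real.exp (β * h * ((d : ℝ) / 2 - ((k : ℕ) : ℝ))) :=
    Finset.sum_pos (fun _ _ => Real.exp_pos _) Finset.univ_nonempty
  have h1 : (0 : ℝ) < 1 + Real.exp (-(12 * (d : ℝ) * β / (r : ℝ) ^ 2)) := by positivity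
  have hu' := Real.log_le_log hpos hu
  have hl' := Real.log_le_log (by positivity) hl
  rw [Real.log_mul (Real.exp_pos _).ne' (pow_pos hS _).ne', Real.log_exp, Real.log_pow] at hu'
  rw [Real.log_mul (Real.exp_pos _).ne' (pow_pos h1 _).ne', Real.log_exp, Real.log_pow] at hl'
  linarith

theorem log_sum_le (d : ℕ) {t : ℝ} (ht : 0 ≤ t) :
    Real.log (∑ k : Fin (d + 1), Real.exp (t * ((d : ℝ) / 2 - ((k : ℕ) : ℝ)))) ≤
      t * ((d : ℝ) / 2) + (d : ℝ) * Real.exp (-t) := by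
  have h1 : ∑ k : Fin (d + 1), Real.exp (t * ((d : ℝ) / 2 - ((k : ℕ) : ℝ))) =
      Real.exp (t * ((d : ℝ) / 2)) * ∑ k : Fin (d + 1), Real.exp (-(t * ((k : ℕ) : ℝ))) := by
    rw [Finset.mul_sum]
    refine Finset.sum_congr rfl fun k _ => ?_
    rw [← Real.exp_add]
    congr 1
    ring
  have h2 : ∑ k : Fin (d + 1), Real.exp (-(t * ((k : ℕ) : ℝ))) ≤ 1 + (d : ℝ) * Real.exp (-t) := by
    rw [Fin.sum_univ_succ]
    simp only [Fin.val_zero, Nat.cast_zero, mul_zero, neg_zero, Real.exp_zero, Fin.val_succ]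
    have hc : ∑ k : Fin d, Real.exp (-(t * (((k : ℕ) + 1 : ℕ) : ℝ))) ≤ (d : ℝ) * Real.exp (-t) := by
      calc ∑ k : Fin d, Real.exp (-(t * (((k : ℕ) + 1 : ℕ) : ℝ)))
          ≤ ∑ _k : Fin d, Real.exp (-t) := by
            apply Finset.sum_le_sum
            intro k _
            apply Real.exp_le_exp.mpr
            have : (1 : ℝ) ≤ (((k : ℕ) + 1 : ℕ) : ℝ) := by
              push_cast; linarith [Nat.cast_nonneg (α := ℝ) (k : ℕ)]
            nlinarith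
        _ = (d : ℝ) * Real.exp (-t) := by simp
    linarith
  have h3 : 0 < ∑ k : Fin (d + 1), Real.exp (-(t * ((k : ℕ) : ℝ))) :=
    Finset.sum_pos (fun _ _ => Real.exp_pos _) Finset.univ_nonempty
  rw [h1, Real.log_mul (Real.exp_pos _).ne' h3.ne', Real.log_exp]
  have h4 : Real.log (∑ k : Fin (d + 1), Real.exp (-(t * ((k : ℕ) : ℝ)))) ≤
      (d : ℝ) * Real.exp (-t) := by
    have := Real.log_le_sub_one_of_pos h3
    linarith
  linarith

theorem blocks_count {N r : ℕ} (hr : 1 ≤ r) (hN : 4 * r ≤ 2 * N + 1) :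
    ((2 * N + 1 : ℕ) : ℝ) ^ 3 / (512 * (r : ℝ) ^ 3) ≤
      ((((2 * N + 1) / (4 * r)) ^ 3 : ℕ) : ℝ) := by
  set L := 2 * N + 1 with hL
  set k := L / (4 * r) with hk
  have hℓ : 0 < 4 * r := by omega
  have hr' : (0 : ℝ) < r := by exact_mod_cast hr
  have hk1 : 1 ≤ k := (Nat.one_le_div_iff hℓ).mpr hN
  have h1 := Nat.div_add_mod L (4 * r)
  have h2 := Nat.mod_lt L hℓ
  have h3 : 4 * r ≤ 4 * r * k := Nat.le_mul_of_pos_right _ hk1
  have h4 : L ≤ 8 * r * k := by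
    rw [← hk] at h1
    have : 8 * r * k = 4 * r * k + 4 * r * k := by ring
    omega
  have h5 : (L : ℝ) ≤ 8 * (r : ℝ) * (k : ℝ) := by exact_mod_cast h4
  have h6 : (L : ℝ) / (8 * (r : ℝ)) ≤ (k : ℝ) := by
    rw [div_le_iff₀ (by positivity)]
    linarith
  have h7 : ((L : ℝ) / (8 * (r : ℝ))) ^ 3 ≤ (k : ℝ) ^ 3 :=
    pow_le_pow_left₀ (by positivity) h6 3
  calc (L : ℝ) ^ 3 / (512 * (r : ℝ) ^ 3) = ((L : ℝ) / (8 * (r : ℝ))) ^ 3 := by
        rw [div_pow]; congr 1; ring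
    _ ≤ (k : ℝ) ^ 3 := h7
    _ = ((k ^ 3 : ℕ) : ℝ) := by push_cast; ring

end Vale.Agent.H96
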