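import Vale.Agent.H96.Thermo

open Matrix

namespace Vale.Agent.H96

set_option linter.unusedSectionVars false

theorem pressure_diff_le (d N r : ℕ) (hd : 1 ≤ d) (hr : 1 ≤ r) (hN : 4 * r ≤ 2 * N + 1)
    {β : ℝ} (hβ : 0 < β) {h : ℝ} (hh : 0 ≤ h) :
    pressure d N β h - pressure d N β 0 ≤
      h * ((d : ℝ) / 2) + ((d : ℝ) * Real.exp (-(β * h)) -
        Real.log (1 + Real.exp (-(12 * (d : ℝ) * β / (r : ℝ) ^ 2))) / (512 * (r : ℝ) ^ 3)) / β := by
  have hr' : (0 : ℝ) < r := by exact_mod_cast hr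
  have h1 := log_partition_diff d N r hd hr hβ.le h
  have h2 := log_sum_le d (mul_nonneg hβ.le hh)
  have h3 := blocks_count hr hN
  have hcard : (Fintype.card (Site N) : ℝ) = ((2 * N + 1 : ℕ) : ℝ) ^ 3 := by
    rw [card_site]; push_cast; ring
  have hcpos : (0 : ℝ) < (Fintype.card (Site N) : ℝ) := by
    rw [hcard]; positivity
  have hlog : 0 ≤ Real.log (1 + Real.exp (-(12 * (d : ℝ) * β / (r : ℝ) ^ 2))) :=
    Real.log_nonneg (by linarith [Real.exp_pos (-(12 * (d : ℝ) * β / (r : ℝ) ^ 2))])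
  set G := Real.log (1 + Real.exp (-(12 * (d : ℝ) * β / (r : ℝ) ^ 2))) with hG
  set C := (Fintype.card (Site N) : ℝ) with hC
  have h4 : C / (512 * (r : ℝ) ^ 3) * G ≤ ((((2 * N + 1) / (4 * r)) ^ 3 : ℕ) : ℝ) * G := by
    apply mul_le_mul_of_nonneg_right _ hlog
    rw [hcard]; exact h3
  have h5 : Real.log (partitionFn d N β h) - Real.log (partitionFn d N β 0) ≤
      C * (β * h * ((d : ℝ) / 2) + (d : ℝ) * Real.exp (-(β * h))) -
        C / (512 * (r : ℝ) ^ 3) * G := by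
    have := mul_le_mul_of_nonneg_left h2 hcpos.le
    linarith
  unfold pressure
  rw [← sub_div, div_le_iff₀ (mul_pos hβ hcpos)]
  refine le_trans h5 (le_of_eq ?_)
  field_simp
  ring

theorem pressure_convex (d N : ℕ) {β : ℝ} (hβ : 0 < β) (h : ℝ) {θ : ℝ} (h0 : 0 < θ)
    (h1 : θ < 1) :
    pressure d N β (θ * h) ≤ θ * pressure d N β h + (1 - θ) * pressure d N β 0 := by
  have hA : (-(β : ℂ) • (hamBox d N - (h : ℂ) • magZ (V := Site N) d)).IsHermitian := by
    rw [field_eq]; exact field_isHermitian d (nnPairs N) nnPairs_ne _ _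
  have hB : (-(β : ℂ) • (hamBox d N - ((0 : ℝ) : ℂ) • magZ (V := Site N) d)).IsHermitian := by
    rw [field_eq]; exact field_isHermitian d (nnPairs N) nnPairs_ne _ _
  have hconv := log_trExp_convex hA hB h0 h1
  have e : (θ : ℂ) • (-(β : ℂ) • (hamBox d N - (h : ℂ) • magZ (V := Site N) d)) +
      (((1 - θ : ℝ)) : ℂ) • (-(β : ℂ) • (hamBox d N - ((0 : ℝ) : ℂ) • magZ (V := Site N) d)) =
      -(β : ℂ) • (hamBox d N - (((θ * h : ℝ)) : ℂ) • magZ (V := Site N) d) := by
    push_cast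
    module
  rw [e] at hconv
  have hcpos : (0 : ℝ) < (Fintype.card (Site N) : ℝ) := by
    rw [card_site]; positivity
  unfold pressure partitionFn
  unfold trExp at hconv
  rw [← mul_div_assoc, ← mul_div_assoc, ← add_div]
  exact div_le_div_of_nonneg_right hconv (mul_pos hβ hcpos).le

end Vale.Agent.H96
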