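import Vale.Agent.H96.Magnon

open Matrix

namespace Vale.Agent.H96

set_option linter.unusedSectionVars false

variable {V : Type*} [Fintype V] [DecidableEq V] (d : ℕ)

theorem adjoint_dot {n : Type*} [Fintype n] (M : Matrix n n ℂ) (v w : n → ℂ) :
    star (M *ᵥ v) ⬝ᵥ w = star v ⬝ᵥ (Mᴴ *ᵥ w) := by
  rw [Matrix.star_mulVec, Matrix.dotProduct_mulVec]

/-- Site `x` is in its highest-weight state in the vector `ψ`. -/
def IsVac (x : V) (ψ : (V → Fin (d + 1)) → ℂ) : Prop :=
  siteOp x (spinPlus d) *ᵥ ψ = 0 ∧ siteOp x (spinZ d) *ᵥ ψ = ((d : ℂ) / 2) • ψ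

theorem isVac_vacVec (x : V) : IsVac d x (vacVec d) := ⟨spinPlus_vac d x, spinZ_vac d x⟩

theorem isVac_crea {x : V} {ψ : (V → Fin (d + 1)) → ℂ} (h : IsVac d x ψ) {g : V → ℝ}
    (hg : g x = 0) : IsVac d x (crea d g *ᵥ ψ) := by
  constructor
  · rw [Matrix.mulVec_mulVec, plus_crea, Matrix.add_mulVec, ← Matrix.mulVec_mulVec, h.1, hg]
    simp
  · rw [Matrix.mulVec_mulVec, z_crea, Matrix.sub_mulVec, ← Matrix.mulVec_mulVec, h.2, hg]
    simp [Matrix.mulVec_smul]

theorem anni_crea (g g' : V → ℝ) :
    anni d g * crea d g' = crea d g' * anni d g +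
      ∑ z : V, ((2 * g z * g' z : ℝ) : ℂ) • siteOp z (spinZ d) := by
  have : anni d g = ∑ x : V, ((g x : ℝ) : ℂ) • siteOp x (spinPlus d) := rfl
  rw [this, Finset.sum_mul, Finset.mul_sum, ← Finset.sum_add_distrib]
  refine Finset.sum_congr rfl fun z _ => ?_
  rw [smul_mul_assoc, plus_crea, smul_add, mul_smul_comm, smul_smul]
  congr 2
  push_cast; ring

theorem anni_vac (g : V → ℝ) : anni d g *ᵥ vacVec (V := V) d = 0 := by
  unfold anni
  rw [Matrix.sum_mulVec]
  apply Finset.sum_eq_zero
  intro x _
  rw [Matrix.smul_mulVec, spinPlus_vac, smul_zero]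

variable {ι : Type*} [DecidableEq ι] (blk : V → ι) (f : V → ℝ)

/-- The amplitude `f` restricted to the block `i`. -/
def amp (i : ι) : V → ℝ := fun x => if blk x = i then f x else 0

/-- The product trial state with one magnon (amplitude `f`) in each block of the list. -/
noncomputable def trial : List ι → ((V → Fin (d + 1)) → ℂ)
  | [] => vacVec d
  | i :: l => crea d (amp blk f i) *ᵥ trial l

theorem isVac_trial (x : V) (l : List ι) (h : ∀ i ∈ l, amp blk f i x = 0) :
    IsVac d x (trial d blk f l) := by
  induction l with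
  | nil => exact isVac_vacVec d x
  | cons i l ih =>
    exact isVac_crea d (ih fun j hj => h j (List.mem_cons_of_mem _ hj))
      (h i List.mem_cons_self)

theorem amp_mul_amp_of_ne {i j : ι} (hij : i ≠ j) (z : V) :
    amp blk f i z * amp blk f j z = 0 := by
  unfold amp
  by_cases h : blk z = i
  · have h' : blk z ≠ j := by rw [h]; exact hij
    rw [if_neg h', mul_zero]
  · rw [if_neg h, zero_mul]

theorem anni_trial (i : ι) (l : List ι) (hl : l.Nodup)
    (hnorm : ∀ j ∈ l, (d : ℝ) * ∑ z, amp blk f j z ^ 2 = 1) :
    anni d (amp blk f i) *ᵥ trial d blk f l =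
      if i ∈ l then trial d blk f (l.erase i) else 0 := by
  induction l with
  | nil => simp [trial, anni_vac]
  | cons j l ih =>
    rw [List.nodup_cons] at hl
    have ih' := ih hl.2 (fun k hk => hnorm k (List.mem_cons_of_mem _ hk))
    show anni d (amp blk f i) *ᵥ (crea d (amp blk f j) *ᵥ trial d blk f l) = _
    rw [Matrix.mulVec_mulVec, anni_crea, Matrix.add_mulVec, ← Matrix.mulVec_mulVec, ih',
      Matrix.sum_mulVec]
    by_cases hji : j = i
    · subst hji
      rw [if_neg hl.1, Matrix.mulVec_zero, zero_add, if_pos List.mem_cons_self,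
        List.erase_cons_head]
      have hz : ∀ z : V, ((((2 * amp blk f j z * amp blk f j z : ℝ)) : ℂ) •
          siteOp z (spinZ d)) *ᵥ trial d blk f l =
          ((((d : ℝ) * amp blk f j z ^ 2 : ℝ)) : ℂ) • trial d blk f l := by
        intro z
        by_cases hzj : amp blk f j z = 0
        · rw [hzj]; simp
        · have hbz : blk z = j := by
            by_contra hne
            exact hzj (by unfold amp; rw [if_neg hne])
          have hv : IsVac d z (trial d blk f l) := by
            apply isVac_trial
            intro k hk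
            unfold amp
            rw [if_neg]
            rw [hbz]
            rintro rfl
            exact hl.1 hk
          rw [Matrix.smul_mulVec, hv.2, smul_smul]
          congr 1
          push_cast; ring
      simp only [hz]
      rw [← Finset.sum_smul, ← Complex.ofReal_sum, ← Finset.mul_sum, hnorm j List.mem_cons_self]
      simp
    · have hz : ∀ z : V, ((((2 * amp blk f i z * amp blk f j z : ℝ)) : ℂ) •
          siteOp z (spinZ d)) *ᵥ trial d blk f l = 0 := by
        intro z
        rw [mul_assoc, amp_mul_amp_of_ne blk f (Ne.symm hji)]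
        simp
      simp only [hz, Finset.sum_const_zero, add_zero]
      have hmem : i ∈ j :: l ↔ i ∈ l := by
        rw [List.mem_cons]
        constructor
        · rintro (h | h)
          · exact absurd h.symm hji
          · exact h
        · exact Or.inr
      by_cases hil : i ∈ l
      · rw [if_pos hil, if_pos (hmem.mpr hil), List.erase_cons_tail (by simpa using hji)]
        rfl
      · rw [if_neg hil, if_neg (fun h => hil (hmem.mp h)), Matrix.mulVec_zero]

end Vale.Agent.H96
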