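import Vale.Agent.H96.Trial

open Matrix

namespace Vale.Agent.H96

set_option linter.unusedSectionVars false

variable {V : Type*} [Fintype V] [DecidableEq V] (d : ℕ)

theorem anni_conjTranspose (g : V → ℝ) : (anni d g)ᴴ = crea d g := by
  rw [← crea_conjTranspose, Matrix.conjTranspose_conjTranspose]

variable {ι : Type*} [DecidableEq ι] (blk : V → ι) (f : V → ℝ)

theorem inner_trial (l : List ι) :
    ∀ l' : List ι, l.Nodup → l'.Nodup → (∀ j ∈ l', (d : ℝ) * ∑ z, amp blk f j z ^ 2 = 1) →
      star (trial d blk f l) ⬝ᵥ trial d blk f l' =
        if l.toFinset = l'.toFinset then 1 else 0 := by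
  induction l with
  | nil =>
    intro l' _ _ _
    cases l' with
    | nil => simp [trial, vac_norm]
    | cons j l'' =>
      show star (vacVec d) ⬝ᵥ (crea d (amp blk f j) *ᵥ trial d blk f l'') = _
      have h := adjoint_dot (anni d (amp blk f j)) (vacVec d) (trial d blk f l'')
      rw [anni_conjTranspose, anni_vac] at h
      rw [← h, if_neg]
      · simp
      · rw [List.toFinset_cons, List.toFinset_nil]
        exact (Finset.insert_ne_empty _ _).symm
  | cons i l ih =>
    intro l' hl hl' hn'
    rw [List.nodup_cons] at hl
    show star (crea d (amp blk f i) *ᵥ trial d blk f l) ⬝ᵥ trial d blk f l' = _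
    rw [adjoint_dot, crea_conjTranspose, anni_trial d blk f i l' hl' hn']
    by_cases hi : i ∈ l'
    · rw [if_pos hi, ih (l'.erase i) hl.2 (hl'.erase i)
        (fun k hk => hn' k (List.mem_of_mem_erase hk))]
      have key : (l.toFinset = (l'.erase i).toFinset) ↔ ((i :: l).toFinset = l'.toFinset) := by
        constructor
        · intro h
          ext a
          rw [List.toFinset_cons, Finset.mem_insert, h, List.mem_toFinset, List.mem_toFinset,
            hl'.mem_erase_iff]
          constructor
          · rintro (rfl | h1)
            · exact hi
            · exact h1.2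
          · intro h1
            by_cases hai : a = i
            · exact Or.inl hai
            · exact Or.inr ⟨hai, h1⟩
        · intro h
          ext a
          rw [List.mem_toFinset, List.mem_toFinset, hl'.mem_erase_iff, ← List.mem_toFinset (l := l'),
            ← h, List.toFinset_cons, Finset.mem_insert, List.mem_toFinset]
          constructor
          · intro h1
            refine ⟨?_, Or.inr h1⟩
            rintro rfl
            exact hl.1 h1
          · rintro ⟨h1, h2 | h2⟩
            · exact absurd h2 h1
            · exact h2
      by_cases h : l.toFinset = (l'.erase i).toFinset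
      · rw [if_pos h, if_pos (key.mp h)]
      · rw [if_neg h, if_neg (fun h' => h (key.mpr h'))]
    · rw [if_neg hi, dotProduct_zero, if_neg]
      intro h
      apply hi
      rw [← List.mem_toFinset, ← h, List.toFinset_cons]
      exact Finset.mem_insert_self _ _

theorem trial_erase (i : ι) (l : List ι) (hi : i ∈ l) :
    trial d blk f l = crea d (amp blk f i) *ᵥ trial d blk f (l.erase i) := by
  induction l with
  | nil => simp at hi
  | cons j l ih =>
    by_cases hji : j = i
    · subst hji
      rw [List.erase_cons_head]
      rfl
    · have hi' : i ∈ l := by
        rcases List.mem_cons.mp hi with h | h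
        · exact absurd h.symm hji
        · exact h
      rw [List.erase_cons_tail (by simpa using hji)]
      show crea d (amp blk f j) *ᵥ trial d blk f l =
        crea d (amp blk f i) *ᵥ (crea d (amp blk f j) *ᵥ trial d blk f (l.erase i))
      rw [ih hi', Matrix.mulVec_mulVec, Matrix.mulVec_mulVec, crea_comm]

end Vale.Agent.H96
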