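import Vale.Agent.H96.Heis2

open Matrix

namespace Vale.Agent.H96

set_option linter.unusedSectionVars false

theorem isHermitian_diagonal_real {n : Type*} [Fintype n] [DecidableEq n] (f : n → ℝ) :
    (Matrix.diagonal (fun i => (f i : ℂ))).IsHermitian := by
  unfold Matrix.IsHermitian
  rw [Matrix.diagonal_conjTranspose]
  congr 1
  ext σ
  simp

variable {V : Type*} [Fintype V] [DecidableEq V] (d : ℕ)

theorem sum_prod_conf (g : Fin (d + 1) → ℝ) :
    ∑ σ : V → Fin (d + 1), ∏ x, g (σ x) = (∑ k, g k) ^ Fintype.card V := by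
  have := Finset.prod_univ_sum (fun _ : V => (Finset.univ : Finset (Fin (d + 1))))
    (fun (_ : V) (k : Fin (d + 1)) => g k)
  rw [Fintype.piFinset_univ] at this
  rw [← this, Finset.prod_const, Finset.card_univ]

theorem field_isHermitian (E : Finset (V × V)) (hE : ∀ e ∈ E, e.1 ≠ e.2) (β h : ℝ) :
    (-(β : ℂ) • (heis d E - (h : ℂ) • magZ d)).IsHermitian := by
  have e : -(β : ℂ) = (((-β : ℝ)) : ℂ) := by push_cast; ring
  rw [e]
  exact isHermitian_real_smul ((heis_isHermitian d E hE).sub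
    (isHermitian_real_smul (magZ_isHermitian d) h)) _

theorem qform_field (E : Finset (V × V)) (β h : ℝ) (v : (V → Fin (d + 1)) → ℂ) :
    qform (-(β : ℂ) • (heis d E - (h : ℂ) • magZ d)) v =
      -β * (qform (heis d E) v - h * qform (magZ d) v) := by
  have e : -(β : ℂ) = (((-β : ℝ)) : ℂ) := by push_cast; ring
  rw [e, qform_real_smul, qform_sub, qform_real_smul]

theorem trExp_heis_le (E : Finset (V × V)) (hE : ∀ e ∈ E, e.1 ≠ e.2) {β : ℝ} (hβ : 0 ≤ β)
    (h : ℝ) :
    trExp (-(β : ℂ) • (heis d E - (h : ℂ) • magZ d)) ≤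
      Real.exp (β * (((d : ℝ) / 2) ^ 2 * E.card)) *
        (∑ k : Fin (d + 1), Real.exp (β * h * ((d : ℝ) / 2 - ((k : ℕ) : ℝ)))) ^
          Fintype.card V := by
  set c : ℝ := ((d : ℝ) / 2) ^ 2 * E.card with hc
  let b : (V → Fin (d + 1)) → ℝ := fun σ =>
    β * c + β * h * ∑ x, ((d : ℝ) / 2 - ((σ x : ℕ) : ℝ))
  have hB : (Matrix.diagonal (fun σ => ((b σ : ℝ) : ℂ))).IsHermitian :=
    isHermitian_diagonal_real b
  have hmono := trExp_mono (field_isHermitian d E hE β h) hB (fun v => by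
    rw [qform_field, qform_diagonal, magZ_eq, qform_diagonal]
    have h1 := qform_heis_ge d E hE v
    rw [qform_one, ← hc] at h1
    have h2 : ∑ σ, b σ * Complex.normSq (v σ) =
        β * c * ∑ σ, Complex.normSq (v σ) +
          β * h * ∑ σ, (∑ x, ((d : ℝ) / 2 - ((σ x : ℕ) : ℝ))) * Complex.normSq (v σ) := by
      rw [Finset.mul_sum, Finset.mul_sum, ← Finset.sum_add_distrib]
      refine Finset.sum_congr rfl fun σ _ => ?_
      simp only [b]
      ring
    rw [h2]
    have h3 := mul_le_mul_of_nonneg_left h1 hβ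
    linarith)
  refine le_trans hmono (le_of_eq ?_)
  rw [trExp_diagonal]
  simp only [b, Real.exp_add, Finset.mul_sum, Real.exp_sum]
  rw [← Finset.mul_sum, sum_prod_conf d (fun k => Real.exp (β * h * ((d : ℝ) / 2 - ((k : ℕ) : ℝ))))]

end Vale.Agent.H96
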