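import Vale.Agent.H96.Reduce
import Vale.Agent.H96.BoxEig
import Vale.Agent.H96.Final

open Matrix Filter Topology

namespace Vale.Agent.H96

set_option linter.unusedSectionVars false

theorem nnPairs_symm {N : ℕ} : ∀ e ∈ nnPairs N, (e.2, e.1) ∈ nnPairs N := by
  intro e he
  unfold nnPairs at he ⊢
  rw [Finset.mem_filter] at he ⊢
  refine ⟨Finset.mem_univ _, ?_⟩
  have := he.2
  unfold l1dist at this ⊢
  simp only [Nat.dist_comm] at this ⊢
  exact this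

theorem box_trace_pow_le (N : ℕ) {s : ℝ} (hs : 0 < s) (l : ℕ) (hl : 1 ≤ l) :
    Matrix.trace (hker (nnPairs N) s ^ l) ≤ (2 + ((2 * N + 1 : ℕ) : ℝ) / Real.sqrt s) ^ 3 := by
  rw [hker_pow]
  have hl' : (1 : ℝ) ≤ l := by exact_mod_cast hl
  have hls : 0 < (l : ℝ) * s := by positivity
  refine le_trans (box_trace_le N hls) ?_
  have hss : 0 < Real.sqrt s := Real.sqrt_pos.mpr hs
  have h1 : Real.sqrt s ≤ Real.sqrt ((l : ℝ) * s) := Real.sqrt_le_sqrt (by nlinarith)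
  have h2 : ((2 * N + 1 : ℕ) : ℝ) / Real.sqrt ((l : ℝ) * s) ≤
      ((2 * N + 1 : ℕ) : ℝ) / Real.sqrt s :=
    div_le_div_of_nonneg_left (by positivity) hss h1
  exact pow_le_pow_left₀ (by positivity) (by linarith) 3

/-- Upper bound on the partition function in a field, of the order of the ideal magnon gas. -/
theorem partition_upper2 (d N : ℕ) (hd : 1 ≤ d) {β h : ℝ} (hβ : 0 < β) (hh : 0 < h) {a : ℝ}
    (ha0 : 0 ≤ a) (ha1 : a < 1)
    (hza : Real.exp (-(h * β)) / (1 - Real.exp (-(h * β))) * Real.exp a ≤ a) :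
    partitionFn d N β h ≤ Real.exp (β * shiftC d (nnPairs N) h) *
      Real.exp (a * (2 + ((2 * N + 1 : ℕ) : ℝ) / Real.sqrt ((d : ℝ) / 2 * β)) ^ 3 /
        (1 - a) ^ 2) := by
  rw [partitionFn_real]
  have hd' : (1 : ℝ) ≤ d := by exact_mod_cast hd
  have hs : (0 : ℝ) < (d : ℝ) / 2 * β := by positivity
  refine mul_le_mul_of_nonneg_left ?_ (Real.exp_pos _).le
  exact trace_exp_genR_le d nnPairs_symm nnPairs_ne hβ.le (mul_pos hh hβ) ha0 ha1 hza
    (fun l hl => box_trace_pow_le N hs l hl)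

end Vale.Agent.H96

namespace Vale.Agent.H96

set_option linter.unusedSectionVars false

theorem pressure_diff_le2 (d N r : ℕ) (hd : 1 ≤ d) (hr : 1 ≤ r) (hN : 4 * r ≤ 2 * N + 1)
    {β h : ℝ} (hβ : 0 < β) (hh : 0 < h)
    (hN2 : 2 * Real.sqrt ((d : ℝ) / 2 * β) ≤ ((2 * N + 1 : ℕ) : ℝ)) {a : ℝ}
    (ha0 : 0 ≤ a) (ha1 : a < 1)
    (hza : Real.exp (-(h * β)) / (1 - Real.exp (-(h * β))) * Real.exp a ≤ a) :
    pressure d N β h - pressure d N β 0 ≤
      h * ((d : ℝ) / 2) + (8 * a / ((1 - a) ^ 2 * Real.sqrt ((d : ℝ) / 2 * β) ^ 3) -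
        Real.log (1 + Real.exp (-(12 * (d : ℝ) * β / (r : ℝ) ^ 2))) / (512 * (r : ℝ) ^ 3)) / β := by
  have hd' : (1 : ℝ) ≤ d := by exact_mod_cast hd
  have hr' : (0 : ℝ) < r := by exact_mod_cast hr
  have hs : (0 : ℝ) < (d : ℝ) / 2 * β := by positivity
  have hss : 0 < Real.sqrt ((d : ℝ) / 2 * β) := Real.sqrt_pos.mpr hs
  set S := Real.sqrt ((d : ℝ) / 2 * β) with hS
  set G := Real.log (1 + Real.exp (-(12 * (d : ℝ) * β / (r : ℝ) ^ 2))) with hG
  have hG0 : 0 ≤ G :=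
    Real.log_nonneg (by linarith [Real.exp_pos (-(12 * (d : ℝ) * β / (r : ℝ) ^ 2))])
  have hu := partition_upper2 d N hd hβ hh ha0 ha1 hza
  have hl := partition_lower d N r hd hr hβ.le
  have hpos := partitionFn_pos d N β h
  have h1 : (0 : ℝ) < 1 + Real.exp (-(12 * (d : ℝ) * β / (r : ℝ) ^ 2)) := by positivity
  have hu' := Real.log_le_log hpos hu
  have hl' := Real.log_le_log (by positivity) hl
  rw [Real.log_mul (Real.exp_pos _).ne' (Real.exp_pos _).ne', Real.log_exp, Real.log_exp] at hu'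
  rw [Real.log_mul (Real.exp_pos _).ne' (pow_pos h1 _).ne', Real.log_exp, Real.log_pow] at hl'
  have hcard : (Fintype.card (Site N) : ℝ) = ((2 * N + 1 : ℕ) : ℝ) ^ 3 := by
    rw [card_site]; push_cast; ring
  set n : ℝ := ((2 * N + 1 : ℕ) : ℝ) with hn
  have hn0 : 0 < n := by rw [hn]; positivity
  set C := (Fintype.card (Site N) : ℝ) with hC
  have hcpos : 0 < C := by rw [hcard]; positivity
  have h3 := blocks_count hr hN
  rw [← hn] at h3
  -- the trace term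
  have hT : (2 + n / S) ^ 3 ≤ 8 * C / S ^ 3 := by
    have h2 : (2 : ℝ) ≤ n / S := by
      rw [le_div_iff₀ hss]; linarith
    have h4 : (2 + n / S) ^ 3 ≤ (2 * (n / S)) ^ 3 :=
      pow_le_pow_left₀ (by positivity) (by linarith) 3
    have h5 : (2 * (n / S)) ^ 3 = 8 * C / S ^ 3 := by
      rw [hcard]; field_simp; ring
    linarith
  have h1a : 0 < 1 - a := by linarith
  have hT2 : a * (2 + n / S) ^ 3 / (1 - a) ^ 2 ≤ C * (8 * a / ((1 - a) ^ 2 * S ^ 3)) := by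
    have e : C * (8 * a / ((1 - a) ^ 2 * S ^ 3)) = a * (8 * C / S ^ 3) / (1 - a) ^ 2 := by
      field_simp
    rw [e]
    exact div_le_div_of_nonneg_right (mul_le_mul_of_nonneg_left hT ha0) (by positivity)
  have h4 : C / (512 * (r : ℝ) ^ 3) * G ≤ ((((2 * N + 1) / (4 * r)) ^ 3 : ℕ) : ℝ) * G := by
    apply mul_le_mul_of_nonneg_right _ hG0
    rw [hcard]; exact h3
  have hshift : β * shiftC d (nnPairs N) h - β / 2 * (((d : ℝ) / 2) ^ 2 * (nnPairs N).card) =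
      β * h * C * ((d : ℝ) / 2) := by
    unfold shiftC
    rw [hC]
    ring
  have h5 : Real.log (partitionFn d N β h) - Real.log (partitionFn d N β 0) ≤
      β * h * C * ((d : ℝ) / 2) + C * (8 * a / ((1 - a) ^ 2 * S ^ 3)) -
        C / (512 * (r : ℝ) ^ 3) * G := by
    linarith
  unfold pressure
  rw [← sub_div, div_le_iff₀ (mul_pos hβ hcpos)]
  refine le_trans h5 (le_of_eq ?_)
  field_simp
  ring

end Vale.Agent.H96

namespace Vale.Agent.H96

set_option linter.unusedSectionVars false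

theorem exp18 : (65000000 : ℝ) ≤ Real.exp 18 := by
  have h1 : Real.exp 18 = Real.exp 1 ^ 18 := by
    rw [← Real.exp_nat_mul]; norm_num
  rw [h1]
  have h2 : (2.718 : ℝ) ≤ Real.exp 1 := by
    have := Real.exp_one_gt_d9
    linarith
  calc (65000000 : ℝ) ≤ (2.718 : ℝ) ^ 18 := by norm_num
    _ ≤ Real.exp 1 ^ 18 := pow_le_pow_left₀ (by norm_num) h2 18

/-- The activity condition for the field `h = 18 / β`. -/
theorem activity18 :
    Real.exp (-18) / (1 - Real.exp (-18)) * Real.exp (1 / 20000000) ≤ (1 / 20000000 : ℝ) := by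
  have hz : Real.exp (-18) ≤ 1 / 65000000 := by
    rw [Real.exp_neg, ← one_div]
    exact one_div_le_one_div_of_le (by norm_num) exp18
  have hz0 : 0 < Real.exp (-18) := Real.exp_pos _
  have he : Real.exp (1 / 20000000) ≤ 3 := by
    have h1 : Real.exp (1 / 20000000) ≤ Real.exp 1 := Real.exp_le_exp.mpr (by norm_num)
    have := Real.exp_one_lt_d9
    linarith
  have h1 : 0 < 1 - Real.exp (-18) := by linarith
  have h2 : Real.exp (-18) / (1 - Real.exp (-18)) ≤ 1 / 64999999 := by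
    rw [div_le_div_iff₀ h1 (by norm_num)]
    linarith
  have h3 : 0 ≤ Real.exp (-18) / (1 - Real.exp (-18)) := by positivity
  calc Real.exp (-18) / (1 - Real.exp (-18)) * Real.exp (1 / 20000000)
      ≤ 1 / 64999999 * 3 := mul_le_mul h2 he (Real.exp_pos _).le (by norm_num)
    _ ≤ 1 / 20000000 := by norm_num

/-- Passage from the finite-volume inequality to the derivative of the limiting pressure. -/
theorem deriv_bound_of_finite_volume {P : ℕ → ℝ → ℝ} {c : ℝ}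
    (hfin : ∃ h₀ : ℝ, 0 < h₀ ∧ ∃ N₀ : ℕ, ∀ N : ℕ, N₀ ≤ N → ∀ t : ℝ, 0 < t → t ≤ h₀ →
      P N t - P N 0 ≤ t * c)
    (p : ℝ → ℝ) (hp : ∀ h : ℝ, Tendsto (fun N : ℕ => P N h) atTop (𝓝 (p h)))
    (m : ℝ) (hm : HasDerivWithinAt p m (Set.Ioi 0) 0) : m ≤ c := by
  obtain ⟨h₀, hh₀, N₀, hN⟩ := hfin
  have hA : ∀ t, 0 < t → t ≤ h₀ → p t - p 0 ≤ t * c := by
    intro t ht0 hth
    have hlim := (hp t).sub (hp 0)
    apply le_of_tendsto hlim
    rw [eventually_atTop]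
    exact ⟨N₀, fun N hN' => hN N hN' t ht0 hth⟩
  rw [hasDerivWithinAt_iff_tendsto_slope' (by simp)] at hm
  apply le_of_tendsto hm
  filter_upwards [Ioo_mem_nhdsGT hh₀] with t ht
  rw [slope_def_field, sub_zero, div_le_iff₀ ht.1]
  have := hA t ht.1 ht.2.le
  linarith

end Vale.Agent.H96

namespace Vale.Agent.H96

set_option linter.unusedSectionVars false

theorem pressure_chord (d N : ℕ) {β : ℝ} (hβ : 0 < β) {h : ℝ} (hh : 0 < h) {t : ℝ}
    (ht0 : 0 < t) (hth : t ≤ h) :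
    pressure d N β t - pressure d N β 0 ≤ t / h * (pressure d N β h - pressure d N β 0) := by
  rcases eq_or_lt_of_le hth with rfl | hlt
  · rw [div_self hh.ne', one_mul]
  · have h0 : 0 < t / h := div_pos ht0 hh
    have h1 : t / h < 1 := (div_lt_one hh).mpr hlt
    have := pressure_convex d N hβ h h0 h1
    rw [div_mul_cancel₀ _ hh.ne'] at this
    linarith

/-- Finite-volume form of the Bloch-order bound, for all spins. -/
theorem finite_volume2 (d : ℕ) (hd : 1 ≤ d) (β : ℝ) (hβ : 1 ≤ β) :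
    ∃ h₀ : ℝ, 0 < h₀ ∧ ∃ N₀ : ℕ, ∀ N : ℕ, N₀ ≤ N → ∀ t : ℝ, 0 < t → t ≤ h₀ →
      pressure d N β t - pressure d N β 0 ≤
        t * ((d : ℝ) / 2 - 1 / (5000000 * ((d : ℝ) * β) ^ (3 / 2 : ℝ))) := by
  have hd' : (1 : ℝ) ≤ d := by exact_mod_cast hd
  have hβ0 : (0 : ℝ) < β := by linarith
  set x : ℝ := (d : ℝ) * β with hx
  have hx1 : 1 ≤ x := by nlinarith
  set s : ℝ := Real.sqrt x with hs
  have hs1 : 1 ≤ s := by
    rw [hs]
    calc (1 : ℝ) = Real.sqrt 1 := Real.sqrt_one.symm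
      _ ≤ Real.sqrt x := Real.sqrt_le_sqrt hx1
  have hss : s * s = x := Real.mul_self_sqrt (by linarith)
  have hs3 : x ^ (3 / 2 : ℝ) = s ^ 3 := by
    rw [hs, Real.sqrt_eq_rpow, ← Real.rpow_natCast, ← Real.rpow_mul (by linarith)]
    norm_num
  have hs30 : (0 : ℝ) < s ^ 3 := by positivity
  -- the block size
  set r : ℕ := ⌈Real.sqrt (12 * x)⌉₊ with hr
  have hq : Real.sqrt (12 * x) ≤ (7 / 2) * s := by
    rw [Real.sqrt_le_iff]
    constructor
    · positivity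
    · nlinarith
  have hq0 : 0 < Real.sqrt (12 * x) := Real.sqrt_pos.mpr (by linarith)
  have hr1 : 1 ≤ r := Nat.one_le_ceil_iff.mpr hq0
  have hrle : Real.sqrt (12 * x) ≤ (r : ℝ) := Nat.le_ceil _
  have hrlt : (r : ℝ) < Real.sqrt (12 * x) + 1 := Nat.ceil_lt_add_one hq0.le
  have hr0 : (0 : ℝ) < r := by linarith
  have h12 : 12 * x ≤ (r : ℝ) ^ 2 := (Real.sqrt_le_iff.mp hrle).2
  have ha : 12 * (d : ℝ) * β / (r : ℝ) ^ 2 ≤ 1 := by
    rw [div_le_one (by positivity)]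
    have : 12 * (d : ℝ) * β = 12 * x := by rw [hx]; ring
    linarith
  have hG := log_one_add_exp_ge ha
  have hr92 : (r : ℝ) ^ 3 ≤ 92 * s ^ 3 := by
    have h1 : (r : ℝ) ≤ (9 / 2) * s := by linarith
    have h2 : (r : ℝ) ^ 3 ≤ ((9 / 2) * s) ^ 3 := pow_le_pow_left₀ hr0.le h1 3
    have h3 : ((9 / 2 : ℝ) * s) ^ 3 = (729 / 8) * s ^ 3 := by ring
    linarith
  have hG2 : 1 / (188416 * s ^ 3) ≤
      Real.log (1 + Real.exp (-(12 * (d : ℝ) * β / (r : ℝ) ^ 2))) / (512 * (r : ℝ) ^ 3) := by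
    rw [div_le_div_iff₀ (by positivity) (by positivity)]
    have h1 : 512 * (r : ℝ) ^ 3 ≤ 512 * (92 * s ^ 3) := by linarith
    have h2 : (0 : ℝ) ≤ 512 * (r : ℝ) ^ 3 := by positivity
    nlinarith
  -- the one-particle scale
  set S : ℝ := Real.sqrt ((d : ℝ) / 2 * β) with hS
  have hSx : (d : ℝ) / 2 * β = x / 2 := by rw [hx]; ring
  have hS0 : 0 < S := Real.sqrt_pos.mpr (by rw [hSx]; linarith)
  have hSle : (7 / 10) * s ≤ S := by
    rw [hS, hSx]
    apply Real.le_sqrt_of_sq_le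
    nlinarith
  have hS3 : (343 / 1000) * s ^ 3 ≤ S ^ 3 := by
    have h2 : ((7 / 10) * s) ^ 3 ≤ S ^ 3 := pow_le_pow_left₀ (by positivity) hSle 3
    have h3 : ((7 / 10 : ℝ) * s) ^ 3 = (343 / 1000) * s ^ 3 := by ring
    linarith
  -- the activity
  set a : ℝ := 1 / 20000000 with ha_def
  have ha0 : (0 : ℝ) ≤ a := by rw [ha_def]; norm_num
  have ha1 : a < 1 := by rw [ha_def]; norm_num
  have hh₀ : (0 : ℝ) < 18 / β := by positivity
  have hbh : 18 / β * β = 18 := by field_simp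
  have hza : Real.exp (-(18 / β * β)) / (1 - Real.exp (-(18 / β * β))) * Real.exp a ≤ a := by
    rw [hbh]; exact activity18
  have hT : 8 * a / ((1 - a) ^ 2 * S ^ 3) ≤ 6 / (5000000 * s ^ 3) := by
    rw [div_le_div_iff₀ (by positivity) (by positivity)]
    have h1 : (99 / 100 : ℝ) ≤ (1 - a) ^ 2 := by rw [ha_def]; norm_num
    have h2 : (99 / 100 : ℝ) * ((343 / 1000) * s ^ 3) ≤ (1 - a) ^ 2 * S ^ 3 :=
      mul_le_mul h1 hS3 (by positivity) (by positivity)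
    rw [ha_def]
    nlinarith
  have hX : 8 * a / ((1 - a) ^ 2 * S ^ 3) -
      Real.log (1 + Real.exp (-(12 * (d : ℝ) * β / (r : ℝ) ^ 2))) / (512 * (r : ℝ) ^ 3) ≤
      -(18 / (5000000 * s ^ 3)) := by
    have e1 : (6 : ℝ) / (5000000 * s ^ 3) = 6 / 5000000 * (1 / s ^ 3) := by field_simp
    have e2 : (1 : ℝ) / (188416 * s ^ 3) = 1 / 188416 * (1 / s ^ 3) := by field_simp
    have e3 : (18 : ℝ) / (5000000 * s ^ 3) = 18 / 5000000 * (1 / s ^ 3) := by field_simp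
    have hpos : (0 : ℝ) < 1 / s ^ 3 := by positivity
    rw [e3]
    rw [e1] at hT
    rw [e2] at hG2
    nlinarith
  refine ⟨18 / β, hh₀, 2 * r + ⌈S⌉₊, fun N hN t ht0 hth => ?_⟩
  have hN1 : 4 * r ≤ 2 * N + 1 := by omega
  have hN2 : 2 * S ≤ ((2 * N + 1 : ℕ) : ℝ) := by
    have h1 : S ≤ (⌈S⌉₊ : ℝ) := Nat.le_ceil _
    have h2 : ((⌈S⌉₊ : ℕ) : ℝ) ≤ (N : ℝ) := by
      have : ⌈S⌉₊ ≤ N := by omega
      exact_mod_cast this
    push_cast
    linarith
  have hdiff := pressure_diff_le2 d N r hd hr1 hN1 hβ0 hh₀ hN2 ha0 ha1 hza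
  have hchord := pressure_chord d N hβ0 hh₀ ht0 hth
  rw [hs3]
  have hth0 : 0 < t / (18 / β) := div_pos ht0 hh₀
  have h5 : t / (18 / β) * (pressure d N β (18 / β) - pressure d N β 0) ≤
      t / (18 / β) * (18 / β * ((d : ℝ) / 2) + (-(18 / (5000000 * s ^ 3))) / β) := by
    apply mul_le_mul_of_nonneg_left _ hth0.le
    have : (8 * a / ((1 - a) ^ 2 * S ^ 3) -
        Real.log (1 + Real.exp (-(12 * (d : ℝ) * β / (r : ℝ) ^ 2))) / (512 * (r : ℝ) ^ 3)) / β ≤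
        (-(18 / (5000000 * s ^ 3))) / β := div_le_div_of_nonneg_right hX hβ0.le
    linarith
  have e : t / (18 / β) * (18 / β * ((d : ℝ) / 2) + (-(18 / (5000000 * s ^ 3))) / β) =
      t * ((d : ℝ) / 2 - 1 / (5000000 * s ^ 3)) := by
    field_simp
    ring
  linarith

/-- Bloch-order upper bound on the spontaneous magnetization, for all spins. -/
theorem bloch_upper (d : ℕ) (hd : 1 ≤ d) (β : ℝ) (hβ : 1 ≤ β) :
    (∃ h₀ : ℝ, 0 < h₀ ∧ ∃ N₀ : ℕ, ∀ N : ℕ, N₀ ≤ N → ∀ t : ℝ, 0 < t → t ≤ h₀ →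
        pressure d N β t - pressure d N β 0 ≤
          t * ((d : ℝ) / 2 - 1 / (5000000 * ((d : ℝ) * β) ^ (3 / 2 : ℝ)))) ∧
    (∀ p : ℝ → ℝ, (∀ h : ℝ, Tendsto (fun N : ℕ => pressure d N β h) atTop (𝓝 (p h))) →
      ∀ m : ℝ, HasDerivWithinAt p m (Set.Ioi 0) 0 →
        m ≤ (d : ℝ) / 2 - 1 / (5000000 * ((d : ℝ) * β) ^ (3 / 2 : ℝ))) :=
  ⟨finite_volume2 d hd β hβ, fun p hp m hm =>
    deriv_bound_of_finite_volume (finite_volume2 d hd β hβ) p hp m hm⟩

end Vale.Agent.H96
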